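import Vale.Agent.P153.R2.R1.HalfP

/-!
# P153, domains with a locally connected boundary: conformal maps of the closed disc

`CConf φ D`: `φ` is continuous on the closed disc and conformal from the open disc onto `D` (it need
not be injective on the circle).

* `exists_level`: chords with disjoint images;
* `light`: connected sets with a small image are small;
* `sep`: a connected set in a strip which joins the two arcs separates the disc;
* `DS`: uniform convergence of homeomorphisms of the closed disc to `φ`.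
-/

set_option autoImplicit false

open Set Topology Metric Filter

namespace Vale.Agent.N153

open Vale.Agent.P153.R2.R1

variable {φ : ℂ → ℂ} {D : Set ℂ}

theorem mem_cb {w : ℂ} : w ∈ closedBall (0 : ℂ) 1 ↔ ‖w‖ ≤ 1 := mem_closedBall_zero_iff

theorem mem_ob {w : ℂ} : w ∈ ball (0 : ℂ) 1 ↔ ‖w‖ < 1 := mem_ball_zero_iff

theorem mem_sp {w : ℂ} : w ∈ sphere (0 : ℂ) 1 ↔ ‖w‖ = 1 := mem_sphere_zero_iff_norm

theorem notMem_of_norm (h : CConf φ D) {w : ℂ} (hw : ‖w‖ = 1) : φ w ∉ D :=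
  notMem_of_frontier h.isOpen (h.sphere_mem (mem_sp.2 hw))

/-- Two points of the closed disc with the same image are equal or on the circle. -/
theorem eq_or_sphere (h : CConf φ D) {w w' : ℂ} (hw : ‖w‖ ≤ 1) (hw' : ‖w'‖ ≤ 1)
    (he : φ w = φ w') : w = w' ∨ (‖w‖ = 1 ∧ ‖w'‖ = 1) := by
  rcases hw.lt_or_eq with h1 | h1 <;> rcases hw'.lt_or_eq with h2 | h2
  · exact Or.inl (h.inj (mem_ob.2 h1) (mem_ob.2 h2) he)
  · exact absurd (he ▸ h.mem (mem_ob.2 h1)) (notMem_of_norm h h2)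
  · exact absurd (he.symm ▸ h.mem (mem_ob.2 h2)) (notMem_of_norm h h1)
  · exact Or.inr ⟨h1, h2⟩

theorem norm_sq_eq (w : ℂ) : ‖w‖ ^ 2 = w.re ^ 2 + w.im ^ 2 := by
  rw [Complex.sq_norm, Complex.normSq_apply]; ring

/-! ### Chords -/

/-- The chord at the level `c`. -/
def ch (c : ℝ) : Set ℂ := {w | ‖w‖ ≤ 1 ∧ w.re = c}

/-- The ends of the chord. -/
noncomputable def cp (s c : ℝ) : ℂ := ⟨c, s * √(1 - c ^ 2)⟩

theorem isCompact_ch (c : ℝ) : IsCompact (ch c) := by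
  have e : ch c = closedBall (0 : ℂ) 1 ∩ {w | w.re = c} := by
    ext w; simp only [ch, mem_ofPred_eq, mem_inter_iff, mem_cb]
  rw [e]
  exact (isCompact_closedBall 0 1).inter_right
    (isClosed_eq Complex.continuous_re continuous_const)

theorem norm_cp {s c : ℝ} (hs : s = 1 ∨ s = -1) (hc : |c| ≤ 1) : ‖cp s c‖ = 1 := by
  have h1 : 0 ≤ 1 - c ^ 2 := by
    have := abs_le.1 hc
    nlinarith
  have h2 : s ^ 2 = 1 := by rcases hs with rfl | rfl <;> norm_num
  have h3 : ‖cp s c‖ ^ 2 = 1 := by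
    rw [norm_sq_eq]
    simp only [cp]
    rw [mul_pow, Real.sq_sqrt h1, h2]
    ring
  exact (pow_eq_one_iff_of_nonneg (norm_nonneg _) two_ne_zero).1 h3

theorem continuous_cp (s : ℝ) : Continuous (cp s) := by
  have : cp s = fun c : ℝ => (c : ℂ) + ((s * √(1 - c ^ 2) : ℝ) : ℂ) * Complex.I := by
    funext c
    apply Complex.ext <;> simp [cp]
  rw [this]
  fun_prop

theorem eq_cp {w : ℂ} (hw : ‖w‖ = 1) : w = cp 1 w.re ∨ w = cp (-1) w.re := by
  have h1 := norm_sq_eq w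
  rw [hw] at h1
  have h2 : 1 - w.re ^ 2 = w.im ^ 2 := by linarith
  rcases le_total 0 w.im with h | h
  · left
    apply Complex.ext
    · rfl
    · simp only [cp]
      rw [h2, Real.sqrt_sq h, one_mul]
  · right
    apply Complex.ext
    · rfl
    · simp only [cp]
      rw [h2, ← neg_sq, Real.sqrt_sq (by linarith)]
      ring

theorem eq_cp' {w : ℂ} {s : ℝ} (hs : s = 1 ∨ s = -1) (hw : ‖w‖ = 1) (h : 0 ≤ s * w.im) :
    w = cp s w.re := by
  have h1 := norm_sq_eq w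
  rw [hw] at h1
  have h2 : 1 - w.re ^ 2 = (s * w.im) ^ 2 := by
    rcases hs with rfl | rfl <;> linarith
  apply Complex.ext
  · rfl
  · simp only [cp]
    rw [h2, Real.sqrt_sq h]
    rcases hs with rfl | rfl <;> ring

/-- The boundary values avoid a given point on some subinterval. -/
theorem avoid (h : CConf φ D) {s : ℝ} (hs : s = 1 ∨ s = -1) {z : ℂ} (hz : z ∉ D) {α β : ℝ}
    (hα : -1 ≤ α) (hαβ : α < β) (hβ : β ≤ 1) :
    ∃ α' β', α ≤ α' ∧ α' < β' ∧ β' ≤ β ∧ ∀ c ∈ Ioo α' β', φ (cp s c) ≠ z := by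
  have habs : ∀ c ∈ Ioo α β, |c| < 1 := fun c hc => abs_lt.2 ⟨by linarith [hc.1], by linarith [hc.2]⟩
  have hex : ∃ c ∈ Ioo α β, φ (cp s c) ≠ z := by
    by_contra hcon
    push Not at hcon
    have hm : (α + β) / 2 ∈ Ioo α β := ⟨by linarith, by linarith⟩
    have hO : IsOpen {w : ℂ | (α < w.re ∧ w.re < β) ∧ 0 < s * w.im} := by
      refine IsOpen.inter (IsOpen.inter ?_ ?_) ?_
      · exact isOpen_lt continuous_const Complex.continuous_re
      · exact isOpen_lt Complex.continuous_re continuous_const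
      · exact isOpen_lt continuous_const (continuous_const.mul Complex.continuous_im)
    refine h.not_const hz hO (a := cp s ((α + β) / 2)) (mem_sp.2 (norm_cp hs (habs _ hm).le)) ?_ ?_
    · refine ⟨hm, ?_⟩
      have h1 : 0 < 1 - ((α + β) / 2) ^ 2 := by
        have := abs_lt.1 (habs _ hm)
        nlinarith
      have h2 := Real.sqrt_pos.2 h1
      simp only [cp]
      rcases hs with rfl | rfl <;> nlinarith
    · intro w hw hwO
      rw [eq_cp' hs (mem_sp.1 hw) hwO.2.le]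
      exact hcon _ hwO.1
  obtain ⟨c, hc, hcz⟩ := hex
  have hcont : ContinuousOn (fun c => φ (cp s c)) (Ioo α β) :=
    h.cont.comp (continuous_cp s).continuousOn fun c hc =>
      mem_cb.2 (norm_cp hs (habs c hc).le).le
  have h1 : ∀ᶠ c' in 𝓝 c, φ (cp s c') ≠ z ∧ c' ∈ Ioo α β :=
    ((hcont.continuousAt (isOpen_Ioo.mem_nhds hc)).eventually_ne hcz).and (isOpen_Ioo.mem_nhds hc)
  obtain ⟨ε, hε, hball⟩ := Metric.eventually_nhds_iff_ball.1 h1
  refine ⟨max α (c - ε), min β (c + ε), le_max_left _ _, ?_, min_le_left _ _, fun c' hc' => ?_⟩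
  · exact max_lt (lt_min hαβ (by linarith [hc.1])) (lt_min (by linarith [hc.2]) (by linarith))
  · refine (hball c' ?_).1
    rw [mem_ball, Real.dist_eq, abs_lt]
    have h2 := (max_lt_iff.1 hc'.1).2
    have h3 := (lt_min_iff.1 hc'.2).2
    constructor <;> linarith

/-- A chord whose image does not meet the image of a given chord. -/
theorem exists_level (h : CConf φ D) {c α β : ℝ} (hc1 : |c| ≤ 1) (hα : -1 ≤ α) (hαβ : α < β)
    (hβ : β ≤ 1) (hc : c ∉ Ioo α β) : ∃ c' ∈ Ioo α β, Disjoint (φ '' ch c) (φ '' ch c') := by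
  have p1 : (1 : ℝ) = 1 ∨ (1 : ℝ) = -1 := Or.inl rfl
  have p2 : (-1 : ℝ) = 1 ∨ (-1 : ℝ) = -1 := Or.inr rfl
  have z1 := notMem_of_norm h (norm_cp p1 hc1)
  have z2 := notMem_of_norm h (norm_cp p2 hc1)
  obtain ⟨a1, b1, a1', h1, b1', k1⟩ := avoid h p1 z1 hα hαβ hβ
  obtain ⟨a2, b2, a2', h2, b2', k2⟩ := avoid h p1 z2 (hα.trans a1') h1 (b1'.trans hβ)
  obtain ⟨a3, b3, a3', h3, b3', k3⟩ := avoid h p2 z1 ((hα.trans a1').trans a2') h2
    (b2'.trans (b1'.trans hβ))
  obtain ⟨a4, b4, a4', h4, b4', k4⟩ := avoid h p2 z2 (((hα.trans a1').trans a2').trans a3') h3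
    (b3'.trans (b2'.trans (b1'.trans hβ)))
  refine ⟨(a4 + b4) / 2, ⟨by linarith, by linarith⟩, ?_⟩
  rw [Set.disjoint_left]
  rintro _ ⟨w, hw, rfl⟩ ⟨w', hw', he⟩
  rcases eq_or_sphere h hw'.1 hw.1 he with h5 | ⟨h5, h6⟩
  · apply hc
    rw [← hw.2, ← h5, hw'.2]
    exact ⟨by linarith, by linarith⟩
  · have e1 := eq_cp h5
    have e2 := eq_cp h6
    rw [hw'.2] at e1
    rw [hw.2] at e2
    rcases e1 with e1 | e1 <;> rcases e2 with e2 | e2 <;> rw [e1, e2] at he
    · exact k1 _ ⟨by linarith, by linarith⟩ he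
    · exact k2 _ ⟨by linarith, by linarith⟩ he
    · exact k3 _ ⟨by linarith, by linarith⟩ he
    · exact k4 _ ⟨by linarith, by linarith⟩ he

/-- Compact sets with disjoint images have images at a positive distance. -/
theorem apart (h : CConf φ D) {A B : Set ℂ} (hA : IsCompact A) (hB : IsCompact B)
    (hA1 : A ⊆ closedBall 0 1) (hB1 : B ⊆ closedBall 0 1) (hd : Disjoint (φ '' A) (φ '' B)) :
    ∃ d > 0, ∀ a ∈ A, ∀ b ∈ B, d ≤ dist (φ a) (φ b) := by
  have h1 := hA.image_of_continuousOn (h.cont.mono hA1)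
  have h2 := hB.image_of_continuousOn (h.cont.mono hB1)
  obtain ⟨d, hd0, h3⟩ := hd.exists_thickenings h1 h2.isClosed
  refine ⟨d, hd0, fun a ha b hb => ?_⟩
  by_contra hcon
  rw [not_le] at hcon
  exact h3.le_bot ⟨self_subset_thickening hd0 _ (mem_image_of_mem φ ha),
    mem_thickening_iff.2 ⟨φ b, mem_image_of_mem φ hb, hcon⟩⟩

theorem ch_sub (c : ℝ) : ch c ⊆ closedBall 0 1 := fun _ hw => mem_cb.2 hw.1

/-- A connected set meets all the intermediate levels. -/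
theorem exists_re {K : Set ℂ} (hK : IsPreconnected K) {w w' : ℂ} (hw : w ∈ K) (hw' : w' ∈ K)
    {c : ℝ} (h1 : w.re ≤ c) (h2 : c ≤ w'.re) : ∃ x ∈ K, x.re = c :=
  (hK.image _ Complex.continuous_re.continuousOn).Icc_subset (mem_image_of_mem _ hw)
    (mem_image_of_mem _ hw') ⟨h1, h2⟩

theorem exists_im {K : Set ℂ} (hK : IsPreconnected K) {w w' : ℂ} (hw : w ∈ K) (hw' : w' ∈ K)
    {s c : ℝ} (h1 : s * w.im ≤ c) (h2 : c ≤ s * w'.im) : ∃ x ∈ K, s * x.im = c :=
  (hK.image (fun x : ℂ => s * x.im)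
    (continuous_const.mul Complex.continuous_im).continuousOn).Icc_subset (mem_image_of_mem _ hw)
    (mem_image_of_mem _ hw') ⟨h1, h2⟩

/-! ### Lightness -/

/-- Two separated levels in every interval. -/
theorem two_levels (h : CConf φ D) (α β : ℝ) : ∃ d > 0, -1 ≤ α → α < β → β ≤ 1 →
    ∃ c c', α < c ∧ c < c' ∧ c' < β ∧ ∀ a ∈ ch c, ∀ b ∈ ch c', d ≤ dist (φ a) (φ b) := by
  by_cases hh : -1 ≤ α ∧ α < β ∧ β ≤ 1
  · obtain ⟨h1, h2, h3⟩ := hh
    have hc : |(α + β) / 2| ≤ 1 := abs_le.2 ⟨by linarith, by linarith⟩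
    obtain ⟨c', hc', hd⟩ := exists_level h hc (α := (α + β) / 2) (β := β) (by linarith)
      (by linarith) h3 fun h4 => lt_irrefl _ h4.1
    obtain ⟨d, hd0, h4⟩ := apart h (isCompact_ch _) (isCompact_ch _) (ch_sub _) (ch_sub _) hd
    exact ⟨d, hd0, fun _ _ _ => ⟨_, c', by linarith, hc'.1, hc'.2, h4⟩⟩
  · exact ⟨1, one_pos, fun h1 h2 h3 => absurd ⟨h1, h2, h3⟩ hh⟩

theorem light_re (h : CConf φ D) {ε : ℝ} (hε : 0 < ε) : ∃ η > 0, ∀ K ⊆ closedBall (0 : ℂ) 1,
    IsPreconnected K → (∀ w ∈ K, ∀ w' ∈ K, dist (φ w) (φ w') < η) →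
    ∀ w ∈ K, ∀ w' ∈ K, w'.re - w.re ≤ ε := by
  choose d hd0 hd using fun j : ℤ => two_levels h (j * (ε / 3)) ((j + 1) * (ε / 3))
  obtain ⟨M, hM⟩ := exists_nat_ge (3 / ε)
  have hne : (Finset.Icc (-(M : ℤ)) M).Nonempty := ⟨0, by simp⟩
  refine ⟨(Finset.Icc (-(M : ℤ)) M).inf' hne d, ?_, ?_⟩
  · rw [gt_iff_lt, Finset.lt_inf'_iff]
    exact fun j _ => hd0 j
  intro K hK hKc hs w hw w' hw'
  by_contra hcon
  rw [not_le] at hcon
  have hre : ∀ x ∈ K, |x.re| ≤ 1 := fun x hx =>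
    (Complex.abs_re_le_norm x).trans (mem_cb.1 (hK hx))
  obtain ⟨a1, a2⟩ := abs_le.1 (hre w hw)
  obtain ⟨b1, b2⟩ := abs_le.1 (hre w' hw')
  have hε3 : 0 < ε / 3 := by positivity
  set j : ℤ := ⌈w.re / (ε / 3)⌉ with hj
  have j1 : w.re ≤ j * (ε / 3) := by
    have := Int.le_ceil (w.re / (ε / 3))
    rwa [div_le_iff₀ hε3] at this
  have j2 : j * (ε / 3) < w.re + ε / 3 := by
    have := Int.ceil_lt_add_one (w.re / (ε / 3))
    have h2 := mul_lt_mul_of_pos_right this hε3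
    rwa [add_mul, div_mul_cancel₀ _ hε3.ne', one_mul] at h2
  have hM' : 1 ≤ M * (ε / 3) := by
    rw [div_le_iff₀ hε] at hM
    linarith
  have hjm : j ∈ Finset.Icc (-(M : ℤ)) M := by
    rw [Finset.mem_Icc]
    constructor
    · have h1 : (-(M : ℝ)) * (ε / 3) ≤ j * (ε / 3) := by linarith
      have h2 := le_of_mul_le_mul_right h1 hε3
      exact_mod_cast h2
    · have h1 : (j : ℝ) * (ε / 3) ≤ M * (ε / 3) := by linarith
      have h2 := le_of_mul_le_mul_right h1 hε3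
      exact_mod_cast h2
  obtain ⟨c, c', k1, k2, k3, k4⟩ := hd j (by linarith) (by linarith) (by linarith)
  obtain ⟨x, hx, hxc⟩ := exists_re hKc hw hw' (c := c) (by linarith) (by linarith)
  obtain ⟨y, hy, hyc⟩ := exists_re hKc hw hw' (c := c') (by linarith) (by linarith)
  have h5 := k4 x ⟨mem_cb.1 (hK hx), hxc⟩ y ⟨mem_cb.1 (hK hy), hyc⟩
  have h6 := hs x hx y hy
  have h7 := Finset.inf'_le d hjm
  linarith

/-- **Lightness.** -/
theorem light (h : CConf φ D) {ε : ℝ} (hε : 0 < ε) : ∃ η > 0, ∀ K ⊆ closedBall (0 : ℂ) 1,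
    IsPreconnected K → (∀ w ∈ K, ∀ w' ∈ K, dist (φ w) (φ w') < η) →
    ∀ w ∈ K, ∀ w' ∈ K, dist w w' ≤ ε := by
  obtain ⟨η₁, h1, k1⟩ := light_re h (half_pos hε)
  obtain ⟨η₂, h2, k2⟩ := light_re (h.comp_rot (u := Complex.I) Complex.norm_I) (half_pos hε)
  refine ⟨min η₁ η₂, lt_min h1 h2, fun K hK hKc hs w hw w' hw' => ?_⟩
  have r1 := k1 K hK hKc fun a ha b hb => (hs a ha b hb).trans_le (min_le_left _ _)
  have e : ∀ a : ℂ, Complex.I * (-Complex.I * a) = a := fun a => by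
    rw [← mul_assoc, mul_neg, Complex.I_mul_I]; ring
  have r2 := k2 ((fun a => -Complex.I * a) '' K) (by
      rintro _ ⟨a, ha, rfl⟩
      rw [mem_cb, norm_mul, norm_neg, Complex.norm_I, one_mul]
      exact mem_cb.1 (hK ha))
    (hKc.image _ (by fun_prop)) (by
      rintro _ ⟨a, ha, rfl⟩ _ ⟨b, hb, rfl⟩
      simp only [e]
      exact (hs a ha b hb).trans_le (min_le_right _ _))
  have s1 := r1 w hw w' hw'
  have s2 := r1 w' hw' w hw
  have s3 := r2 _ (mem_image_of_mem _ hw) _ (mem_image_of_mem _ hw')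
  have s4 := r2 _ (mem_image_of_mem _ hw') _ (mem_image_of_mem _ hw)
  simp only [neg_mul, Complex.neg_re, Complex.I_mul_re, neg_neg] at s3 s4
  rw [dist_eq_norm]
  refine (Complex.norm_le_abs_re_add_abs_im _).trans ?_
  rw [Complex.sub_re, Complex.sub_im]
  have t1 : |w.re - w'.re| ≤ ε / 2 := abs_le.2 ⟨by linarith, by linarith⟩
  have t2 : |w.im - w'.im| ≤ ε / 2 := abs_le.2 ⟨by linarith, by linarith⟩
  linarith

/-! ### Separation -/

theorem preconn_re_le (c : ℝ) : IsPreconnected {w : ℂ | w.re ≤ c} :=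
  (convex_halfSpace_re_le c).isPreconnected

theorem preconn_re_ge (c : ℝ) : IsPreconnected {w : ℂ | c ≤ w.re} :=
  (convex_halfSpace_re_ge c).isPreconnected

/-- **Separation.** A connected compact set in a strip of the closed disc which joins the upper
and the lower half of the circle meets every connected subset of the open disc which crosses the
strip. -/
theorem sep {K T : Set ℂ} {c₁ c₂ : ℝ} (h1 : -1 ≤ c₁) (h2 : c₂ ≤ 1) (hK : IsCompact K)
    (hKc : IsPreconnected K) (hKb : K ⊆ closedBall 0 1) (hKs : ∀ w ∈ K, c₁ < w.re ∧ w.re < c₂)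
    {u v : ℂ} (hu : u ∈ K) (hv : v ∈ K) (hu1 : ‖u‖ = 1) (hv1 : ‖v‖ = 1) (hu0 : 0 ≤ u.im)
    (hv0 : v.im ≤ 0) (hT : IsPreconnected T) (hTb : T ⊆ ball 0 1) (hTK : Disjoint T K) {a b : ℂ}
    (ha : a ∈ T) (hb : b ∈ T) (hac : c₂ ≤ a.re) (hbc : b.re ≤ c₁) : False := by
  obtain ⟨u1, u2⟩ := hKs u hu
  obtain ⟨v1, v2⟩ := hKs v hv
  set N : Set ℂ := sphere 0 1 ∩ (({w | 0 ≤ w.im} ∩ {w | u.re ≤ w.re}) ∪
    ({w | w.im ≤ 0} ∩ {w | v.re ≤ w.re})) with hN
  set F : Set ℂ := sphere 0 1 ∩ (({w | 0 ≤ w.im} ∩ {w | w.re ≤ u.re}) ∪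
    ({w | w.im ≤ 0} ∩ {w | w.re ≤ v.re})) with hF
  have c1 := Complex.continuous_re
  have c2 := Complex.continuous_im
  have hNc : IsCompact N := (isCompact_sphere 0 1).inter_right
    (((isClosed_le continuous_const c2).inter (isClosed_le continuous_const c1)).union
      ((isClosed_le c2 continuous_const).inter (isClosed_le continuous_const c1)))
  have hFc : IsCompact F := (isCompact_sphere 0 1).inter_right
    (((isClosed_le continuous_const c2).inter (isClosed_le c1 continuous_const)).union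
      ((isClosed_le c2 continuous_const).inter (isClosed_le c1 continuous_const)))
  have p1 : (1 : ℝ) = 1 ∨ (1 : ℝ) = -1 := Or.inl rfl
  have p2 : (-1 : ℝ) = 1 ∨ (-1 : ℝ) = -1 := Or.inr rfl
  have hreal : ∀ w : ℂ, ‖w‖ = 1 → w.im = 0 → w.re = 1 ∨ w.re = -1 := by
    intro w hw hw0
    have h3 := norm_sq_eq w
    rw [hw, hw0] at h3
    have h4 : (w.re - 1) * (w.re + 1) = 0 := by linarith
    rcases mul_eq_zero.1 h4 with h5 | h5
    · left; linarith
    · right; linarith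
  have hNF : (K ∪ N) ∩ (K ∪ F) = K := by
    apply Subset.antisymm
    · rintro w ⟨hw | hw, hw' | hw'⟩
      · exact hw
      · exact hw
      · exact hw'
      · have hw1 := mem_sp.1 hw.1
        rcases hw.2 with ⟨g1, g2⟩ | ⟨g1, g2⟩ <;> rcases hw'.2 with ⟨g3, g4⟩ | ⟨g3, g4⟩ <;>
          simp only [mem_ofPred_eq] at g1 g2 g3 g4
        · have e : w.re = u.re := le_antisymm g4 g2
          rw [eq_cp' p1 hw1 (by linarith), e, ← eq_cp' p1 hu1 (by linarith)]
          exact hu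
        · rcases hreal w hw1 (le_antisymm g3 g1) with e | e <;> linarith
        · rcases hreal w hw1 (le_antisymm g1 g3) with e | e <;> linarith
        · have e : w.re = v.re := le_antisymm g4 g2
          rw [eq_cp' p2 hw1 (by linarith), e, ← eq_cp' p2 hv1 (by linarith)]
          exact hv
    · exact subset_inter subset_union_left subset_union_left
  have hout := preconnected_compl_closedBall (0 : ℂ) 1
  have m2 : (2 : ℂ) ∈ (closedBall (0 : ℂ) 1)ᶜ := by
    rw [mem_compl_iff, mem_cb]; norm_num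
  have m3 : (-2 : ℂ) ∈ (closedBall (0 : ℂ) 1)ᶜ := by
    rw [mem_compl_iff, mem_cb]; norm_num
  have hS : IsPreconnected ((T ∪ {w : ℂ | w.re ≤ c₁}) ∪ (closedBall (0 : ℂ) 1)ᶜ) := by
    refine IsPreconnected.union (-2) (Or.inr ?_) m3 ?_ hout
    · show (-2 : ℂ).re ≤ c₁
      simp only [Complex.neg_re, Complex.re_ofNat]
      linarith
    · exact IsPreconnected.union b hb hbc hT (preconn_re_le c₁)
  have hS' : IsPreconnected ({w : ℂ | c₂ ≤ w.re} ∪ (closedBall (0 : ℂ) 1)ᶜ) := by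
    refine IsPreconnected.union 2 ?_ m2 (preconn_re_ge c₂) hout
    show c₂ ≤ (2 : ℂ).re
    simp only [Complex.re_ofNat]
    linarith
  have hJ := janiszewski (hK.union hNc) (hK.union hFc) (by rw [hNF]; exact hKc) (p := a) (q := 2)
    hS (by
      rw [Set.disjoint_left]
      rintro w ((hw | hw) | hw) (hw' | hw')
      · exact hTK.le_bot ⟨hw, hw'⟩
      · have h3 := mem_ob.1 (hTb hw)
        rw [mem_sp.1 hw'.1] at h3
        exact lt_irrefl _ h3
      · have h3 : w.re ≤ c₁ := hw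
        linarith [(hKs w hw').1]
      · have h3 : w.re ≤ c₁ := hw
        rcases hw'.2 with ⟨-, g⟩ | ⟨-, g⟩ <;> simp only [mem_ofPred_eq] at g <;> linarith
      · exact hw (hKb hw')
      · exact hw (sphere_subset_closedBall hw'.1))
    (Or.inl (Or.inl ha)) (Or.inr m2) hS' (by
      rw [Set.disjoint_left]
      rintro w (hw | hw) (hw' | hw')
      · have h3 : c₂ ≤ w.re := hw
        linarith [(hKs w hw').2]
      · have h3 : c₂ ≤ w.re := hw
        rcases hw'.2 with ⟨-, g⟩ | ⟨-, g⟩ <;> simp only [mem_ofPred_eq] at g <;> linarith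
      · exact hw (hKb hw')
      · exact hw (sphere_subset_closedBall hw'.1))
    (Or.inl hac) (Or.inr m2)
  set C := connectedComponentIn ((K ∪ N) ∪ (K ∪ F))ᶜ a with hC
  have haC : a ∈ C := by
    by_contra hcon
    have h3 : a ∉ ((K ∪ N) ∪ (K ∪ F))ᶜ := fun h4 => hcon (mem_connectedComponentIn h4)
    rw [hC, connectedComponentIn_eq_empty h3] at hJ
    exact hJ
  have h3 := (isPreconnected_connectedComponentIn (x := a) (F := ((K ∪ N) ∪ (K ∪ F))ᶜ)).image _
    (continuous_norm (E := ℂ)).continuousOn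
  have h4 : (1 : ℝ) ∈ (fun w : ℂ => ‖w‖) '' C := by
    refine h3.Icc_subset (mem_image_of_mem _ haC) (mem_image_of_mem _ hJ) ⟨?_, ?_⟩
    · exact (mem_ob.1 (hTb ha)).le
    · norm_num
  obtain ⟨w, hw, hw1⟩ := h4
  have hw2 : w ∈ sphere (0 : ℂ) 1 := mem_sp.2 hw1
  refine connectedComponentIn_subset _ _ hw ?_
  rcases le_total 0 w.im with g1 | g1
  · rcases le_total u.re w.re with g2 | g2
    · exact Or.inl (Or.inr ⟨hw2, Or.inl ⟨g1, g2⟩⟩)
    · exact Or.inr (Or.inr ⟨hw2, Or.inl ⟨g1, g2⟩⟩)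
  · rcases le_total v.re w.re with g2 | g2
    · exact Or.inl (Or.inr ⟨hw2, Or.inr ⟨g1, g2⟩⟩)
    · exact Or.inr (Or.inr ⟨hw2, Or.inr ⟨g1, g2⟩⟩)

/-! ### Sequences of maps -/

/-- Homeomorphisms `φn n` of the closed disc onto the closures of the domains `Dn n`, conformal
inside, with the inverse maps `gn n`, which converge uniformly to `φ`. -/
structure DS (D : Set ℂ) (φ : ℂ → ℂ) (Dn : ℕ → Set ℂ) (φn gn : ℕ → ℂ → ℂ) : Prop where
  conf : CConf φ D
  confn : ∀ n, CConf (φn n) (Dn n)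
  inv : ∀ n, ∀ w : ℂ, ‖w‖ ≤ 1 → gn n (φn n w) = w
  conv : ∀ ε > 0, ∀ᶠ n in atTop, ∀ w : ℂ, ‖w‖ ≤ 1 → dist (φn n w) (φ w) < ε

namespace DS

variable {Dn : ℕ → Set ℂ} {φn gn : ℕ → ℂ → ℂ}

theorem exists_pre (h : DS D φ Dn φn gn) (n : ℕ) {x : ℂ} (hx : x ∈ closure (Dn n)) :
    ∃ w : ℂ, ‖w‖ ≤ 1 ∧ φn n w = x := by
  rw [← (h.confn n).closure_eq] at hx
  obtain ⟨w, hw, rfl⟩ := hx
  exact ⟨w, mem_cb.1 hw, rfl⟩

theorem norm_le (h : DS D φ Dn φn gn) (n : ℕ) {x : ℂ} (hx : x ∈ closure (Dn n)) :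
    ‖gn n x‖ ≤ 1 := by
  obtain ⟨w, hw, rfl⟩ := h.exists_pre n hx
  rwa [h.inv n w hw]

theorem map_inv (h : DS D φ Dn φn gn) (n : ℕ) {x : ℂ} (hx : x ∈ closure (Dn n)) :
    φn n (gn n x) = x := by
  obtain ⟨w, hw, rfl⟩ := h.exists_pre n hx
  rw [h.inv n w hw]

theorem norm_lt (h : DS D φ Dn φn gn) (n : ℕ) {x : ℂ} (hx : x ∈ Dn n) : ‖gn n x‖ < 1 := by
  rw [← (h.confn n).img] at hx
  obtain ⟨w, hw, rfl⟩ := hx
  rw [h.inv n w (mem_ob.1 hw).le]
  exact mem_ob.1 hw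

theorem norm_eq (h : DS D φ Dn φn gn) (n : ℕ) {x : ℂ} (hx : x ∈ closure (Dn n))
    (hx' : x ∉ Dn n) : ‖gn n x‖ = 1 := by
  refine le_antisymm (h.norm_le n hx) (not_lt.1 fun hlt => hx' ?_)
  rw [← h.map_inv n hx]
  exact (h.confn n).mem (mem_ob.2 hlt)

theorem mem_closure (h : DS D φ Dn φn gn) (n : ℕ) {w : ℂ} (hw : ‖w‖ ≤ 1) :
    φn n w ∈ closure (Dn n) := by
  rw [← (h.confn n).closure_eq]
  exact mem_image_of_mem _ (mem_cb.2 hw)

theorem injOn (h : DS D φ Dn φn gn) (n : ℕ) : InjOn (gn n) (closure (Dn n)) := by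
  intro x hx y hy he
  rw [← h.map_inv n hx, he, h.map_inv n hy]

/-- The inverse maps are continuous. -/
theorem cont (h : DS D φ Dn φn gn) (n : ℕ) : ContinuousOn (gn n) (closure (Dn n)) := by
  rw [continuousOn_iff_isClosed]
  intro t ht
  refine ⟨φn n '' (closedBall 0 1 ∩ t), ?_, ?_⟩
  · exact (((isCompact_closedBall 0 1).inter_right ht).image_of_continuousOn
      ((h.confn n).cont.mono inter_subset_left)).isClosed
  · ext x
    constructor
    · rintro ⟨hx, hx'⟩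
      exact ⟨⟨gn n x, ⟨mem_cb.2 (h.norm_le n hx'), hx⟩, h.map_inv n hx'⟩, hx'⟩
    · rintro ⟨⟨w, hw, rfl⟩, hx'⟩
      refine ⟨?_, hx'⟩
      rw [mem_preimage, h.inv n w (mem_cb.1 hw.1)]
      exact hw.2

theorem preconn (h : DS D φ Dn φn gn) (n : ℕ) {X : Set ℂ} (hX : X ⊆ closure (Dn n))
    (hc : IsPreconnected X) : IsPreconnected (gn n '' X) := hc.image _ ((h.cont n).mono hX)

theorem compact (h : DS D φ Dn φn gn) (n : ℕ) {X : Set ℂ} (hX : X ⊆ closure (Dn n))
    (hc : IsCompact X) : IsCompact (gn n '' X) := hc.image_of_continuousOn ((h.cont n).mono hX)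

/-- The position in the plane. -/
theorem near (h : DS D φ Dn φn gn) {ε : ℝ} (hε : 0 < ε) : ∀ᶠ n in atTop,
    ∀ x ∈ closure (Dn n), dist x (φ (gn n x)) < ε := by
  filter_upwards [h.conv ε hε] with n hn x hx
  have := hn _ (h.norm_le n hx)
  rwa [h.map_inv n hx] at this

/-- **Uniform lightness.** -/
theorem light (h : DS D φ Dn φn gn) {ε : ℝ} (hε : 0 < ε) : ∃ η > 0, ∀ᶠ n in atTop,
    ∀ X ⊆ closure (Dn n), IsPreconnected X → (∀ x ∈ X, ∀ y ∈ X, dist x y ≤ η) →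
    ∀ x ∈ X, ∀ y ∈ X, dist (gn n x) (gn n y) ≤ ε := by
  obtain ⟨η, hη, hl⟩ := N153.light h.conf hε
  refine ⟨η / 3, by positivity, ?_⟩
  filter_upwards [h.near (show 0 < η / 3 by positivity)] with n hn X hX hc hs x hx y hy
  refine hl (gn n '' X) ?_ (h.preconn n hX hc) ?_ _ (mem_image_of_mem _ hx) _
    (mem_image_of_mem _ hy)
  · rintro _ ⟨a, ha, rfl⟩
    exact mem_cb.2 (h.norm_le n (hX ha))
  · rintro _ ⟨a, ha, rfl⟩ _ ⟨b, hb, rfl⟩
    have h1 := hn a (hX ha)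
    have h2 := hn b (hX hb)
    have h3 := hs a ha b hb
    have h4 := dist_triangle4 (φ (gn n a)) a b (φ (gn n b))
    rw [dist_comm (φ (gn n a)) a] at h4
    linarith

/-- A common modulus of continuity, in terms of the inverse maps. -/
theorem modulus (h : DS D φ Dn φn gn) {ε : ℝ} (hε : 0 < ε) : ∃ η > 0, ∀ᶠ n in atTop,
    ∀ x ∈ closure (Dn n), ∀ w : ℂ, ‖w‖ ≤ 1 → dist (gn n x) w < η → dist x (φ w) < ε := by
  have hu : UniformContinuousOn φ (closedBall 0 1) :=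
    (isCompact_closedBall 0 1).uniformContinuousOn_of_continuous h.conf.cont
  obtain ⟨η, hη, hu'⟩ := Metric.uniformContinuousOn_iff.1 hu (ε / 2) (half_pos hε)
  refine ⟨η, hη, ?_⟩
  filter_upwards [h.near (half_pos hε)] with n hn x hx w hw hd
  have h1 := hn x hx
  have h2 := hu' _ (mem_cb.2 (h.norm_le n hx)) _ (mem_cb.2 hw) hd
  have h3 := dist_triangle x (φ (gn n x)) (φ w)
  linarith

theorem unif (h : DS D φ Dn φn gn) : TendstoUniformlyOn φn φ atTop (closedBall 0 1) := by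
  rw [Metric.tendstoUniformlyOn_iff]
  intro ε hε
  filter_upwards [h.conv ε hε] with n hn w hw
  rw [dist_comm]
  exact hn w (mem_cb.1 hw)

/-- Small discs around a point of the domain. -/
theorem ball_sub (h : DS D φ Dn φn gn) {w : ℂ} (hw : ‖w‖ < 1) {s : ℝ} (hs : 0 < s) :
    ∃ ρ > 0, ∀ᶠ n in atTop, ∀ x ∈ ball (φ w) ρ, x ∈ Dn n ∧ dist (gn n x) w ≤ s := by
  set s' := min s ((1 - ‖w‖) / 2) with hs'
  have hs0 : 0 < s' := lt_min hs (by linarith)
  have hsub : closedBall w s' ⊆ ball 0 1 := by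
    intro x hx
    rw [mem_closedBall, dist_eq_norm] at hx
    have h1 : s' ≤ (1 - ‖w‖) / 2 := min_le_right _ _
    have h2 := norm_le_norm_add_norm_sub' x w
    rw [mem_ob]
    linarith
  obtain ⟨ρ, hρ, hev⟩ := open_stable h.conf.cont h.conf.diff h.confn h.unif (by
    refine ⟨1 / 2, by rw [mem_ob]; norm_num, fun he => ?_⟩
    have := h.conf.inj (by rw [mem_ob]; norm_num) (mem_ball_self one_pos) he
    norm_num at this) hs0 hsub
  refine ⟨ρ, hρ, ?_⟩
  filter_upwards [hev] with n hn x hx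
  obtain ⟨y, hy, rfl⟩ := hn hx
  refine ⟨(h.confn n).mem (hsub hy), ?_⟩
  rw [h.inv n y (mem_ob.1 (hsub hy)).le]
  exact (mem_closedBall.1 hy).trans (min_le_left _ _)

/-- Compact subsets of the domain are eventually in the approximating domains. -/
theorem inner (h : DS D φ Dn φn gn) {K : Set ℂ} (hK : IsCompact K) (hKD : K ⊆ D) :
    ∀ᶠ n in atTop, K ⊆ Dn n := by
  refine hK.induction_on (p := fun A => ∀ᶠ n in atTop, A ⊆ Dn n) ?_ ?_ ?_ ?_
  · exact Eventually.of_forall fun n => empty_subset _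
  · intro A B hAB hB
    exact hB.mono fun n hn => hAB.trans hn
  · intro A B hA hB
    filter_upwards [hA, hB] with n h1 h2 using union_subset h1 h2
  · intro x hx
    have hx' := hKD hx
    rw [← h.conf.img] at hx'
    obtain ⟨w, hw, rfl⟩ := hx'
    obtain ⟨ρ, hρ, hev⟩ := h.ball_sub (mem_ob.1 hw) one_pos
    exact ⟨ball (φ w) ρ, mem_nhdsWithin_of_mem_nhds (ball_mem_nhds _ hρ),
      hev.mono fun n hn y hy => (hn y hy).1⟩

/-- The domains are uniformly bounded. -/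
theorem bdd (h : DS D φ Dn φn gn) : ∃ R > 0, ∀ᶠ n in atTop, ∀ x ∈ closure (Dn n), ‖x‖ < R := by
  obtain ⟨R, hR⟩ := ((isCompact_closedBall (0 : ℂ) 1).image_of_continuousOn
    h.conf.cont).isBounded.exists_norm_le
  refine ⟨|R| + 1, by positivity, ?_⟩
  filter_upwards [h.near one_pos] with n hn x hx
  have h1 := hn x hx
  have h2 := hR _ (mem_image_of_mem φ (mem_cb.2 (h.norm_le n hx)))
  have h3 := norm_le_norm_add_norm_sub' x (φ (gn n x))
  rw [dist_eq_norm] at h1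
  linarith [le_abs_self R]

/-- Rotation. -/
theorem rot (h : DS D φ Dn φn gn) {u : ℂ} (hu : ‖u‖ = 1) :
    DS D (fun w => φ (u * w)) Dn (fun n w => φn n (u * w)) fun n x => u⁻¹ * gn n x where
  conf := h.conf.comp_rot hu
  confn n := (h.confn n).comp_rot hu
  inv n w hw := by
    have hu0 : u ≠ 0 := by rintro rfl; simp at hu
    show u⁻¹ * gn n (φn n (u * w)) = w
    rw [h.inv n _ (by rw [norm_mul, hu, one_mul]; exact hw), inv_mul_cancel_left₀ hu0]
  conv ε hε := by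
    filter_upwards [h.conv ε hε] with n hn w hw
    exact hn _ (by rw [norm_mul, hu, one_mul]; exact hw)

/-- Subsequences. -/
theorem sub (h : DS D φ Dn φn gn) {θ : ℕ → ℕ} (hθ : Tendsto θ atTop atTop) :
    DS D φ (fun n => Dn (θ n)) (fun n => φn (θ n)) fun n => gn (θ n) where
  conf := h.conf
  confn n := h.confn (θ n)
  inv n := h.inv (θ n)
  conv ε hε := hθ.eventually (h.conv ε hε)

/-- Barriers: a connected set near the image of `A` does not reach `B`. -/
theorem barrier (h : DS D φ Dn φn gn) {A B : Set ℂ} (hA : IsCompact A) (hB : IsCompact B)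
    (hA1 : A ⊆ closedBall 0 1) (hB1 : B ⊆ closedBall 0 1) (hd : Disjoint (φ '' A) (φ '' B)) :
    ∃ d > 0, ∀ᶠ n in atTop, ∀ x ∈ closure (Dn n), ∀ a ∈ A, dist x (φn n a) ≤ d → gn n x ∉ B := by
  obtain ⟨d, hd0, hd'⟩ := apart h.conf hA hB hA1 hB1 hd
  refine ⟨d / 3, by positivity, ?_⟩
  filter_upwards [h.near (show 0 < d / 3 by positivity), h.conv (d / 3) (by positivity)] with n h1
    h2 x hx a ha hxa hxB
  have h3 := hd' a ha _ hxB
  have h4 := h1 x hx
  have h5 := h2 a (mem_cb.1 (hA1 ha))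
  have h6 := dist_triangle4 (φ a) (φn n a) x (φ (gn n x))
  rw [dist_comm (φ a) (φn n a), dist_comm (φn n a) x] at h6
  linarith

end DS

end Vale.Agent.N153
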