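import Vale.Agent.N153.Ana
import Vale.Agent.P153.R2.UNIQ.Sub
import Vale.Agent.P153.R2.POLY.Near
import Vale.Agent.P153.R2.INTF.Orient
import Vale.Agent.P153.R2.FLDI.Conn7

/-!
N153, the curve: lattice domains whose conformal maps from the disc converge uniformly, basic
facts and the statements of the steps of the proof.
-/

set_option autoImplicit false
set_option linter.unusedVariables false

namespace Vale.Agent.N153

open MeasureTheory ProbabilityTheory Filter Topology Set Metric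
open scoped NNReal
open Vale.Agent.P153 Vale.Agent.P153.R2
open Vale.Agent.P153.Topo (Conn)
open Vale.Agent.P153.R2.R1 (CConf IsU toDisc mb imb)
open Vale.Agent.P153.R2.Final (IsPolygon Encloses Heights law mean IsInterface mid toC region)
open Vale.Agent.P153.R2.UNIQ (IsUnifD bptD Disc IsDrvLaw Gr)
open Vale.Agent.P153.R2.POLY (DC NN)
open Vale.Agent.P153.R2.INTF (PP Face St fa fb)
open Vale.Agent.P153.R2.FLDI (inn gr)
open Vale.Agent.P153.R2.DRV (Mn Pn)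
open Vale.Agent.P153.R2.C1 (Cross)

/-- Lattice domains with conformal maps from the disc which converge uniformly. -/
structure LD (D : Set ℂ) (φ : ℂ → ℂ) (δ : ℕ → ℝ) (N : ℕ → ℕ) (p : ∀ n, ZMod (N n) → ℤ × ℤ)
    (S : ℕ → Finset Final.Tri) (φn gn : ℕ → ℂ → ℂ) : Prop where
  ds : DS D φ (fun n => DC (δ n) (S n)) φn gn
  pos : ∀ n, 0 < δ n
  poly : ∀ n, IsPolygon (p n)
  encl : ∀ n, Encloses (p n) (S n)
  lim : Tendsto δ atTop (𝓝 0)

/-- Marked lattice domains: `-1` and `1` are mapped to the two marked points. -/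
structure LS (D : Set ℂ) (φ : ℂ → ℂ) (δ : ℕ → ℝ) (N k : ℕ → ℕ) (p : ∀ n, ZMod (N n) → ℤ × ℤ)
    (S : ℕ → Finset Final.Tri) (φn gn : ℕ → ℂ → ℂ) : Prop extends LD D φ δ N p S φn gn where
  kpos : ∀ n, 0 < k n
  klt : ∀ n, k n < N n
  zero : ∀ n, φn n (-1) = mid (δ n) (p n (-1)) (p n 0)
  one : ∀ n, φn n 1 = bptD (p n) (k n) (δ n)

/-- The Cayley map from the half-plane onto the disc, `0 ↦ -1`, `∞ ↦ 1`. -/
noncomputable def cay (z : ℂ) : ℂ := mb 1 Complex.I z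

theorem hI : 0 < Complex.I.im := by simp

theorem cay_zero : cay 0 = -1 := by
  rw [cay, R1.mb_zero Complex.norm_I]
  simp

theorem norm_cay_le {z : ℂ} (hz : 0 ≤ z.im) : ‖cay z‖ ≤ 1 :=
  mem_cb.1 (R1.mb_mem_closedBall norm_one hI hz)

theorem norm_cay_lt {z : ℂ} (hz : 0 < z.im) : ‖cay z‖ < 1 := R1.norm_mb_lt norm_one hI hz

theorem cay_ne {z : ℂ} (hz : 0 ≤ z.im) : cay z ≠ 1 := R1.mb_ne norm_one hI hz

theorem cay_inj : InjOn cay {z | 0 ≤ z.im} := R1.mb_injOn norm_one hI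

theorem cay_cont : ContinuousOn cay {z | 0 ≤ z.im} := R1.mb_continuousOn hI

theorem exists_cay {w : ℂ} (hw : ‖w‖ ≤ 1) (h1 : w ≠ 1) : ∃ z : ℂ, 0 ≤ z.im ∧ cay z = w :=
  ⟨imb 1 Complex.I w, R1.imb_im_nonneg norm_one hI hw h1, (R1.mb_imb norm_one hI h1).2⟩

theorem cay_uni : DET.Uni cay 1 where
  cont := cay_cont
  inj := cay_inj
  inf := (R1.tendsto_mb 1 Complex.I).mono_left inf_le_left
  ne := fun z hz => cay_ne hz

/-- The sign of the imaginary part in the disc. -/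
theorem cay_im {z : ℂ} (hz : 0 ≤ z.im) :
    (cay z).im = -2 * z.re / Complex.normSq (z + Complex.I) := by
  have h1 : z + Complex.I ≠ 0 := by
    intro h
    have := congrArg Complex.im h
    simp at this
    linarith
  have h2 : Complex.normSq (z + Complex.I) ≠ 0 := by rwa [Ne, Complex.normSq_eq_zero]
  rw [cay, mb, one_mul, Complex.conj_I, sub_neg_eq_add, Complex.div_im]
  field_simp
  simp
  ring

/-! ### Faces and edges -/

section Lattice

variable {n k : ℕ} {p : ZMod n → ℤ × ℤ} {S : Finset Final.Tri} {δ : ℝ}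

theorem face_sub (hδ : 0 < δ) {t : Final.Tri} (ht : t ∈ S) : Face δ t ⊆ closure (DC δ S) := by
  intro z hz
  rw [POLY.closure_DC hδ]
  exact (INTF.mem_Reg_iff hδ).2 ⟨t, ht, hz⟩

theorem exists_face (hδ : 0 < δ) {z : ℂ} (hz : z ∈ closure (DC δ S)) : ∃ t ∈ S, z ∈ Face δ t := by
  rw [POLY.closure_DC hδ] at hz
  exact (INTF.mem_Reg_iff hδ).1 hz

theorem face_convex (δ : ℝ) (t : Final.Tri) : Convex ℝ (Face δ t) := by
  intro z hz w hw a b ha hb hab
  have := (INTF.HH_comb (fun _ => 0) hz hw ha hb hab).1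
  simpa only [Complex.real_smul] using this

theorem face_diam (hδ : 0 < δ) {t : Final.Tri} {z w : ℂ} (hz : z ∈ Face δ t) (hw : w ∈ Face δ t) :
    dist z w ≤ δ :=
  POLY.dist_face hδ ((POLY.mem_Face_iff_NN hδ).1 hz) ((POLY.mem_Face_iff_NN hδ).1 hw)

theorem PP_fa1 (hδ : 0 < δ) {v w : ℤ × ℤ} (h : Adj v w) : PP δ v ∈ Face δ (fa (v, w)) :=
  INTF.face_of_corner hδ (INTF.corner1 (s := (v, w)) h)

theorem PP_fa2 (hδ : 0 < δ) {v w : ℤ × ℤ} (h : Adj v w) : PP δ w ∈ Face δ (fa (v, w)) :=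
  INTF.face_of_corner hδ (INTF.corner2 (s := (v, w)) h)

/-- The faces at an inner vertex are in the domain. -/
theorem fa_mem (hS : Encloses p S) {v w : ℤ × ℤ} (hv : v ∈ inn p S) (h : Adj v w) :
    fa (v, w) ∈ S := INTF.inn_Inn hS hv _ (INTF.corner1 (s := (v, w)) h)

theorem seg_face (hδ : 0 < δ) {v w : ℤ × ℤ} (h : Adj v w) :
    segment ℝ (PP δ v) (PP δ w) ⊆ Face δ (fa (v, w)) :=
  (face_convex δ _).segment_subset (PP_fa1 hδ h) (PP_fa2 hδ h)

theorem PP_DC (hδ : 0 < δ) (hp : IsPolygon p) (hS : Encloses p S) {v : ℤ × ℤ} (hv : v ∈ inn p S) :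
    PP δ v ∈ DC δ S := (POLY.PP_inn hδ hp hS v).2 hv

theorem PP_clos (hδ : 0 < δ) {v : ℤ × ℤ} (hv : v ∈ Final.verts S) : PP δ v ∈ closure (DC δ S) := by
  obtain ⟨t, ht, hv⟩ := Finset.mem_biUnion.1 hv
  exact face_sub hδ ht (INTF.PP_mem hδ hv)

theorem PP_nbr (hδ : 0 < δ) (hS : Encloses p S) {v w : ℤ × ℤ} (hv : v ∈ inn p S) (h : Adj v w) :
    PP δ w ∈ closure (DC δ S) := face_sub hδ (fa_mem hS hv h) (PP_fa2 hδ h)

theorem PP_poly (hδ : 0 < δ) (hp : IsPolygon p) (hS : Encloses p S) (i : ZMod n) :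
    PP δ (p i) ∈ closure (DC δ S) := PP_clos hδ (POLY.p_mem_verts hp hS i)

theorem poly_notMem (i : ZMod n) : p i ∉ inn p S := fun h =>
  Set.disjoint_left.1 INTF.inn_disj h (mem_range_self i)

/-- An edge with an inner end point is in the open domain, except for the other end point. -/
theorem seg_DC (hδ : 0 < δ) (hp : IsPolygon p) (hS : Encloses p S) {v w : ℤ × ℤ}
    (hv : v ∈ inn p S) (h : Adj v w) {z : ℂ} (hz : z ∈ segment ℝ (PP δ v) (PP δ w)) :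
    z ∈ DC δ S ∨ z = PP δ w := by
  obtain ⟨a, b, ha, hb, hab, rfl⟩ := INTF.mem_seg.1 hz
  rcases ha.eq_or_lt with h0 | h0
  · right
    have : b = 1 := by linarith
    rw [← h0, this]
    simp
  rcases hb.eq_or_lt with h1 | h1
  · left
    have : a = 1 := by linarith
    rw [← h1, this]
    simpa using PP_DC hδ hp hS hv
  · left
    rw [POLY.DC_eq_interior]
    refine INTF.mem_interior hδ fun t ht => ?_
    have e : (a : ℂ) * PP δ v + (b : ℂ) * PP δ w = INTF.bar δ (v, w) a b 0 := by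
      simp [INTF.bar]
    rw [e] at ht
    rcases INTF.open_edge hδ (s := (v, w)) h h0 h1 hab ht with rfl | rfl
    · exact fa_mem hS hv h
    · exact INTF.inn_Inn hS hv _ (INTF.corner1b (s := (v, w)) h)

/-- The graph of a set of vertices, in the plane. -/
def grC (δ : ℝ) (A : Set (ℤ × ℤ)) : Set ℂ :=
  {x | ∃ v ∈ A, ∃ w ∈ A, (v = w ∨ Adj v w) ∧ x ∈ segment ℝ (PP δ v) (PP δ w)}

theorem grC_eq (hδ : 0 < δ) (A : Set (ℤ × ℤ)) : grC δ A = NN hδ ⁻¹' gr A := by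
  ext x
  refine exists_congr fun v => and_congr_right fun _ => exists_congr fun w =>
    and_congr_right fun _ => and_congr_right fun _ => ⟨fun h => FLDI.NN_mem_segment hδ h, fun h => ?_⟩
  rw [← POLY.NN_PP hδ, ← POLY.NN_PP hδ, ← POLY.NN_segment] at h
  obtain ⟨y, hy, he⟩ := h
  rwa [← (NN hδ).injective he]

theorem PP_mem_grC {A : Set (ℤ × ℤ)} {v : ℤ × ℤ} (hv : v ∈ A) : PP δ v ∈ grC δ A :=
  ⟨v, hv, v, hv, Or.inl rfl, left_mem_segment ℝ _ _⟩

theorem grC_preconn (hδ : 0 < δ) {A : Set (ℤ × ℤ)} (hA : ∀ x ∈ A, ∀ y ∈ A, Conn A x y) :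
    IsPreconnected (grC δ A) := by
  rw [grC_eq hδ, (NN hδ).isPreconnected_preimage]
  exact FLDI.gr_preconn hA

theorem grC_compact (hδ : 0 < δ) {A : Set (ℤ × ℤ)} (hA : A.Finite) : IsCompact (grC δ A) := by
  rw [grC_eq hδ, (NN hδ).isCompact_preimage]
  exact FLDI.gr_compact hA

theorem grC_disj (hδ : 0 < δ) {A B : Set (ℤ × ℤ)} (h : Disjoint A B) :
    Disjoint (grC δ A) (grC δ B) := by
  rw [grC_eq hδ, grC_eq hδ]
  exact (FLDI.gr_disj h).preimage _

theorem grC_DC (hδ : 0 < δ) (hp : IsPolygon p) (hS : Encloses p S) {A : Set (ℤ × ℤ)}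
    (hA : A ⊆ inn p S) : grC δ A ⊆ DC δ S := by
  rintro x ⟨v, hv, w, hw, h | h, hx⟩
  · subst h
    rw [segment_same] at hx
    rw [hx]
    exact PP_DC hδ hp hS (hA hv)
  · rcases seg_DC hδ hp hS (hA hv) h hx with h1 | h1
    · exact h1
    · rw [h1]
      exact PP_DC hδ hp hS (hA hw)

/-- A point of the graph is in a face of the domain together with a vertex of the set. -/
theorem grC_face (hδ : 0 < δ) (hS : Encloses p S) {A : Set (ℤ × ℤ)}
    (hA : A ⊆ inn p S) {x : ℂ} (hx : x ∈ grC δ A) :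
    ∃ v ∈ A, ∃ t ∈ S, x ∈ Face δ t ∧ PP δ v ∈ Face δ t := by
  obtain ⟨v, hv, w, hw, h | h, hx⟩ := hx
  · subst h
    rw [segment_same] at hx
    have ha : Adj v (v + (1, 0)) := by
      rw [Topo.adj_iff]
      simp
    exact ⟨v, hv, _, fa_mem hS (hA hv) ha, hx ▸ PP_fa1 hδ ha, PP_fa1 hδ ha⟩
  · exact ⟨v, hv, _, fa_mem hS (hA hv) h, seg_face hδ h hx, PP_fa1 hδ h⟩

theorem PP_ne_mid (hδ : 0 < δ) {v a b : ℤ × ℤ} (h : Adj a b) : PP δ v ≠ mid δ a b := by
  intro he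
  have h1 := congrArg (NN hδ) he
  rw [POLY.NN_PP, POLY.NN_mid] at h1
  have e1 : (2 * v.1 : ℝ) = a.1 + b.1 := by
    have := congrArg Prod.fst h1
    simp [POLY.rp] at this
    linarith
  have e2 : (2 * v.2 : ℝ) = a.2 + b.2 := by
    have := congrArg Prod.snd h1
    simp [POLY.rp] at this
    linarith
  have e3 : 2 * v.1 = a.1 + b.1 := by exact_mod_cast e1
  have e4 : 2 * v.2 = a.2 + b.2 := by exact_mod_cast e2
  rw [Topo.adj_iff] at h
  omega

theorem intf_clos (hδ : 0 < δ) {h : UNIQ.Hg} {x : C(unitInterval, ℂ)} (hx : IsInterface p k S δ h x)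
    (t : unitInterval) : x t ∈ closure (DC δ S) := by
  rw [POLY.closure_DC hδ]
  exact ⟨_, (hx.2.2.2 t).1, rfl⟩

end Lattice

/-! ### Sequences of lattice domains -/

variable {D : Set ℂ} {φ : ℂ → ℂ} {δ : ℕ → ℝ} {N k : ℕ → ℕ} {p : ∀ n, ZMod (N n) → ℤ × ℤ}
  {S : ℕ → Finset Final.Tri} {φn gn : ℕ → ℂ → ℂ}

namespace LD

theorem rot (h : LD D φ δ N p S φn gn) {u : ℂ} (hu : ‖u‖ = 1) :
    LD D (fun w => φ (u * w)) δ N p S (fun n w => φn n (u * w)) fun n x => u⁻¹ * gn n x :=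
  ⟨h.ds.rot hu, h.pos, h.poly, h.encl, h.lim⟩

theorem small (h : LD D φ δ N p S φn gn) {ε : ℝ} (hε : 0 < ε) : ∀ᶠ n in atTop, δ n < ε :=
  h.lim.eventually (gt_mem_nhds hε)

/-- The faces are small in the disc. -/
theorem face (h : LD D φ δ N p S φn gn) {ε : ℝ} (hε : 0 < ε) : ∀ᶠ n in atTop, ∀ t ∈ S n,
    ∀ z ∈ Face (δ n) t, ∀ w ∈ Face (δ n) t, dist (gn n z) (gn n w) ≤ ε := by
  obtain ⟨η, hη, hl⟩ := h.ds.light hε
  filter_upwards [hl, h.small hη] with n h1 h2 t ht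
  exact h1 _ (face_sub (h.pos n) ht) (face_convex _ _).isPreconnected fun x hx y hy =>
    (face_diam (h.pos n) hx hy).trans h2.le

/-- The edges at inner vertices are small in the disc. -/
theorem adj (h : LD D φ δ N p S φn gn) {ε : ℝ} (hε : 0 < ε) : ∀ᶠ n in atTop,
    ∀ v ∈ inn (p n) (S n), ∀ w, Adj v w → dist (gn n (PP (δ n) v)) (gn n (PP (δ n) w)) ≤ ε := by
  filter_upwards [h.face hε] with n h1 v hv w hvw
  exact h1 _ (fa_mem (h.encl n) hv hvw) _ (PP_fa1 (h.pos n) hvw) _ (PP_fa2 (h.pos n) hvw)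

/-- Connected sets of inner vertices with a small diameter are small in the disc. -/
theorem light (h : LD D φ δ N p S φn gn) {ε : ℝ} (hε : 0 < ε) : ∃ η > 0, ∀ᶠ n in atTop,
    ∀ A ⊆ inn (p n) (S n), (∀ v ∈ A, ∀ w ∈ A, dist (PP (δ n) v) (PP (δ n) w) ≤ η) →
    ∀ v w, Conn A v w → dist (gn n (PP (δ n) v)) (gn n (PP (δ n) w)) ≤ ε := by
  obtain ⟨η, hη, hl⟩ := h.ds.light hε
  refine ⟨η / 2, half_pos hη, ?_⟩
  filter_upwards [hl, h.small (show 0 < η / 4 by positivity)] with n h1 h2 A hA hd v w hvw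
  have hδ := h.pos n
  have hsub : {u | Conn A v u} ⊆ A := fun u hu => Conn.right_mem hu
  have hv : Conn A v v := Conn.refl hvw.left_mem
  refine h1 (grC (δ n) {u | Conn A v u})
    ((grC_DC hδ (h.poly n) (h.encl n) (hsub.trans hA)).trans subset_closure)
    (grC_preconn hδ fun x hx y hy => FLDI.conn_comp hx hy) ?_ _ (PP_mem_grC hv) _ (PP_mem_grC hvw)
  intro x hx y hy
  obtain ⟨a, ha, t, -, h3, h4⟩ := grC_face hδ (h.encl n) (hsub.trans hA) hx
  obtain ⟨b, hb, t', -, h5, h6⟩ := grC_face hδ (h.encl n) (hsub.trans hA) hy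
  have e1 := face_diam hδ h3 h4
  have e2 := face_diam hδ h6 h5
  have e3 := hd a (hsub ha) b (hsub hb)
  linarith [dist_triangle4 x (PP (δ n) a) (PP (δ n) b) y]

theorem norm_inn (h : LD D φ δ N p S φn gn) (n : ℕ) {v : ℤ × ℤ} (hv : v ∈ inn (p n) (S n)) :
    ‖gn n (PP (δ n) v)‖ < 1 := h.ds.norm_lt n (PP_DC (h.pos n) (h.poly n) (h.encl n) hv)

theorem norm_poly (h : LD D φ δ N p S φn gn) (n : ℕ) (i : ZMod (N n)) :
    ‖gn n (PP (δ n) (p n i))‖ = 1 :=
  h.ds.norm_eq n (PP_poly (h.pos n) (h.poly n) (h.encl n) i) fun hc =>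
    poly_notMem i ((POLY.PP_inn (h.pos n) (h.poly n) (h.encl n) _).1 hc)

/-- The lattice points in a compact subset of the domain are inner vertices. -/
theorem inner (h : LD D φ δ N p S φn gn) {K : Set ℂ} (hK : IsCompact K) (hKD : K ⊆ D) :
    ∀ᶠ n in atTop, ∀ v, PP (δ n) v ∈ K → v ∈ inn (p n) (S n) := by
  filter_upwards [h.ds.inner hK hKD] with n hn v hv
  exact (POLY.PP_inn (h.pos n) (h.poly n) (h.encl n) v).1 (hn hv)

end LD

namespace LS

theorem sub (h : LS D φ δ N k p S φn gn) {θ : ℕ → ℕ} (hθ : Tendsto θ atTop atTop) :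
    LS D φ (fun n => δ (θ n)) (fun n => N (θ n)) (fun n => k (θ n)) (fun n => p (θ n))
      (fun n => S (θ n)) (fun n => φn (θ n)) fun n => gn (θ n) where
  ds := h.ds.sub hθ
  pos n := h.pos _
  poly n := h.poly _
  encl n := h.encl _
  lim := h.lim.comp hθ
  kpos n := h.kpos _
  klt n := h.klt _
  zero n := h.zero _
  one n := h.one _

theorem gn_cay (h : LS D φ δ N k p S φn gn) (n : ℕ) {z : ℂ} (hz : 0 ≤ z.im) :
    gn n (φn n (cay z)) = cay z := h.ds.inv n _ (norm_cay_le hz)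

/-- The uniformizers of the lattice domains. -/
theorem unifD (h : LS D φ δ N k p S φn gn) (n : ℕ) :
    IsUnifD (p n) (k n) (S n) (δ n) fun z => φn n (cay z) := by
  have h1 := (h.ds.confn n).isU norm_one hI
  refine ⟨h1.diff, fun z hz w hw he => ?_, h1.img, h1.cont, ?_, ?_, fun z hz he => ?_⟩
  · refine cay_inj hz hw ?_
    have he' : φn n (cay z) = φn n (cay w) := he
    rw [← h.gn_cay n hz, he', h.gn_cay n hw]
  · show φn n (cay 0) = _
    rw [cay_zero, h.zero]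
  · rw [← h.one]
    exact h1.infty
  · rw [← h.one] at he
    have he' : φn n (cay z) = φn n 1 := he
    refine cay_ne hz ?_
    rw [← h.gn_cay n hz, he', h.ds.inv n 1 norm_one.le]

theorem gn_zero (h : LS D φ δ N k p S φn gn) (n : ℕ) :
    gn n (mid (δ n) (p n (-1)) (p n 0)) = -1 := by
  rw [← h.zero, h.ds.inv n _ (by simp)]

theorem gn_one (h : LS D φ δ N k p S φn gn) (n : ℕ) : gn n (bptD (p n) (k n) (δ n)) = 1 := by
  rw [← h.one, h.ds.inv n _ norm_one.le]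

theorem gn_ph (h : LS D φ δ N k p S φn gn) (n : ℕ) {x : ℂ} (hx : x ∈ closure (DC (δ n) (S n)))
    (hb : x ≠ bptD (p n) (k n) (δ n)) : 0 ≤ (INTF.ph (fun z => φn n (cay z)) x).im ∧
      gn n x = cay (INTF.ph (fun z => φn n (cay z)) x) := by
  have h1 : gn n x ≠ 1 := fun he => hb (by rw [← h.ds.map_inv n hx, he, h.one])
  obtain ⟨z, hz, he⟩ := exists_cay (h.ds.norm_le n hx) h1
  have h2 : x = (fun z => φn n (cay z)) z := by
    show x = φn n (cay z)
    rw [he, h.ds.map_inv n hx]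
  have h3 : INTF.ph (fun z => φn n (cay z)) x = z := by
    rw [h2]
    exact INTF.ph_eq (h.unifD n) hz
  rw [h3]
  exact ⟨hz, he.symm⟩

theorem PP_ne (h : LS D φ δ N k p S φn gn) (n : ℕ) (v : ℤ × ℤ) :
    PP (δ n) v ≠ bptD (p n) (k n) (δ n) := by
  refine PP_ne_mid (h.pos n) ?_
  have := INTF.adj_poly (h.poly n) ((k n : ZMod (N n)) - 1)
  rwa [sub_add_cancel] at this

/-- The two arcs of the polygon are mapped to the lower and to the upper half of the circle. -/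
theorem side (h : LS D φ δ N k p S φn gn) (n : ℕ) :
    (∀ v ∈ Mn (p n) (k n) (S n), (gn n (PP (δ n) v)).im < 0) ∧
      ∀ v ∈ Pn (p n) (k n) (S n), 0 < (gn n (PP (δ n) v)).im := by
  obtain ⟨-, -, h1, h2⟩ := INTF.side_pos (h.pos n) (h.poly n) (h.encl n) (h.kpos n) (h.klt n)
    (h.unifD n)
  have key : ∀ v ∈ range (p n), ∃ c : ℝ, 0 < c ∧
      (gn n (PP (δ n) v)).im = -(INTF.ph (fun z => φn n (cay z)) (PP (δ n) v)).re * c := by
    rintro _ ⟨i, rfl⟩
    obtain ⟨h3, h4⟩ := h.gn_ph n (PP_poly (h.pos n) (h.poly n) (h.encl n) i) (h.PP_ne n _)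
    refine ⟨2 / Complex.normSq (INTF.ph (fun z => φn n (cay z)) (PP (δ n) (p n i)) + Complex.I),
      div_pos two_pos (Complex.normSq_pos.2 fun hc => ?_), ?_⟩
    · have := congrArg Complex.im hc
      simp at this
      linarith
    · rw [h4, cay_im h3]
      ring
  constructor
  · intro v hv
    obtain ⟨c, hc, he⟩ := key v (INTF.Mn_sub hv)
    rw [he]
    nlinarith [h1 v hv]
  · intro v hv
    obtain ⟨c, hc, he⟩ := key v (INTF.Pn_sub hv)
    rw [he]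
    nlinarith [h2 v hv]

theorem prob (h : LS D φ δ N k p S φn gn) (n : ℕ) :
    IsProbabilityMeasure (law (p n) (k n) (S n)) := (FLDI.lawF_spec (h.poly n) (h.encl n) (k n)).1

end LS

/-- From the half-plane to the disc. -/
theorem ls_of {ψ : ℂ → ℂ} {a b : ℂ} {ψn : ℕ → ℂ → ℂ} (hψ : IsU ψ D a b)
    (hp : ∀ n, 0 < δ n ∧ 0 < k n ∧ k n < N n ∧ IsPolygon (p n) ∧ Encloses (p n) (S n))
    (hl : Tendsto δ atTop (𝓝 0)) (hU : ∀ n, IsUnifD (p n) (k n) (S n) (δ n) (ψn n))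
    (hc : ∀ ε > 0, ∀ᶠ n in atTop, ∀ z : ℂ, 0 ≤ z.im → dist (ψn n z) (ψ z) < ε) :
    ∃ φn gn, LS D (toDisc ψ b) δ N k p S φn gn := by
  classical
  have hU' : ∀ n, IsU (ψn n) (DC (δ n) (S n)) (mid (δ n) (p n (-1)) (p n 0))
      (bptD (p n) (k n) (δ n)) := fun n =>
    ⟨(hU n).diff, (hU n).injOn.mono fun z (hz : 0 < z.im) => hz.le, (hU n).image, (hU n).cont,
      (hU n).zero, (hU n).inf⟩
  have hinj : ∀ n, InjOn (toDisc (ψn n) (bptD (p n) (k n) (δ n))) (closedBall 0 1) := by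
    intro n w hw w' hw' he
    by_cases h1 : w = 1 <;> by_cases h2 : w' = 1
    · rw [h1, h2]
    · obtain ⟨z, hz, rfl⟩ := exists_cay (mem_cb.1 hw') h2
      rw [h1, R1.toDisc_one, cay, R1.toDisc_mb hz] at he
      exact absurd he.symm ((hU n).ne z hz)
    · obtain ⟨z, hz, rfl⟩ := exists_cay (mem_cb.1 hw) h1
      rw [h2, R1.toDisc_one, cay, R1.toDisc_mb hz] at he
      exact absurd he ((hU n).ne z hz)
    · obtain ⟨z, hz, rfl⟩ := exists_cay (mem_cb.1 hw) h1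
      obtain ⟨z', hz', rfl⟩ := exists_cay (mem_cb.1 hw') h2
      rw [cay, cay, R1.toDisc_mb hz, R1.toDisc_mb hz'] at he
      rw [(hU n).injOn hz hz' he]
  have hb := UNIQ.end_conv hψ.infty (fun n => (hU n).inf) hc
  refine ⟨fun n => toDisc (ψn n) (bptD (p n) (k n) (δ n)),
    fun n => Function.invFunOn (toDisc (ψn n) (bptD (p n) (k n) (δ n))) (closedBall 0 1),
    ⟨⟨hψ.toDisc, fun n => (hU' n).toDisc, fun n w hw => (hinj n).leftInvOn_invFunOn (mem_cb.2 hw),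
      fun ε hε => ?_⟩, fun n => (hp n).1, fun n => (hp n).2.2.2.1, fun n => (hp n).2.2.2.2, hl⟩,
    fun n => (hp n).2.1, fun n => (hp n).2.2.1, fun n => R1.toDisc_neg_one (hU' n),
    fun n => R1.toDisc_one⟩
  filter_upwards [hc ε hε, Metric.tendsto_nhds.1 hb ε hε] with n h1 h2 w hw
  by_cases h3 : w = 1
  · rw [h3, R1.toDisc_one, R1.toDisc_one]
    exact h2
  · obtain ⟨z, hz, rfl⟩ := exists_cay hw h3
    rw [cay, R1.toDisc_mb hz, R1.toDisc_mb hz]
    exact h1 z hz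

/-! ### The statements -/

/-- `x n h` are the interfaces. -/
def Itf (δ : ℕ → ℝ) (N k : ℕ → ℕ) (p : ∀ n, ZMod (N n) → ℤ × ℤ) (S : ℕ → Finset Final.Tri)
    (x : ℕ → UNIQ.Hg → C(unitInterval, ℂ)) : Prop :=
  ∀ n, ∀ h ∈ Heights (p n) (k n) (S n), IsInterface (p n) (k n) (S n) (δ n) h (x n h)

/-- `y n h` are the images of the interfaces in the disc. -/
def Pull (N k : ℕ → ℕ) (p : ∀ n, ZMod (N n) → ℤ × ℤ) (S : ℕ → Finset Final.Tri)
    (gn : ℕ → ℂ → ℂ) (x y : ℕ → UNIQ.Hg → C(unitInterval, ℂ)) : Prop :=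
  ∀ n, ∀ h ∈ Heights (p n) (k n) (S n), ∀ t, y n h t = gn n (x n h t)

/-- The number of crossings of a fixed annulus inside the domain is tight, for one universal
ratio. -/
def T_int : Prop := ∃ L : ℝ, 3 ≤ L ∧ ∀ D φ δ N k p S φn gn, LS D φ δ N k p S φn gn →
  ∀ x, Itf δ N k p S x → ∀ (w : ℂ) (ρ : ℝ), 0 < ρ → closedBall w (L * ρ) ⊆ D → ∀ e : ℝ, 0 < e →
    ∃ m : ℕ, ∀ᶠ n in atTop, (law (p n) (k n) (S n)).real {h | Cross (x n h) w ρ (L * ρ) m} ≤ e

/-- A fixed point of one of the two open arcs of the circle is not approached. -/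
def T_bdp : Prop := ∀ D φ δ N k p S φn gn, LS D φ δ N k p S φn gn →
  ∀ x, Itf δ N k p S x → ∀ ζ : ℂ, ‖ζ‖ = 1 → ζ.im ≠ 0 → ∀ e : ℝ, 0 < e → ∃ ε > 0, ∀ᶠ n in atTop,
    (law (p n) (k n) (S n)).real {h | ∃ s : unitInterval, dist (gn n (x n h s)) ζ < ε} ≤ e

/-- The number of crossings of every annulus by the curves in the disc is tight. -/
def T_cross : Prop := ∀ D φ δ N k p S φn gn, LS D φ δ N k p S φn gn →
  ∀ x y, Itf δ N k p S x → Pull N k p S gn x y → ∀ (c : ℂ) (r : ℝ), 0 < r → ∀ e : ℝ, 0 < e →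
    ∃ m : ℕ, ∀ᶠ n in atTop, (law (p n) (k n) (S n)).real {h | Cross (y n h) c r (3 * r) m} ≤ e

/-- After a visit of a small neighbourhood of `1` the curve in the disc stays near `1`. -/
def T_end : Prop := ∀ D φ δ N k p S φn gn, LS D φ δ N k p S φn gn →
  ∀ x, Itf δ N k p S x → ∀ r : ℝ, 0 < r → ∀ e : ℝ, 0 < e → ∃ r' > 0, ∀ᶠ n in atTop,
    (law (p n) (k n) (S n)).real {h | ∃ s t : unitInterval, s ≤ t ∧
      dist (gn n (x n h s)) 1 < r' ∧ r < dist (gn n (x n h t)) 1} ≤ e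

/-- The drivers converge in law to `2B`. -/
def T_drv : Prop := ∀ D φ δ N k p S φn gn, LS D φ δ N k p S φn gn →
  ∀ x y, Itf δ N k p S x → Pull N k p S gn x y →
    ∃ (η : ℕ → UNIQ.Hg → ℝ → ℂ) (c : ℕ → UNIQ.Hg → ℝ → ℝ) (w : ℕ → UNIQ.Hg → C(ℝ≥0, ℝ))
      (T₀ T : ℕ → UNIQ.Hg → ℝ) (ε : ℕ → ℝ), Tendsto ε atTop (𝓝 0) ∧
      (∀ n, ∀ h ∈ Heights (p n) (k n) (S n), Disc cay 1 (y n h)
        (η n h) (c n h) (w n h) (T₀ n h) (T n h) (ε n)) ∧
      ∀ [MeasurableSpace C(ℝ≥0, ℝ)] [BorelSpace C(ℝ≥0, ℝ)], ∃ lam : Measure C(ℝ≥0, ℝ),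
        IsDrvLaw lam ∧ ∀ f : C(ℝ≥0, ℝ) → ℝ, Continuous f → (∃ M, ∀ y, |f y| ≤ M) →
          Tendsto (fun n => mean (law (p n) (k n) (S n)) fun h => f (w n h)) atTop
            (𝓝 (∫ y, f y ∂lam))

end Vale.Agent.N153
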