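import Vale.Agent.N153.Defs
import Vale.Agent.P153.H212.Appr
import Vale.Agent.P153.R2.UNIQ.Inputs

/-!
N153: the intermediate statements.
-/

set_option autoImplicit false

namespace Vale.Agent.N153

open MeasureTheory ProbabilityTheory Filter Topology Set TopologicalSpace
open Vale.Agent.P153.H212 (pt Encloses curve region Heights arcs law fld IsInterface IsSLE old)
open Vale.Agent.P153E (Marked Approximates IsGreen IsField InLaw IsH0 IsUnif)
open Vale.Agent.P153.R2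

/-- Radó's theorem for a marked boundary curve which is not injective. -/
def RADO : Prop :=
  ∀ D ψ s β, Param D ψ s β → ∀ (δ : ℕ → ℝ) (N k : ℕ → ℕ) (p : ∀ n, ZMod (N n) → ℤ × ℤ)
    (S : ℕ → Finset (Finset (ℤ × ℤ))), Approximates β δ N k p S →
    ∃ ψn : ℕ → ℂ → ℂ, (∀ n, UNIQ.IsUnifD (p n) (k n) (old (S n)) (δ n) (ψn n)) ∧
      (∀ ε > 0, ∀ᶠ n in atTop, ∀ z : ℂ, 0 ≤ z.im → dist (ψn n z) (ψ z) < ε) ∧
      ∀ᶠ n in atTop, ∃ x : ℝ, 0 < s * x ∧ ψn n x = δ n * pt (p n 0)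

/-- Existence of approximations in the sense of Carathéodory (part (2) of `Domains`). -/
def EXC : Prop :=
  ∀ D ψ, IsConf D ψ → Bornology.IsBounded D → ∀ s : ℝ, (s = 1 ∨ s = -1) →
    ∀ δ : ℕ → ℝ, (∀ n, 0 < δ n) → Tendsto δ atTop (𝓝 0) →
      ∃ (N k : ℕ → ℕ) (p : ∀ n, ZMod (N n) → ℤ × ℤ) (S : ℕ → Finset (Finset (ℤ × ℤ))),
        Cara ψ s δ N k p S

end Vale.Agent.N153
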