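import Vale.Agent.N153.Rado1
import Vale.Agent.N153.Stmt
import Vale.Agent.P153.H212.Inc
import Vale.Agent.P153.R2.R1.Appr
import Vale.Agent.P153.R2.R1.Out1
import Vale.Agent.P153.R2.POLY.Dom

/-!
N153, Radó's theorem for boundary curves which are not injective, part 2: winding numbers, lifts
of the boundary curves, and the theorem.
-/

set_option autoImplicit false

namespace Vale.Agent.N153

open Set Topology Metric Filter Bornology
open Vale.Agent.P153.R2 Vale.Agent.P153.R2.R1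
open Vale.Agent.P153.H212.Q (IncOn)
open scoped ComplexConjugate

/-! ### Winding numbers -/

theorem inc_in {f : ℂ → ℂ} {D : Set ℂ} (h : CConf f D) {q : ℂ} (hq : q ∈ ball (0 : ℂ) 1) (s : ℝ)
    {L : ℝ → ℝ} (hL : Continuous L) (he : ex s (L 1) = ex s (L 0)) :
    IncOn (fun t => f (ex s (L t))) 0 1 (f q) (((s * (L 1 - L 0) : ℝ) : ℂ) * Complex.I) := by
  have hq1 : ‖q‖ < 1 := mem_ball_zero_iff.1 hq
  have hnb : closedBall (0 : ℂ) 1 ∈ 𝓝 q :=
    mem_of_superset (isOpen_ball.mem_nhds hq) ball_subset_closedBall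
  have hda : DifferentiableAt ℂ f q := h.diff.differentiableAt (isOpen_ball.mem_nhds hq)
  have hc : ContinuousOn (dslope f q) (closedBall 0 1) := (continuousOn_dslope hnb).2 ⟨h.cont, hda⟩
  have hne : ∀ w ∈ closedBall (0 : ℂ) 1, dslope f q w ≠ 0 := by
    intro w hw
    by_cases hwq : w = q
    · rw [hwq, dslope_same]
      exact h.deriv_ne hq
    · rw [dslope_of_ne _ hwq, slope_def_field]
      refine div_ne_zero (sub_ne_zero.2 fun e => ?_) (sub_ne_zero.2 hwq)
      rcases (mem_closedBall.1 hw).lt_or_eq with hlt | heq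
      · exact hwq (h.inj hlt hq e)
      · exact notMem_of_frontier h.isOpen (h.sphere_mem heq) (e ▸ h.mem hq)
  obtain ⟨G, hG, hGe⟩ := P153.TOP.hasLogOn_of_convex (convex_closedBall (0 : ℂ) 1) _ hc hne
  have hslit : ∀ x, 1 - q / ex s x ∈ Complex.slitPlane := by
    intro x
    have : ‖-(q / ex s x)‖ < 1 := by rw [norm_neg, norm_div, norm_ex, div_one]; exact hq1
    have := Complex.mem_slitPlane_of_norm_lt_one this
    rwa [← sub_eq_add_neg] at this
  have hex : Continuous fun t => ex s (L t) := (continuous_ex s).comp hL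
  refine ⟨fun t => ((s * L t : ℝ) : ℂ) * Complex.I + Complex.log (1 - q / ex s (L t)) +
    G (ex s (L t)), ?_, fun t _ => ?_, ?_⟩
  · refine Continuous.continuousOn (Continuous.add (Continuous.add (by fun_prop) ?_) ?_)
    · exact (continuous_const.sub (continuous_const.div hex fun t => ex_ne_zero s _)).clog
        fun t => hslit _
    · exact hG.comp_continuous hex fun t => ex_mem' s _
  · rw [Complex.exp_add, Complex.exp_add, Complex.exp_log (Complex.slitPlane_ne_zero (hslit _)),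
      hGe _ (ex_mem' s _)]
    have e1 : Complex.exp (((s * L t : ℝ) : ℂ) * Complex.I) = ex s (L t) := rfl
    have e2 := sub_smul_dslope f q (ex s (L t))
    rw [smul_eq_mul] at e2
    rw [e1]
    beta_reduce
    rw [← e2]
    have := ex_ne_zero s (L t)
    field_simp
  · simp only [he]
    push_cast
    ring

theorem inc_out {f : ℂ → ℂ} {D : Set ℂ} (h : CConf f D) {z : ℂ} (hz : z ∉ closure D) (s : ℝ)
    {L : ℝ → ℝ} (hL : Continuous L) (he : ex s (L 1) = ex s (L 0)) :
    IncOn (fun t => f (ex s (L t))) 0 1 z 0 := by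
  obtain ⟨G, hG, hGe⟩ := P153.TOP.hasLogOn_of_convex (convex_closedBall (0 : ℂ) 1)
    (fun w => f w - z) (h.cont.sub continuousOn_const) fun w hw e => hz (by
      rw [← h.closure_eq, ← sub_eq_zero.1 e]
      exact mem_image_of_mem _ hw)
  have hex : Continuous fun t => ex s (L t) := (continuous_ex s).comp hL
  refine ⟨fun t => G (ex s (L t)), (hG.comp_continuous hex fun t => ex_mem' s _).continuousOn,
    fun t _ => hGe _ (ex_mem' s _), ?_⟩
  simp only [he, sub_self]

theorem inc_near {y y' : ℝ → ℂ} {z d : ℂ} (h : IncOn y 0 1 z d) (hy : Continuous y)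
    (hy' : Continuous y') (e : y 1 = y 0) (e' : y' 1 = y' 0)
    (hn : ∀ t, dist (y' t) (y t) < dist z (y t)) : IncOn y' 0 1 z d := by
  have := h.near (z' := z) hy.continuousOn hy'.continuousOn fun t _ => by
    rw [sub_sub_sub_cancel_right, ← dist_eq_norm, ← dist_eq_norm, dist_comm (y t)]
    exact hn t
  rwa [e, e', sub_self, add_zero] at this

/-! ### Lifts -/

theorem per_surj {g : ℝ → ℝ} {L : ℝ} (hL : 0 < L) (hc : Continuous g)
    (h : ∀ t, g (t + 1) = g t + L) (y : ℝ) : ∃ t, g t = y := by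
  obtain ⟨k, hk, -⟩ := existsUnique_add_zsmul_mem_Ico hL y (g 0)
  rw [zsmul_eq_mul] at hk
  have h1 := h 0
  rw [zero_add] at h1
  obtain ⟨t, -, ht⟩ := intermediate_value_Icc zero_le_one hc.continuousOn
    (show y + k * L ∈ Icc (g 0) (g 1) from ⟨hk.1, by rw [h1]; exact hk.2.le⟩)
  refine ⟨t + (-k : ℤ), ?_⟩
  rw [per_int' h, ht]
  push_cast
  ring

/-- The lift of a Jordan curve to the circle. -/
theorem exists_lift {g : ℂ → ℂ} {D : Set ℂ} (h : CConf g D) (hn : NoCut D) {c : ℝ → ℂ} {N : ℝ}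
    (hc : JCurve c N) (hfr : frontier D = range c) {s : ℝ} (hs : s = 1 ∨ s = -1) :
    ∃ (L : ℝ → ℝ) (d : ℤ), Continuous L ∧ (∀ x, g (ex s (L x)) = c x) ∧
      (∀ x, L (x + N) = L x + d * (2 * Real.pi)) ∧ (d = 1 → StrictMono L) := by
  have hu : ∀ x, ∃ u ∈ sphere (0 : ℂ) 1, g u = c x := by
    intro x
    have : c x ∈ frontier D := by rw [hfr]; exact mem_range_self x
    rw [← h.frontier_eq] at this
    exact this
  choose u hu1 hu2 using hu
  have huc : Continuous u := by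
    rw [continuous_iff_continuousAt]
    intro x
    refine h.tendsto_inv hn (Eventually.of_forall fun y => sphere_subset_closedBall (hu1 y))
      (sphere_subset_closedBall (hu1 x)) ?_
    simp only [hu2]
    exact hc.cont.tendsto x
  have hun : ∀ x, ‖u x‖ = 1 := fun x => mem_sphere_zero_iff_norm.1 (hu1 x)
  obtain ⟨G, hG, hGe⟩ := P153.TOP.hasLogOn_of_convex (convex_univ (𝕜 := ℝ) (E := ℝ)) u
    huc.continuousOn fun x _ e => by
      have := hun x
      rw [e, norm_zero] at this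
      exact zero_ne_one this
  have hGc : Continuous G := continuousOn_univ.1 hG
  have hs2 : s * s = 1 := by rcases hs with rfl | rfl <;> norm_num
  have hex : ∀ x, ex s (s * (G x).im) = u x := by
    intro x
    have h1 : (G x).re = 0 := by
      have := hun x
      rw [← hGe x (mem_univ x), Complex.norm_exp] at this
      exact Real.exp_eq_one_iff _ |>.1 this
    rw [ex, ← mul_assoc, hs2, one_mul, ← hGe x (mem_univ x)]
    congr 1
    apply Complex.ext <;> simp [h1]
  have hup : ∀ x, u (x + N) = u x := fun x =>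
    h.injOn hn (sphere_subset_closedBall (hu1 _)) (sphere_subset_closedBall (hu1 _))
      (by rw [hu2, hu2, hc.per])
  have hLc : Continuous fun x => s * (G x).im := by fun_prop
  obtain ⟨d, hd⟩ := (ex_eq_iff hs).1 (show ex s (s * (G (0 + N)).im) = ex s (s * (G 0).im) by
    rw [hex, hex, hup])
  have hper : ∀ x, s * (G (x + N)).im = s * (G x).im + d * (2 * Real.pi) := by
    intro x
    have h1 := P153.TOP.log_diff_const (A := (univ : Set ℝ)) isPreconnected_univ
      (F := fun x => G (x + N)) (G := G) (hGc.comp (by fun_prop)).continuousOn hG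
      (fun x _ => by rw [hGe _ (mem_univ _), hGe _ (mem_univ _), hup]) (mem_univ x) (mem_univ 0)
    have h2 := congrArg Complex.im h1
    simp only [Complex.sub_im] at h2
    linear_combination s * h2 + hd
  refine ⟨fun x => s * (G x).im, d, hLc, fun x => by simp only [hex, hu2], hper, ?_⟩
  rintro rfl
  have hinj : Function.Injective fun x => s * (G x).im := by
    intro x y e
    have e1 : c x = c y := by
      rw [← hu2, ← hu2, ← hex, ← hex]
      exact congrArg (fun t => g (ex s t)) e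
    obtain ⟨k, hk⟩ := hc.inj x y e1
    have h1 := per_int' (g := fun t => s * (G (y + t * N)).im) (L := 2 * Real.pi) (fun t => by
      have := hper (y + t * N)
      push_cast at this
      rw [one_mul] at this
      rw [← this]
      congr 3
      ring) k 0
    simp only [zero_add, zero_mul, add_zero] at h1
    rw [← hk] at h1
    have e' : s * (G x).im = s * (G y).im := e
    have h2 : (k : ℝ) * (2 * Real.pi) = 0 := by linarith
    have h3 : (k : ℝ) = 0 := (mul_eq_zero.1 h2).resolve_right (by positivity)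
    rw [hk, h3, zero_mul, add_zero]
  rcases hLc.strictMono_of_inj hinj with hm | hm
  · exact hm
  · exfalso
    have h1 := hm (show (0 : ℝ) < 0 + N by linarith [hc.pos])
    have h2 := hper 0
    simp only at h1
    push_cast at h2
    linarith [Real.pi_pos]

/-! ### The orientation -/

theorem ex_re (s x : ℝ) : (ex s x).re = Real.cos (s * x) := Complex.exp_ofReal_mul_I_re _

theorem ex_im {s : ℝ} (hs : s = 1 ∨ s = -1) (x : ℝ) : (ex s x).im = s * Real.sin x := by
  rw [ex, Complex.exp_ofReal_mul_I_im]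
  rcases hs with rfl | rfl <;> simp

theorem ex_mul_conj (s x : ℝ) : ex s x * conj (ex s x) = 1 := by
  rw [Complex.mul_conj, Complex.normSq_eq_norm_sq, norm_ex]
  norm_num

theorem exists_sign {s : ℝ} (hs : s = 1 ∨ s = -1) {a b x : ℝ} (h1 : a < x) (h2 : x < b)
    (h3 : b < a + 2 * Real.pi) {c : ℂ} (hc : 0 < c.im) (hc2 : c ^ 2 = ex s a / ex s b) :
    ∃ y : ℝ, 0 < s * y ∧ mb (ex s b) c y = ex s x := by
  set u := (x - a) / 2 with hu
  set v := (b - x) / 2 with hv
  have su : 0 < Real.sin u := Real.sin_pos_of_pos_of_lt_pi (by linarith) (by linarith)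
  have sv : 0 < Real.sin v := Real.sin_pos_of_pos_of_lt_pi (by linarith) (by linarith)
  have suv : 0 < Real.sin (u + v) := Real.sin_pos_of_pos_of_lt_pi (by linarith) (by linarith)
  have hs2 : s * s = 1 := by rcases hs with rfl | rfl <;> norm_num
  have hs2' : (s : ℂ) * s = 1 := by exact_mod_cast hs2
  have ex1 : ex s x = ex s a * ex s u * ex s u := by
    rw [← ex_add, ← ex_add]; congr 1; rw [hu]; ring
  have ex2 : ex s b = ex s a * ex s u * ex s u * ex s v * ex s v := by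
    rw [← ex_add, ← ex_add, ← ex_add, ← ex_add]; congr 1; rw [hu, hv]; ring
  have mu := ex_mul_conj s u
  have mv := ex_mul_conj s v
  have nA := ex_ne_zero s a
  have nU := ex_ne_zero s u
  have nV := ex_ne_zero s v
  have hce : c = -s * conj (ex s u * ex s v) := by
    have e1 : c ^ 2 = (-s * conj (ex s u * ex s v)) ^ 2 := by
      rw [hc2, ex2, map_mul, div_eq_iff (by positivity)]
      grind
    rcases sq_eq_sq_iff_eq_or_eq_neg.1 e1 with e | e
    · exact e
    · exfalso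
      rw [e, ← ex_add] at hc
      simp only [neg_mul, neg_neg, Complex.mul_im, Complex.ofReal_re, Complex.conj_im,
        Complex.ofReal_im, zero_mul, add_zero, ex_im hs] at hc
      nlinarith
  refine ⟨s * (Real.sin u / Real.sin v), by rw [← mul_assoc, hs2, one_mul]; positivity, ?_⟩
  have hden := mb_den (c := c) (z := ((s * (Real.sin u / Real.sin v) : ℝ) : ℂ)) hc
    (Complex.ofReal_im _).ge
  rw [mb, mul_div_assoc', div_eq_iff hden, ex1, ex2, hce]
  have iu : ex s u - conj (ex s u) = 2 * (s * Real.sin u) * Complex.I := by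
    rw [Complex.sub_conj, ex_im hs]; push_cast; ring
  have iv : ex s v - conj (ex s v) = 2 * (s * Real.sin v) * Complex.I := by
    rw [Complex.sub_conj, ex_im hs]; push_cast; ring
  have sv' : ((Real.sin v : ℝ) : ℂ) ≠ 0 := by exact_mod_cast sv.ne'
  have hy : (((s * (Real.sin u / Real.sin v) : ℝ)) : ℂ) * Real.sin v = s * Real.sin u := by
    rw [← Complex.ofReal_mul, ← Complex.ofReal_mul]
    congr 1
    field_simp
  simp only [map_mul, map_neg, Complex.conj_ofReal, Complex.conj_conj]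
  generalize (((s * (Real.sin u / Real.sin v) : ℝ)) : ℂ) = y at *
  generalize ((Real.sin u : ℝ) : ℂ) = p at *
  generalize ((Real.sin v : ℝ) : ℂ) = r at *
  generalize conj (ex s u) = U' at *
  generalize conj (ex s v) = V' at *
  generalize ex s u = U at *
  generalize ex s v = V at *
  have key : V * V * (y - -s * (U' * V')) = y - -s * (U * V) := by
    have k1 : y * (V - V') = s * (U - U') := by
      rw [iu, iv]
      linear_combination (2 * s * Complex.I) * hy
    linear_combination V * k1 + (y + s * U' * V) * mv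
  linear_combination (ex s a * U * U) * key

/-! ### Radó's theorem for curves -/

theorem ex_pi {s : ℝ} (hs : s = 1 ∨ s = -1) : ex s Real.pi = -1 := by
  rcases hs with rfl | rfl
  · rw [ex, one_mul, Complex.exp_pi_mul_I]
  · rw [ex]
    push_cast
    rw [neg_mul, one_mul, neg_mul, Complex.exp_neg_pi_mul_I]

theorem ex_two_pi {s : ℝ} (hs : s = 1 ∨ s = -1) : ex s (2 * Real.pi) = 1 := by
  have := ex_add_two_pi hs 0
  rw [zero_add] at this
  rw [this, ex]
  simp

theorem CConf.dcc {f : ℂ → ℂ} {D : Set ℂ} (h : CConf f D) : DiffContOnCl ℂ f (ball 0 1) :=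
  ⟨h.diff, by rw [closure_ball 0 one_ne_zero]; exact h.cont⟩

/-- **Radó's theorem in the disc**: Jordan curves `c i` which converge uniformly, modulo the
reparametrizations `T i`, to the boundary curve of `f`. -/
theorem rado_disc {ι : Type*} {l : Filter ι} {D : Set ℂ} {f : ℂ → ℂ} (hf : CConf f D) {s : ℝ}
    (hs : s = 1 ∨ s = -1) {σ : ℝ → ℝ} (hσc : Continuous σ) (hσ : Monotone σ)
    (hσp : ∀ t, σ (t + 1) = σ t + 2 * Real.pi) {Dn : ι → Set ℂ} (hG : ∀ i, Good (Dn i))
    (hne : ∀ i, (Dn i).Nonempty) {c : ι → ℝ → ℂ} {N : ι → ℝ} (hc : ∀ i, JCurve (c i) (N i))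
    (hfr : ∀ i, frontier (Dn i) = range (c i)) {T : ι → ℝ → ℝ}
    (hT : ∀ᶠ i in l, Continuous (T i) ∧ Monotone (T i) ∧ ∀ t, T i (t + 1) = T i t + N i)
    (hcl : ∀ ε > 0, ∀ᶠ i in l, ∀ t, dist (c i (T i t)) (f (ex s (σ t))) < ε) :
    ∃ (fn : ι → ℂ → ℂ) (L : ι → ℝ → ℝ), (∀ i, CConf (fn i) (Dn i)) ∧
      (∀ i x, fn i (ex s (L i x)) = c i x) ∧
      (∀ᶠ i in l, StrictMono (L i) ∧ ∀ x, L i (x + N i) = L i x + 2 * Real.pi) ∧
      TendstoUniformlyOn fn f l (closedBall 0 1) ∧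
      ∀ ε > 0, ∀ᶠ i in l, ∀ t, dist (ex s (L i (T i t))) (ex s (σ t)) < ε := by
  classical
  have hπ := Real.pi_pos
  have z0 : (0 : ℂ) ∈ ball (0 : ℂ) 1 := mem_ball_self one_pos
  have hs0 : s ≠ 0 := by rcases hs with rfl | rfl <;> norm_num
  obtain ⟨u, hu, hue⟩ := exists_rot (hf.deriv_ne z0)
  have hu0 : u ≠ 0 := by rintro rfl; simp at hu
  have hu' : ‖u⁻¹‖ = 1 := by rw [norm_inv, hu, inv_one]
  set Φ : ℂ → ℂ := fun z => f (u * z) with hΦd
  have hΦ : CConf Φ D := hf.comp_rot hu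
  have hΦder : deriv Φ 0 = (‖deriv f 0‖ : ℂ) := by
    rw [hΦd, (hf.toConf.rot hu).2, hue]
  have hΦ0 : Φ 0 = f 0 := by simp only [hΦd, mul_zero]
  have hex : ∀ i, ∃ Φi, CConf Φi (Dn i) ∧ (f 0 ∈ Dn i → Φi 0 = f 0) ∧
      ∃ a : ℝ, 0 ≤ a ∧ deriv Φi 0 = a := by
    intro i
    by_cases hw : f 0 ∈ Dn i
    · obtain ⟨Φi, h1, h2, h3⟩ := (hG i).exists_cconf hw
      exact ⟨Φi, h1, fun _ => h2, h3⟩
    · obtain ⟨x, hx⟩ := hne i
      obtain ⟨Φi, h1, h2, h3⟩ := (hG i).exists_cconf hx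
      exact ⟨Φi, h1, fun h => (hw h).elim, h3⟩
  choose Φn hΦn hΦn0 hΦnd using hex
  set fn : ι → ℂ → ℂ := fun i z => Φn i (u⁻¹ * z) with hfnd
  have hfn : ∀ i, CConf (fn i) (Dn i) := fun i => (hΦn i).comp_rot hu'
  choose L d hLc hLe hLp hLm using fun i => exists_lift (hfn i) (hG i).nocut (hc i) (hfr i) hs
  -- the limit curve
  have hBc : Continuous fun t => f (ex s (σ t)) :=
    hf.cont.comp_continuous ((continuous_ex s).comp hσc) fun t => ex_mem' s _
  have hσ1 : σ 1 = σ 0 + 2 * Real.pi := by rw [← hσp, zero_add]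
  have hσe : ex s (σ 1) = ex s (σ 0) := by rw [hσ1, ex_add_two_pi hs]
  have hBf : ∀ t, f (ex s (σ t)) ∈ frontier D := fun t => hf.sphere_mem (ex_mem s _)
  have hLT : ∀ i, (Continuous (T i) ∧ Monotone (T i) ∧ ∀ t, T i (t + 1) = T i t + N i) →
      L i (T i 1) = L i (T i 0) + d i * (2 * Real.pi) := by
    intro i hi
    have := hi.2.2 0
    rw [zero_add] at this
    rw [this, hLp]
  -- the winding numbers of the curves
  have hwind : ∀ i, (Continuous (T i) ∧ Monotone (T i) ∧ ∀ t, T i (t + 1) = T i t + N i) →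
      ∀ z ∈ D, (∀ t, dist (c i (T i t)) (f (ex s (σ t))) < dist z (f (ex s (σ t)))) →
      IncOn (fun t => fn i (ex s (L i (T i t)))) 0 1 z
        (((s * (2 * Real.pi) : ℝ) : ℂ) * Complex.I) := by
    intro i hi z hz hd
    rw [← hf.img] at hz
    obtain ⟨q, hq, rfl⟩ := hz
    have h1 := inc_in hf hq s hσc hσe
    rw [hσ1, add_sub_cancel_left] at h1
    simp only [hLe]
    refine inc_near h1 hBc ((hc i).cont.comp hi.1) (by simp only [hσe]) ?_ hd
    have := hi.2.2 0
    rw [zero_add] at this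
    simp only [this, (hc i).per]
  have hin : ∀ K ⊆ D, IsCompact K → ∀ᶠ i in l, K ⊆ Dn i := by
    intro K hK hKc
    obtain ⟨r, hr, hrK⟩ := hKc.exists_thickening_subset_open hf.isOpen hK
    filter_upwards [hT, hcl r hr] with i hi hd z hz
    have hzr : ∀ t, r ≤ dist z (f (ex s (σ t))) := fun t => by
      by_contra hlt
      refine notMem_of_frontier hf.isOpen (hBf t) (hrK ?_)
      exact mem_thickening_iff.2 ⟨z, hz, by rw [dist_comm]; exact not_le.1 hlt⟩
    have h1 := hwind i hi z (hK hz) fun t => (hd t).trans_le (hzr t)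
    by_contra hzD
    by_cases hzc : z ∈ closure (Dn i)
    · have h2 : z ∈ frontier (Dn i) := by
        rw [(hG i).isOpen.frontier_eq]; exact ⟨hzc, hzD⟩
      rw [hfr] at h2
      obtain ⟨x, rfl⟩ := h2
      obtain ⟨t, rfl⟩ := per_surj (hc i).pos hi.1 hi.2.2 x
      exact absurd (hd t) (not_lt.2 (hzr t))
    · have h2 := inc_out (hfn i) hzc s (L := fun t => L i (T i t)) ((hLc i).comp hi.1)
        (by simp only [hLT i hi, ex_add_int hs])
      have h3 := h1.unique zero_le_one h2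
      rw [mul_eq_zero, Complex.ofReal_eq_zero] at h3
      rcases h3 with h3 | h3
      · exact mul_ne_zero hs0 (by positivity) h3
      · exact Complex.I_ne_zero h3
  have hsurj : ∀ ζ ∈ sphere (0 : ℂ) 1, ∃ y, ex s y = ζ := fun ζ hζ =>
    ⟨_, ex_arg hs (mem_sphere_zero_iff_norm.1 hζ)⟩
  have hout : ∀ p ∈ frontier D, ∀ r > 0, ∀ᶠ i in l, ¬ ball p r ⊆ Dn i := by
    intro p hp r hr
    rw [← hf.frontier_eq] at hp
    obtain ⟨ζ, hζ, rfl⟩ := hp
    obtain ⟨y, rfl⟩ := hsurj ζ hζ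
    obtain ⟨t, rfl⟩ := per_surj (by positivity) hσc hσp y
    filter_upwards [hcl r hr] with i hi hsub
    refine notMem_of_frontier (hG i).isOpen (p := c i (T i t)) ?_ (hsub (hi t))
    rw [hfr]
    exact mem_range_self _
  obtain ⟨R, hR⟩ := hf.isBounded.closure.subset_closedBall 0
  have hbd : ∀ᶠ i in l, Dn i ⊆ closedBall 0 (R + 1) := by
    filter_upwards [hT, hcl 1 one_pos] with i hi hd
    refine subset_closedBall_of_frontier (hG i).isOpen (hG i).bdd ?_
    rw [hfr]
    rintro _ ⟨x, rfl⟩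
    obtain ⟨t, rfl⟩ := per_surj (hc i).pos hi.1 hi.2.2 x
    have h1 := hR (frontier_subset_closure (hBf t))
    rw [mem_closedBall] at h1 ⊢
    have h2 := dist_triangle (c i (T i t)) (f (ex s (σ t))) 0
    linarith [hd t]
  have h00 : ∀ᶠ i in l, Φn i 0 = Φ 0 := by
    filter_upwards [hin {f 0} (singleton_subset_iff.2 hf.zero_mem) isCompact_singleton] with i hi
    rw [hΦ0]
    exact hΦn0 i (hi rfl)
  have hpt : ∀ z ∈ ball (0 : ℂ) 1, Tendsto (fun i => fn i z) l (𝓝 (f z)) := by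
    intro z hz
    have hz' : u⁻¹ * z ∈ ball (0 : ℂ) 1 := by
      rw [mem_ball_zero_iff] at hz ⊢
      rw [norm_mul, hu', one_mul]
      exact hz
    have h1 := kernel hΦ.toConf hΦ.isBounded (fun i => (hΦn i).toConf) ⟨_, hbd⟩ h00 hin hout hΦnd
      ⟨_, norm_nonneg _, hΦder⟩ hz'
    have e : Φ (u⁻¹ * z) = f z := by
      simp only [hΦd]
      rw [← mul_assoc, mul_inv_cancel₀ hu0, one_mul]
    rw [e] at h1
    exact h1
  -- the degree
  have hdeg : ∀ᶠ i in l, d i = 1 := by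
    obtain ⟨r, hr, hrD⟩ := exists_dist hf.isOpen hf.zero_mem
    filter_upwards [hT, hcl r hr, h00] with i hi hd h0
    have h1 := hwind i hi (f 0) hf.zero_mem fun t => (hd t).trans_le (hrD _ (hBf t))
    have h2 := inc_in (hfn i) z0 s (L := fun t => L i (T i t)) ((hLc i).comp hi.1)
      (by simp only [hLT i hi, ex_add_int hs])
    have e : fn i 0 = f 0 := by simp only [hfnd, mul_zero, h0, hΦ0]
    rw [e] at h2
    have h3 := h1.unique zero_le_one h2
    simp only [hLT i hi, add_sub_cancel_left] at h3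
    have h4 := mul_right_cancel₀ Complex.I_ne_zero h3
    rw [Complex.ofReal_inj] at h4
    have h5 := mul_left_cancel₀ hs0 h4
    have h6 : (d i : ℝ) = 1 := by
      have h7 : (d i - 1 : ℝ) * (2 * Real.pi) = 0 := by linarith
      have := (mul_eq_zero.1 h7).resolve_right (by positivity)
      linarith
    exact_mod_cast h6
  have hLs : ∀ᶠ i in l, StrictMono (L i) ∧ ∀ x, L i (x + N i) = L i x + 2 * Real.pi := by
    filter_upwards [hdeg] with i hi
    refine ⟨hLm i hi, fun x => ?_⟩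
    rw [hLp, hi]
    push_cast
    ring
  have hΛ : ∀ᶠ i in l, Continuous (fun t => L i (T i t)) ∧ Monotone (fun t => L i (T i t)) ∧
      ∀ t, L i (T i (t + 1)) = L i (T i t) + 2 * Real.pi := by
    filter_upwards [hT, hLs] with i hi hL
    exact ⟨(hLc i).comp hi.1, hL.1.monotone.comp hi.2.1, fun t => by rw [hi.2.2, hL.2]⟩
  have hsb : ∀ᶠ i in l, ∀ z ∈ sphere (0 : ℂ) 1, ‖fn i z‖ ≤ R + 1 := by
    filter_upwards [hbd] with i hi z hz
    exact mem_closedBall_zero_iff.1 (closure_minimal hi isClosed_closedBall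
      (frontier_subset_closure ((hfn i).sphere_mem hz)))
  have hconv : ∀ ε > 0, ∀ᶠ i in l, ∀ t, dist (ex s (L i (T i t))) (ex s (σ t)) < ε :=
    fun ε hε => lift_conv hf (fun i => CConf.dcc (hfn i)) hsb hpt hs hσ hσp
      (Λ := fun i t => L i (T i t)) hΛ (fun η hη => by simpa only [hLe] using hcl η hη) hε
  refine ⟨fn, L, hfn, hLe, hLs, ?_, hconv⟩
  have hucont : UniformContinuousOn f (closedBall 0 1) :=
    (isCompact_closedBall 0 1).uniformContinuousOn_of_continuous hf.cont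
  rw [Metric.tendstoUniformlyOn_iff]
  intro ε hε
  obtain ⟨η, hη, hη'⟩ := Metric.uniformContinuousOn_iff.1 hucont (ε / 3) (by positivity)
  filter_upwards [hΛ, hcl (ε / 3) (by positivity), hconv η hη] with i h1 h2 h3 z hz
  have h4 : ‖f z - fn i z‖ ≤ 2 * (ε / 3) := by
    refine Complex.norm_le_of_forall_mem_frontier_norm_le isBounded_ball
      ((CConf.dcc hf).sub (CConf.dcc (hfn i))) ?_ (by rwa [closure_ball 0 one_ne_zero])
    intro ζ hζ
    rw [frontier_ball 0 one_ne_zero] at hζ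
    obtain ⟨y, rfl⟩ := hsurj ζ hζ
    obtain ⟨t, rfl⟩ := per_surj (by positivity) h1.1 h1.2.2 y
    have a1 := hη' _ (ex_mem' s _) _ (ex_mem' s _) (h3 t)
    have a2 := h2 t
    rw [← hLe] at a2
    have a3 := dist_triangle_right (f (ex s (L i (T i t)))) (fn i (ex s (L i (T i t))))
      (f (ex s (σ t)))
    rw [Pi.sub_apply, ← dist_eq_norm]
    linarith
  rw [dist_eq_norm]
  linarith

/-- **Radó's theorem in the half-plane.** -/
theorem rado_half {ι : Type*} {l : Filter ι} {D : Set ℂ} {ψ : ℂ → ℂ} {a b : ℂ}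
    (hψ : IsU ψ D a b) {s : ℝ} (hs : s = 1 ∨ s = -1) {σ : ℝ → ℝ} (hσc : Continuous σ)
    (hσ : Monotone σ) (hσp : ∀ t, σ (t + 1) = σ t + 2 * Real.pi) (σ0 : σ 0 = Real.pi)
    (σh : σ (1 / 2) = 2 * Real.pi) {Dn : ι → Set ℂ} (hG : ∀ i, Good (Dn i))
    (hne : ∀ i, (Dn i).Nonempty) {c : ι → ℝ → ℂ} {N : ι → ℝ} (hc : ∀ i, JCurve (c i) (N i))
    (hfr : ∀ i, frontier (Dn i) = range (c i)) {xa xb : ι → ℝ}
    (hx : ∀ i, xa i < xb i ∧ xb i < xa i + N i) {T : ι → ℝ → ℝ}
    (hT : ∀ᶠ i in l, (Continuous (T i) ∧ Monotone (T i) ∧ ∀ t, T i (t + 1) = T i t + N i) ∧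
      T i 0 = xa i ∧ T i (1 / 2) = xb i)
    (hcl : ∀ ε > 0, ∀ᶠ i in l, ∀ t, dist (c i (T i t)) (toDisc ψ b (ex s (σ t))) < ε) :
    ∃ ψn : ι → ℂ → ℂ, (∀ i, IsU (ψn i) (Dn i) (c i (xa i)) (c i (xb i)) ∧
      InjOn (ψn i) {z | 0 ≤ z.im}) ∧ TendstoUniformlyOn ψn ψ l {z | 0 ≤ z.im} ∧
      ∀ᶠ i in l, ∀ x ∈ Ioo (xa i) (xb i), ∃ y : ℝ, 0 < s * y ∧ ψn i y = c i x := by
  have hI : 0 < Complex.I.im := by simp
  have hf := hψ.toDisc
  obtain ⟨fn, L, hfn, hLe, hLs, hU, hconv⟩ := rado_disc hf hs hσc hσ hσp hG hne hc hfr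
    (hT.mono fun i hi => hi.1) hcl
  set αn : ι → ℂ := fun i => ex s (L i (xa i)) with hαn
  set βn : ι → ℂ := fun i => ex s (L i (xb i)) with hβn
  have hα' : Tendsto αn l (𝓝 (-1)) := by
    rw [Metric.tendsto_nhds]
    intro ε hε
    filter_upwards [hT, hconv ε hε] with i h1 h2
    have := h2 0
    rwa [h1.2.1, σ0, ex_pi hs] at this
  have hβ' : Tendsto βn l (𝓝 1) := by
    rw [Metric.tendsto_nhds]
    intro ε hε
    filter_upwards [hT, hconv ε hε] with i h1 h2
    have := h2 (1 / 2)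
    rwa [h1.2.2, σh, ex_two_pi hs] at this
  have hβn1 : ∀ i, ‖βn i‖ = 1 := fun i => norm_ex _ _
  have hβn0 : ∀ i, βn i ≠ 0 := fun i => ex_ne_zero _ _
  have hquo : ∀ i, ‖αn i / βn i‖ = 1 := fun i => by rw [norm_div, norm_ex, norm_ex, div_one]
  have hquo0 : ∀ i, αn i / βn i ≠ 0 := fun i => div_ne_zero (ex_ne_zero _ _) (ex_ne_zero _ _)
  have hquo1 : ∀ i, αn i / βn i ≠ 1 := by
    intro i h
    rw [div_eq_one_iff_eq (hβn0 i)] at h
    have e : c i (xa i) = c i (xb i) := by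
      rw [← hLe, ← hLe]
      exact congrArg (fn i) h
    obtain ⟨k, hk⟩ := (hc i).inj _ _ e
    have hN := (hc i).pos
    have h1 : (k : ℝ) * N i < 0 * N i := by linarith [(hx i).1]
    have h2 : (-1 : ℝ) * N i < k * N i := by linarith [(hx i).2]
    have h3 : k < 0 := by exact_mod_cast lt_of_mul_lt_mul_right h1 hN.le
    have h4 : -1 < k := by exact_mod_cast lt_of_mul_lt_mul_right h2 hN.le
    omega
  have hquot : Tendsto (fun i => αn i / βn i) l (𝓝 (-1)) := by
    have h1 := hα'.div hβ' one_ne_zero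
    rwa [div_one] at h1
  set cn : ι → ℂ := fun i => csq (αn i / βn i) with hcnd
  have hcn : Tendsto cn l (𝓝 Complex.I) := by
    have h1 : ContinuousAt csq (-1) := csq_continuousAt (by simp) (by norm_num)
    have h2 := h1.tendsto.comp hquot
    rw [csq_neg_one] at h2
    exact h2
  have hcn1 : ∀ i, 0 < (cn i).im := fun i => csq_im_pos (hquo i) (hquo1 i)
  have hcn2 : ∀ i, mb (βn i) (cn i) 0 = αn i := by
    intro i
    rw [mb_zero (norm_csq (hquo i)), csq_sq (hquo0 i), mul_div_cancel₀ _ (hβn0 i)]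
  refine ⟨fun i z => fn i (mb (βn i) (cn i) z), fun i => ⟨?_, ?_⟩, ?_, ?_⟩
  · have h1 := (hfn i).isU (hβn1 i) (hcn1 i)
    rw [hcn2 i] at h1
    simp only [hαn, hβn, hLe] at h1 ⊢
    exact h1
  · intro z hz z' hz' he
    exact mb_injOn (hβn1 i) (hcn1 i) hz hz' ((hfn i).injOn (hG i).nocut
      (mb_mem_closedBall (hβn1 i) (hcn1 i) hz) (mb_mem_closedBall (hβn1 i) (hcn1 i) hz') he)
  · have hmb := mb_uniform (c := Complex.I) hβn1 hβ' hI hcn
    have hucont : UniformContinuousOn (toDisc ψ b) (closedBall 0 1) :=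
      (isCompact_closedBall 0 1).uniformContinuousOn_of_continuous hf.cont
    rw [Metric.tendstoUniformlyOn_iff]
    intro ε hε
    obtain ⟨η, hη, hη'⟩ := Metric.uniformContinuousOn_iff.1 hucont (ε / 2) (half_pos hε)
    filter_upwards [Metric.tendstoUniformlyOn_iff.1 hU (ε / 2) (half_pos hε),
      Metric.tendstoUniformlyOn_iff.1 hmb η hη] with i h1 h2 z hz
    have m1 := mb_mem_closedBall (c := Complex.I) norm_one hI hz
    have m2 := mb_mem_closedBall (hβn1 i) (hcn1 i) hz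
    have h3 := hη' _ m1 _ m2 (h2 z hz)
    have h4 := h1 _ m2
    rw [← toDisc_mb (ψ := ψ) (b := b) hz]
    have h5 := dist_triangle (toDisc ψ b (mb 1 Complex.I z)) (toDisc ψ b (mb (βn i) (cn i) z))
      (fn i (mb (βn i) (cn i) z))
    linarith
  · filter_upwards [hLs] with i hi x hxi
    have h3 : L i (xb i) < L i (xa i) + 2 * Real.pi := by
      rw [← hi.2]; exact hi.1 (hx i).2
    obtain ⟨y, hy, hye⟩ := exists_sign hs (hi.1 hxi.1) (hi.1 hxi.2) h3 (hcn1 i) (csq_sq (hquo0 i))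
    refine ⟨y, hy, ?_⟩
    simp only [hβn]
    rw [hye, hLe]

/-! ### Periodic parameters -/

/-- The extension of `g` from `[0, 1]` to the line with `g (t + 1) = g t + L`. -/
noncomputable def perz (g : ℝ → ℝ) (L t : ℝ) : ℝ := g (Int.fract t) + ⌊t⌋ * L

theorem perz_add (g : ℝ → ℝ) (L t : ℝ) : perz g L (t + 1) = perz g L t + L := by
  rw [perz, perz, Int.fract_add_one, Int.floor_add_one]
  push_cast
  ring

theorem perz_eq {g : ℝ → ℝ} {L t : ℝ} (ht : t ∈ Ico (0 : ℝ) 1) : perz g L t = g t := by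
  rw [perz, Int.fract_eq_self.2 ht, Int.floor_eq_zero_iff.2 ht]
  simp

theorem fract_mem (t : ℝ) : Int.fract t ∈ Icc (0 : ℝ) 1 :=
  ⟨Int.fract_nonneg t, (Int.fract_lt_one t).le⟩

theorem perz_mono {g : ℝ → ℝ} {L : ℝ} (hg : MonotoneOn g (Icc 0 1)) (h1 : g 1 = g 0 + L) :
    Monotone (perz g L) := by
  intro x y hxy
  have m0 : (0 : ℝ) ∈ Icc (0 : ℝ) 1 := ⟨le_rfl, zero_le_one⟩
  have m1 : (1 : ℝ) ∈ Icc (0 : ℝ) 1 := ⟨zero_le_one, le_rfl⟩
  have hL : 0 ≤ L := by linarith [hg m0 m1 zero_le_one]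
  rw [perz, perz]
  rcases (Int.floor_mono hxy).lt_or_eq with h | h
  · have a1 := hg (fract_mem x) m1 (fract_mem x).2
    have a2 := hg m0 (fract_mem y) (fract_mem y).1
    have a3 : ((⌊x⌋ : ℝ) + 1) ≤ ⌊y⌋ := by exact_mod_cast h
    nlinarith
  · have a1 : Int.fract x ≤ Int.fract y := by
      rw [Int.fract, Int.fract, h]
      linarith
    rw [h]
    linarith [hg (fract_mem x) (fract_mem y) a1]

theorem perz_cont {g : ℝ → ℝ} {L : ℝ} (hg : ContinuousOn g (Icc 0 1)) (h1 : g 1 = g 0 + L) :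
    Continuous (perz g L) := by
  have h2 : Continuous ((fun t => g t - t * L) ∘ Int.fract : ℝ → ℝ) :=
    ContinuousOn.comp_fract'' (hg.sub (by fun_prop)) (by rw [h1]; ring)
  have e : perz g L = fun t => ((fun t => g t - t * L) ∘ Int.fract : ℝ → ℝ) t + t * L := by
    funext t
    simp only [perz, Function.comp, Int.fract]
    ring
  rw [e]
  exact h2.add (by fun_prop)

theorem mb_real {s : ℝ} (hs : s = 1 ∨ s = -1) (x : ℝ) :
    mb 1 Complex.I (s * x : ℝ) = ex s (Real.pi + 2 * Real.arctan x) := by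
  have hI : 0 < Complex.I.im := by simp
  have hden := mb_den (c := Complex.I) (z := ((s * x : ℝ) : ℂ)) hI (Complex.ofReal_im _).ge
  rw [mb, one_mul, div_eq_iff hden, two_mul, ex_add, ex_add, ex_pi hs, Complex.conj_I]
  have h1 : ex s (Real.arctan x) =
      Real.cos (Real.arctan x) + s * Real.sin (Real.arctan x) * Complex.I := by
    generalize Real.arctan x = v
    apply Complex.ext
    · rw [ex_re]
      rcases hs with rfl | rfl <;> simp [Complex.cos_ofReal_re, Complex.sin_ofReal_im]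
    · rw [ex_im hs]
      simp [Complex.sin_ofReal_re, Complex.cos_ofReal_im]
  have h2 : Real.sin (Real.arctan x) = x * Real.cos (Real.arctan x) := by
    have := Real.tan_arctan x
    rw [Real.tan_eq_sin_div_cos, div_eq_iff (Real.cos_arctan_pos x).ne'] at this
    exact this
  have h3 := Real.sin_sq_add_cos_sq (Real.arctan x)
  have hs2 : s * s = 1 := by rcases hs with rfl | rfl <;> norm_num
  rw [h1, h2]
  rw [h2] at h3
  generalize Real.cos (Real.arctan x) = C at *
  have h3' : ((x : ℂ) * C) ^ 2 + (C : ℂ) ^ 2 = 1 := by exact_mod_cast h3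
  have hs2' : (s : ℂ) * s = 1 := by exact_mod_cast hs2
  have hI2 := Complex.I_mul_I
  push_cast
  grind

theorem isU_of {D : Set ℂ} {a b : ℂ} {ψ : ℂ → ℂ} (h : P153E.IsUnif D a b ψ) : IsU ψ D a b :=
  ⟨h.1, h.2.1.injOn, h.2.1.image_eq, h.2.2.1, h.2.2.2.1, h.2.2.2.2⟩

/-- The angle of the marked boundary curve. -/
theorem Param.angle {D : Set ℂ} {ψ : ℂ → ℂ} {s : ℝ} {β : ℝ → ℂ} (h : Param D ψ s β) :
    ∃ σ : ℝ → ℝ, Continuous σ ∧ Monotone σ ∧ (∀ t, σ (t + 1) = σ t + 2 * Real.pi) ∧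
      σ 0 = Real.pi ∧ σ (1 / 2) = 2 * Real.pi ∧
      ∀ t, β (Int.fract t) = toDisc ψ (β (1 / 2)) (ex s (σ t)) := by
  classical
  obtain ⟨hU, hs, θ, m1, i1, m2, i2, hβ⟩ := h
  have hπ := Real.pi_pos
  have p1 : ∀ t ∈ Ico (0 : ℝ) (1 / 2), 0 ≤ θ t := fun t ht => by
    have : θ t ∈ Ici (0 : ℝ) := i1 ▸ mem_image_of_mem θ ht
    exact this
  have p2 : ∀ t ∈ Ioc (1 / 2 : ℝ) 1, θ t ≤ 0 := fun t ht => by
    have : θ t ∈ Iic (0 : ℝ) := i2 ▸ mem_image_of_mem θ ht
    exact this
  have m0 : (0 : ℝ) ∈ Ico (0 : ℝ) (1 / 2) := ⟨le_rfl, by norm_num⟩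
  have m1' : (1 : ℝ) ∈ Ioc (1 / 2 : ℝ) 1 := ⟨by norm_num, le_rfl⟩
  have t0 : θ 0 = 0 := by
    obtain ⟨t, ht, e⟩ : (0 : ℝ) ∈ θ '' Ico 0 (1 / 2) := by rw [i1]; exact mem_Ici.2 le_rfl
    exact le_antisymm (e ▸ m1.monotoneOn m0 ht ht.1) (p1 0 m0)
  have t1 : θ 1 = 0 := by
    obtain ⟨t, ht, e⟩ : (0 : ℝ) ∈ θ '' Ioc (1 / 2) 1 := by rw [i2]; exact mem_Iic.2 le_rfl
    exact le_antisymm (p2 1 m1') (e ▸ m2.monotoneOn ht m1' ht.2)
  set g : ℝ → ℝ := fun t => if t < 1 / 2 then Real.pi + 2 * Real.arctan (θ t) else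
    if t = 1 / 2 then 2 * Real.pi else 3 * Real.pi + 2 * Real.arctan (θ t) with hg
  have g1 : ∀ t, t < 1 / 2 → g t = Real.pi + 2 * Real.arctan (θ t) := fun t ht => if_pos ht
  have g2 : g (1 / 2) = 2 * Real.pi := by simp [hg]
  have g3 : ∀ t, 1 / 2 < t → g t = 3 * Real.pi + 2 * Real.arctan (θ t) := fun t ht => by
    simp only [hg]
    rw [if_neg (not_lt.2 ht.le), if_neg ht.ne']
  have b1 : ∀ t, t < 1 / 2 → g t < 2 * Real.pi := fun t ht => by
    rw [g1 t ht]; linarith [Real.arctan_lt_pi_div_two (θ t)]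
  have b2 : ∀ t, 1 / 2 < t → 2 * Real.pi < g t := fun t ht => by
    rw [g3 t ht]; linarith [Real.neg_pi_div_two_lt_arctan (θ t)]
  have hg0 : g 0 = Real.pi := by rw [g1 0 (by norm_num), t0]; simp
  have hg1 : g 1 = g 0 + 2 * Real.pi := by
    rw [g3 1 (by norm_num), hg0, t1, Real.arctan_zero]; ring
  have hgm : MonotoneOn g (Icc 0 1) := by
    intro x hx y hy hxy
    rcases lt_trichotomy x (1 / 2) with a | rfl | a <;> rcases lt_trichotomy y (1 / 2) with
      c | c | c
    · rw [g1 x a, g1 y c]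
      have := Real.arctan_strictMono.monotone (m1.monotoneOn ⟨hx.1, a⟩ ⟨hy.1, c⟩ hxy)
      linarith
    · rw [c, g2]; exact (b1 x a).le
    · linarith [b1 x a, b2 y c]
    · linarith
    · rw [c]
    · rw [g2]; exact (b2 y c).le
    · linarith
    · linarith
    · rw [g3 x a, g3 y c]
      have := Real.arctan_strictMono.monotone (m2.monotoneOn ⟨a, hx.2⟩ ⟨c, hy.2⟩ hxy)
      linarith
  have hσm := perz_mono hgm hg1
  have hsur : Function.Surjective (perz g (2 * Real.pi)) := by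
    intro y
    obtain ⟨k, hk, -⟩ := existsUnique_add_zsmul_mem_Ico (show 0 < 2 * Real.pi by positivity) y
      Real.pi
    rw [zsmul_eq_mul] at hk
    have key : ∃ t ∈ Ico (0 : ℝ) 1, g t = y + k * (2 * Real.pi) := by
      set w := y + k * (2 * Real.pi) with hw
      rcases lt_trichotomy w (2 * Real.pi) with a | a | a
      · have c1 : 0 ≤ Real.tan ((w - Real.pi) / 2) :=
          Real.tan_nonneg_of_nonneg_of_le_pi_div_two (by linarith [hk.1]) (by linarith)
        obtain ⟨t, ht, e⟩ : Real.tan ((w - Real.pi) / 2) ∈ θ '' Ico 0 (1 / 2) := by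
          rw [i1]; exact c1
        refine ⟨t, ⟨ht.1, by linarith [ht.2]⟩, ?_⟩
        rw [g1 t ht.2, e, Real.arctan_tan (by linarith [hk.1]) (by linarith)]
        ring
      · exact ⟨1 / 2, ⟨by norm_num, by norm_num⟩, by rw [g2, a]⟩
      · have c1 : Real.tan ((w - 3 * Real.pi) / 2) < 0 :=
          Real.tan_neg_of_neg_of_pi_div_two_lt (by linarith [hk.2]) (by linarith)
        obtain ⟨t, ht, e⟩ : Real.tan ((w - 3 * Real.pi) / 2) ∈ θ '' Ioc (1 / 2) 1 := by
          rw [i2]; exact c1.le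
        refine ⟨t, ⟨by linarith [ht.1], lt_of_le_of_ne ht.2 ?_⟩, ?_⟩
        · rintro rfl
          rw [t1] at e
          linarith
        · rw [g3 t ht.1, e, Real.arctan_tan (by linarith) (by linarith [hk.2])]
          ring
    obtain ⟨t, ht, e⟩ := key
    refine ⟨t + (-k : ℤ), ?_⟩
    rw [per_int' (perz_add g _), perz_eq ht, e]
    push_cast
    ring
  refine ⟨perz g (2 * Real.pi), hσm.continuous_of_surjective hsur, hσm, perz_add g _, ?_, ?_,
    fun t => ?_⟩
  · rw [perz_eq ⟨le_rfl, one_pos⟩, hg0]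
  · rw [perz_eq ⟨by norm_num, by norm_num⟩, g2]
  · rw [perz, ex_add_int hs]
    have ht := fract_mem t
    generalize Int.fract t = x at ht
    rcases lt_trichotomy x (1 / 2) with a | rfl | a
    · rw [g1 x a, ← mb_real hs, toDisc_mb (Complex.ofReal_im _).ge, hβ x ht a.ne]
    · rw [g2, ex_two_pi hs, toDisc_one]
    · have e : 3 * Real.pi + 2 * Real.arctan (θ x) =
          Real.pi + 2 * Real.arctan (θ x) + 2 * Real.pi := by ring
      rw [g3 x a, e, ex_add_two_pi hs, ← mb_real hs, toDisc_mb (Complex.ofReal_im _).ge,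
        hβ x ht a.ne']

/-- One choice for all `ε`. -/
theorem diag {α : Type*} [Nonempty α] {P : ℕ → α → ℝ → Prop}
    (hm : ∀ n a ε ε', ε ≤ ε' → P n a ε → P n a ε') (h : ∀ ε > 0, ∀ᶠ n in atTop, ∃ a, P n a ε) :
    ∃ a : ℕ → α, ∀ ε > 0, ∀ᶠ n in atTop, P n (a n) ε := by
  classical
  set J : ℕ → ℕ := fun n => Nat.findGreatest (fun j => ∃ a, P n a (1 / ((j : ℝ) + 1))) n with hJ
  have hex : ∀ n, ∃ a, (∃ a, P n a (1 / ((J n : ℝ) + 1))) → P n a (1 / ((J n : ℝ) + 1)) := by
    intro n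
    by_cases hn : ∃ a, P n a (1 / ((J n : ℝ) + 1))
    · obtain ⟨a, ha⟩ := hn
      exact ⟨a, fun _ => ha⟩
    · exact ⟨Classical.arbitrary α, fun h' => (hn h').elim⟩
  choose a ha using hex
  refine ⟨a, fun ε hε => ?_⟩
  obtain ⟨j, hj⟩ := exists_nat_one_div_lt hε
  filter_upwards [h (1 / ((j : ℝ) + 1)) (by positivity), eventually_ge_atTop j] with n h1 h2
  have h3 : j ≤ J n := Nat.le_findGreatest (P := fun j => ∃ a, P n a (1 / ((j : ℝ) + 1))) h2 h1
  have h4 := Nat.findGreatest_spec (P := fun j => ∃ a, P n a (1 / ((j : ℝ) + 1))) h2 h1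
  refine hm n _ _ _ (le_trans ?_ hj.le) (ha n h4)
  have : (j : ℝ) ≤ J n := by exact_mod_cast h3
  gcongr

/-! ### The lattice polygons -/

theorem PF_eq {n : ℕ} (p : ZMod n → ℤ × ℤ) (δ x : ℝ) : PF p δ x = δ * P153.H212.curve p x := by
  have e : ∀ v, Final.toC (δ • Final.pt v) = δ * P153.H212.pt v := fun v => by
    rw [← P153.H212.toC_pt]
    apply Complex.ext <;> simp [Final.toC]
  rw [PF, pl, PV, PV, e, e, P153.H212.curve, Complex.real_smul, Complex.real_smul]
  push_cast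
  ring

theorem polyFacts' {n : ℕ} {p : ZMod n → ℤ × ℤ} {S : Finset Final.Tri} {δ : ℝ} (hδ : 0 < δ)
    (hp : Final.IsPolygon p) (hS : Final.Encloses p S) : PolyFacts p S δ where
  rdom := POLY.rdom_DC hδ hp hS
  bdd := POLY.isBounded_DC hδ S
  front := by
    have h0 : n ≠ 0 := by have := hp.1; omega
    rw [range_PF h0]
    exact POLY.frontier_DC hδ hp hS

/-- **Radó's theorem for a marked boundary curve which is not injective.** -/
theorem rado : RADO := by
  intro D ψ s β h δ N k p S hA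
  obtain ⟨σ, σc, σm, σp, σ0, σh, hβ⟩ := h.angle
  obtain ⟨h1, h2, h3⟩ := hA
  have hp : ∀ n, Final.IsPolygon (p n) := fun n => P153.H212.isPolygon (h1 n).2.2.2
  have hF : ∀ n, PolyFacts (p n) (P153.H212.old (S n)) (δ n) := fun n =>
    polyFacts' (h1 n).1 (hp n) (P153.H212.encl_old (h1 n).2.2.2)
  have hG : ∀ n, Good (DP (P153.H212.old (S n)) (δ n)) := fun n => (hF n).good (h1 n).1 (hp n)
  obtain ⟨τ, hτ⟩ := diag (P := fun n (τ : ℝ → ℝ) ε => Continuous τ ∧ Monotone τ ∧ τ 0 = -1 / 2 ∧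
    τ (1 / 2) = k n - 1 / 2 ∧ τ 1 = N n - 1 / 2 ∧
    ∀ t ∈ Icc (0 : ℝ) 1, dist (δ n * P153.H212.curve (p n) (τ t)) (β t) < ε)
    (fun n τ ε ε' hε hP => ⟨hP.1, hP.2.1, hP.2.2.1, hP.2.2.2.1, hP.2.2.2.2.1,
      fun t ht => (hP.2.2.2.2.2 t ht).trans_le hε⟩) h3
  obtain ⟨ψn, g1, g2, g3⟩ := rado_half (l := atTop) (isU_of h.1) h.2.1 σc σm σp σ0 σh hG
    (fun n => (hF n).rdom.nonempty) (fun n => jcurve_PF (h1 n).1 (hp n)) (fun n => (hF n).front)
    (xa := fun _ => -1 / 2) (xb := fun n => k n - 1 / 2)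
    (fun n => by
      have a1 : (0 : ℝ) < k n := by exact_mod_cast (h1 n).2.1
      have a2 : (k n : ℝ) < N n := by exact_mod_cast (h1 n).2.2.1
      constructor <;> linarith)
    (T := fun n => perz (τ n) (N n))
    (by
      filter_upwards [hτ 1 one_pos] with n ⟨a1, a2, a3, a4, a5, _⟩
      have e : τ n 1 = τ n 0 + N n := by rw [a3, a5]; ring
      refine ⟨⟨perz_cont a1.continuousOn e, perz_mono (a2.monotoneOn _) e, perz_add _ _⟩, ?_, ?_⟩
      · rw [perz_eq ⟨le_rfl, one_pos⟩, a3]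
      · rw [perz_eq ⟨by norm_num, by norm_num⟩, a4])
    (fun ε hε => by
      filter_upwards [hτ ε hε] with n ⟨_, _, _, _, _, a6⟩ t
      rw [← hβ, perz, per_int (jcurve_PF (h1 n).1 (hp n)).per, PF_eq]
      exact a6 _ (fract_mem t))
  refine ⟨ψn, fun n => ?_, fun ε hε => ?_, ?_⟩
  · obtain ⟨h3, h4⟩ := g1 n
    have h5 := (h3.injOn (hG n).nocut).2
    rw [← midA, ← midB] at h3
    rw [← midB] at h5
    exact ⟨h3.diff, h4, h3.img, h3.cont, h3.zero, h3.infty, h5⟩
  · filter_upwards [Metric.tendstoUniformlyOn_iff.1 g2 ε hε] with n hn z hz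
    rw [dist_comm]
    exact hn z hz
  · filter_upwards [g3] with n hn
    have a1 : (1 : ℝ) ≤ k n := by exact_mod_cast (h1 n).2.1
    obtain ⟨y, hy, e⟩ := hn 0 ⟨by norm_num, by linarith⟩
    refine ⟨y, hy, ?_⟩
    rw [e, PF_eq, P153.H212.curve]
    simp

end Vale.Agent.N153
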