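import Vale.Agent.N153.Base
import Vale.Agent.N153.Rado2
import Vale.Agent.P153.R2.UNIQ.Final
import Vale.Agent.P153.R2.POLY.Can
import Vale.Agent.P153.H212.Fin

/-!
N153, the curve: the assembly of `CurveLimit` from the statements on the curves in the disc.
-/

set_option autoImplicit false
set_option linter.unusedVariables false

namespace Vale.Agent.N153

open MeasureTheory ProbabilityTheory Filter Topology Set Metric
open scoped NNReal ENNReal
open Vale.Agent.P153 Vale.Agent.P153.R2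
open Vale.Agent.P153.R2.R1 (CConf IsU toDisc mb imb)
open Vale.Agent.P153.R2.Final (IsPolygon Encloses Heights law mean IsInterface mid toC region)
open Vale.Agent.P153.R2.UNIQ
open Vale.Agent.P153.R2.POLY (DC)
open Vale.Agent.P153.R2.C1

/-- The retraction of the plane onto the closed disc. -/
noncomputable def prj (z : ℂ) : ℂ := z / ((max 1 ‖z‖ : ℝ) : ℂ)

theorem continuous_prj : Continuous prj := by
  refine continuous_id.div (Complex.continuous_ofReal.comp (continuous_const.max continuous_norm))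
    fun z => ?_
  have : (0 : ℝ) < max 1 ‖z‖ := lt_of_lt_of_le one_pos (le_max_left _ _)
  exact_mod_cast this.ne'

theorem norm_prj (z : ℂ) : ‖prj z‖ ≤ 1 := by
  have : (0 : ℝ) < max 1 ‖z‖ := lt_of_lt_of_le one_pos (le_max_left _ _)
  rw [prj, norm_div, Complex.norm_real, Real.norm_of_nonneg this.le, div_le_one this]
  exact le_max_right _ _

theorem prj_eq {z : ℂ} (hz : ‖z‖ ≤ 1) : prj z = z := by
  rw [prj, max_eq_left hz]
  simp

/-- The extension of a conformal map of the closed disc to the plane. -/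
noncomputable def extC {φ : ℂ → ℂ} {D : Set ℂ} (h : CConf φ D) : C(ℂ, ℂ) :=
  ⟨fun z => φ (prj z), h.cont.comp_continuous continuous_prj fun z => mem_cb.2 (norm_prj z)⟩

theorem extC_eq {φ : ℂ → ℂ} {D : Set ℂ} (h : CConf φ D) {z : ℂ} (hz : ‖z‖ ≤ 1) :
    extC h z = φ z := by
  show φ (prj z) = φ z
  rw [prj_eq hz]

variable {D : Set ℂ} {φ : ℂ → ℂ} {δ : ℕ → ℝ} {N k : ℕ → ℕ} {p : ∀ n, ZMod (N n) → ℤ × ℤ}
  {S : ℕ → Finset Final.Tri} {φn gn : ℕ → ℂ → ℂ}

theorem exists_pull (h : LS D φ δ N k p S φn gn) {x : ℕ → UNIQ.Hg → C(unitInterval, ℂ)}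
    (hx : Itf δ N k p S x) : ∃ y, Pull N k p S gn x y := by
  classical
  have hex : ∀ (n : ℕ) (g : UNIQ.Hg), ∃ y : C(unitInterval, ℂ), g ∈ Heights (p n) (k n) (S n) →
      ∀ t, y t = gn n (x n g t) := by
    intro n g
    by_cases hg : g ∈ Heights (p n) (k n) (S n)
    · exact ⟨⟨fun t => gn n (x n g t), (h.ds.cont n).comp_continuous (x n g).continuous
        fun t => intf_clos (h.pos n) (hx n g hg) t⟩, fun _ _ => rfl⟩
    · exact ⟨ContinuousMap.const _ 0, fun hc => (hg hc).elim⟩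
  choose y hy using hex
  exact ⟨y, fun n g hg t => hy n g hg t⟩

section

variable [MeasurableSpace C(unitInterval, ℂ)] [BorelSpace C(unitInterval, ℂ)]
  [MeasurableSpace C(ℝ≥0, ℝ)] [BorelSpace C(ℝ≥0, ℝ)]

/-- The subsequential limits. -/
theorem sub_limit' (hdrv : T_drv) (hcross : T_cross) (hend : T_end)
    (hA : LS D φ δ N k p S φn gn) (x : ℕ → UNIQ.Hg → C(unitInterval, ℂ)) (hx : Itf δ N k p S x) :
    ∃ (θ : ℕ → ℕ) (_ : StrictMono θ)
      (ν : Measure ((C(unitInterval, ℂ) × C(ℝ≥0, ℝ)) × (C(unitInterval, ℂ) × C(unitInterval, ℂ))))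
      (_ : IsProbabilityMeasure ν), IsDrvLaw (ν.map fun q => q.1.2) ∧
      (∀ᵐ q ∂ν, Gr cay 1 q.2.1 q.1.2 ∧ q.2.2 = (extC hA.ds.conf).comp q.2.1) ∧
      ∀ F : C(unitInterval, ℂ) → ℝ, Continuous F → (∃ M, ∀ y, |F y| ≤ M) → Inv F →
        Tendsto (fun n => mean (law (p (θ n)) (k (θ n)) (S (θ n))) fun h => F (x (θ n) h)) atTop
          (𝓝 (∫ q, F q.2.2 ∂ν)) := by
  classical
  obtain ⟨y, hy⟩ := exists_pull hA hx
  -- the finite probability spaces
  set s : ∀ n : ℕ, Set UNIQ.Hg := fun n => Heights (p n) (k n) (S n) with hs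
  have hsf : ∀ n, (s n).Finite := fun n =>
    (i_fin (N n) (k n) (p n) (S n) (hA.poly n) (hA.encl n)).1
  have hsn : ∀ n, (s n).Nonempty := fun n =>
    (i_fin (N n) (k n) (p n) (S n) (hA.poly n) (hA.encl n)).2
  let P : ∀ n, Measure (s n) := fun n => uniformOn univ
  have hP : ∀ n, IsProbabilityMeasure (P n) := fun n => prob_uniformOn (s n) (hsf n) (hsn n)
  have hmean : ∀ n (F : UNIQ.Hg → ℝ), mean (law (p n) (k n) (S n)) F = ∫ ω : s n, F ω ∂(P n) :=
    fun n F => integral_uniformOn (s n) (hsf n) F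
  have hmeas : ∀ n (A : Set UNIQ.Hg), law (p n) (k n) (S n) A = P n {ω : ↥(s n) | (ω : UNIQ.Hg) ∈ A} :=
    fun n A => measure_uniformOn (s n) (hsf n) A
  have hsc : ∀ n, Countable (s n) := fun n => (hsf n).countable
  have hmf : ∀ (n : ℕ) {E : Type} [MeasurableSpace E] (f : s n → E), Measurable f :=
    fun n E _ f => measurable_of_countable f
  -- canonical reparametrisation
  set y' : ∀ n : ℕ, UNIQ.Hg → C(unitInterval, ℂ) := fun n h => rho (y n h) with hy'def
  set x' : ∀ n : ℕ, UNIQ.Hg → C(unitInterval, ℂ) := fun n h => reparam (x n h) (hIso (y n h)).symm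
    with hx'def
  have hx' : Itf δ N k p S x' := fun n h hh => interface_reparam (hx n h hh) _
  have hy' : Pull N k p S gn x' y' := fun n h hh t => hy n h hh _
  obtain ⟨η, c, w, T₀, T₁, ε, hε, hD, hlam⟩ := hdrv D φ δ N k p S φn gn hA x' y' hx' hy'
  obtain ⟨lam, hlamD, hlam⟩ := hlam
  have hlamP := hlamD.prob
  -- tightness
  have hxR : ∀ n, ∀ᵐ ω : ↥(s n) ∂(P n), ∀ t, ‖y n ω t‖ ≤ 1 := by
    intro n
    refine Eventually.of_forall fun (ω : ↥(s n)) t => ?_
    rw [hy n ω ω.2]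
    exact hA.ds.norm_le n (intf_clos (hA.pos n) (hx n ω ω.2) t)
  have hreal : ∀ (A : ∀ n : ℕ, Set UNIQ.Hg) (e : ℝ), 0 < e →
      (∀ᶠ n in atTop, (law (p n) (k n) (S n)).real (A n) ≤ e) →
      ∀ᶠ n in atTop, P n {ω : ↥(s n) | (ω : UNIQ.Hg) ∈ A n} ≤ ENNReal.ofReal e := by
    intro A e he h
    filter_upwards [h] with n hn
    rw [← hmeas]
    have hfin : law (p n) (k n) (S n) (A n) ≠ ⊤ := by
      rw [hmeas]; exact measure_ne_top _ _
    rw [Measure.real] at hn
    exact (ENNReal.le_ofReal_iff_toReal_le hfin he.le).2 hn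
  have hxc : ∀ (z : ℂ) (r : ℝ), 0 < r → ∀ e : ENNReal, 0 < e →
      ∃ m : ℕ, ∀ᶠ n in atTop, P n {ω : ↥(s n) | Cross (y n ω) z r (3 * r) m} ≤ e := by
    intro z r hr e he
    by_cases hetop : e = ⊤
    · exact ⟨0, Eventually.of_forall fun n => by rw [hetop]; exact le_top⟩
    · have he0 : 0 < e.toReal := ENNReal.toReal_pos he.ne' hetop
      obtain ⟨m, hm⟩ := hcross D φ δ N k p S φn gn hA x y hx hy z r hr e.toReal he0
      refine ⟨m, ?_⟩
      filter_upwards [hreal (fun n => {h | Cross (y n h) z r (3 * r) m}) e.toReal he0 hm] with n hn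
      rwa [ENNReal.ofReal_toReal hetop] at hn
  have hwlim : ∀ f : C(ℝ≥0, ℝ) → ℝ, Continuous f → (∃ M, ∀ y, |f y| ≤ M) →
      Tendsto (fun n => ∫ y, f y ∂((P n).map fun ω : ↥(s n) => w n ω)) atTop
        (𝓝 (∫ y, f y ∂lam)) := by
    intro f hf hM
    refine (hlam f hf hM).congr fun n => ?_
    rw [hmean, integral_map (hmf n _).aemeasurable hf.aestronglyMeasurable]
  have hwt : IsTightMeasureSet (range fun n => (P n).map fun ω : ↥(s n) => w n ω) :=
    tight_of_lim _ (fun n => Measure.isProbabilityMeasure_map (hmf n _).aemeasurable) lam hlamP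
      hwlim
  obtain ⟨θ, hθ, μ, hμ, hjoint⟩ := joint_main (fun n => s n) P hP (fun n ω => y n ω)
    (fun n => hmf n _) (fun n ω => w n ω) (fun n => hmf n _) 1 hxR hxc hwt id
  simp only [id] at hjoint
  -- the marginals
  have hsnd : μ.map Prod.snd = lam := by
    refine lim_unique _ _ (Measure.isProbabilityMeasure_map measurable_snd.aemeasurable) hlamP ?_
    intro f hf hM
    obtain ⟨M, hM'⟩ := hM
    have h1 := hjoint (fun q => f q.2) (hf.comp continuous_snd) ⟨M, fun q => hM' q.2⟩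
    have h2 := (hwlim f hf ⟨M, hM'⟩).comp hθ.tendsto_atTop
    rw [integral_map measurable_snd.aemeasurable hf.aestronglyMeasurable]
    refine tendsto_nhds_unique h1 (h2.congr fun n => ?_)
    simp only [Function.comp]
    exact integral_map (hmf _ _).aemeasurable hf.aestronglyMeasurable
  have hgood : ∀ᵐ q ∂μ, ARCX.NoSwallowR (fun t => q.2 t.toNNReal) ∧
      ARCX.NoSwallowH (fun t => q.2 t.toNNReal) := by
    have h1 := i_bess lam hlamD
    rw [← hsnd] at h1
    exact ae_of_ae_map measurable_snd.aemeasurable h1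
  have hendμ : ∀ᵐ q ∂μ, ∀ t₁ t₂ : unitInterval, t₁ ≤ t₂ → q.1 t₁ = 1 → q.1 t₂ = 1 := by
    have hrat : ∀ j : ℕ, ∀ᵐ q ∂μ, ∀ t₁ t₂ : unitInterval, t₁ ≤ t₂ → q.1 t₁ = 1 →
        dist (q.1 t₂) 1 ≤ 1 / ((j : ℝ) + 1) := by
      intro j
      have hj : (0 : ℝ) < 1 / ((j : ℝ) + 1) := by positivity
      set Bad : Set (C(unitInterval, ℂ) × C(ℝ≥0, ℝ)) := {q | ¬ ∀ t₁ t₂ : unitInterval, t₁ ≤ t₂ →
        q.1 t₁ = 1 → dist (q.1 t₂) 1 ≤ 1 / ((j : ℝ) + 1)} with hBad
      have hBle : ∀ e : ℝ, 0 < e → μ Bad ≤ ENNReal.ofReal e := by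
        intro e he
        obtain ⟨r', hr', hev⟩ := hend D φ δ N k p S φn gn hA x' hx' _ hj e he
        set U : Set (C(unitInterval, ℂ) × C(ℝ≥0, ℝ)) := {q | ∃ t₁ t₂ : unitInterval, t₁ ≤ t₂ ∧
          dist (q.1 t₁) 1 < r' ∧ 1 / ((j : ℝ) + 1) < dist (q.1 t₂) 1} with hU
        have hUo : IsOpen U := by
          have : U = ⋃ (t₁ : unitInterval) (t₂ : unitInterval) (_ : t₁ ≤ t₂),
              ({q : C(unitInterval, ℂ) × C(ℝ≥0, ℝ) | dist (q.1 t₁) 1 < r'} ∩
                {q | 1 / ((j : ℝ) + 1) < dist (q.1 t₂) 1}) := by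
            ext q
            simp only [hU, mem_ofPred_eq, mem_iUnion, mem_inter_iff, exists_prop]
          rw [this]
          refine isOpen_iUnion fun t₁ => isOpen_iUnion fun t₂ => isOpen_iUnion fun _ => ?_
          refine IsOpen.inter ?_ ?_
          · exact isOpen_lt (((continuous_eval_const t₁).comp continuous_fst).dist
              continuous_const) continuous_const
          · exact isOpen_lt continuous_const (((continuous_eval_const t₂).comp
              continuous_fst).dist continuous_const)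
        have hsub : Bad ⊆ U := by
          intro q hq
          simp only [hBad, mem_ofPred_eq, not_forall, not_le] at hq
          obtain ⟨t₁, t₂, h12, h1, h2⟩ := hq
          exact ⟨t₁, t₂, h12, by rw [h1, dist_self]; exact hr', h2⟩
        refine (measure_mono hsub).trans ?_
        have hYm : ∀ n, Measurable fun ω : s (θ n) => (rho (y (θ n) ω), w (θ n) ω) := fun n =>
          hmf _ _
        refine open_le (fun n => (P (θ n)).map fun ω : ↥(s (θ n)) =>
          (rho (y (θ n) ω), w (θ n) ω))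
          (fun n => Measure.isProbabilityMeasure_map (hYm n).aemeasurable) μ hμ ?_ hUo ?_
        · intro f hf hM
          refine (hjoint f hf hM).congr fun n => ?_
          exact (integral_map (hYm n).aemeasurable hf.aestronglyMeasurable).symm
        · filter_upwards [hθ.tendsto_atTop.eventually (hreal (fun n => {h | ∃ t₁ t₂ :
            unitInterval, t₁ ≤ t₂ ∧ dist (gn n (x' n h t₁)) 1 < r' ∧
            1 / ((j : ℝ) + 1) < dist (gn n (x' n h t₂)) 1}) e he hev)] with n hn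
          rw [Measure.map_apply (hYm n) hUo.measurableSet]
          refine le_trans (measure_mono ?_) hn
          rintro ω ⟨t₁, t₂, a1, a2, a3⟩
          refine ⟨t₁, t₂, a1, ?_, ?_⟩
          · rw [← hy' _ _ ω.2]; exact a2
          · rw [← hy' _ _ ω.2]; exact a3
      have hB0 : μ Bad = 0 := by
        by_contra hne
        have hpos : 0 < μ Bad := pos_iff_ne_zero.2 hne
        have hnt : μ Bad ≠ ⊤ := measure_ne_top _ _
        have h1 := hBle ((μ Bad).toReal / 2) (by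
          have := ENNReal.toReal_pos hne hnt; positivity)
        have h2 : ENNReal.ofReal ((μ Bad).toReal / 2) < μ Bad := by
          rw [ENNReal.ofReal_lt_iff_lt_toReal (by positivity) hnt]
          have := ENNReal.toReal_pos hne hnt
          linarith
        exact absurd h1 (not_le.2 h2)
      exact hB0
    filter_upwards [ae_all_iff.2 hrat] with q hq t₁ t₂ h12 h1
    have h2 : dist (q.1 t₂) 1 ≤ 0 := by
      refine ge_of_tendsto' tendsto_one_div_add_atTop_nhds_zero_nat fun j => hq j t₁ t₂ h12 h1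
    exact dist_le_zero.1 h2
  -- the capacity parametrisation
  have hcap : ∀ (n : ℕ) (ω : s n), ∃ r : unitInterval ≃o unitInterval,
      ∀ t : unitInterval, (t : ℝ) ≤ T₀ n ω → (r t : ℝ) = c n ω t / (1 + c n ω t) :=
    fun n ω => exists_cap (hD n ω ω.2)
  choose rr hrr using hcap
  set Γ : ∀ n, s n → C(unitInterval, ℂ) := fun n ω => reparam (y' n ω) (rr n ω).symm with hΓ
  set X : ∀ n, s n → C(unitInterval, ℂ) := fun n ω => reparam (x' n ω) (rr n ω).symm with hX
  have hXΓ : ∀ e > 0, ∀ᶠ n in atTop, ∀ ω : s n,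
      dist (X n ω) ((extC hA.ds.conf).comp (Γ n ω)) ≤ e := by
    intro e he
    filter_upwards [hA.ds.near he] with n hn ω
    rw [ContinuousMap.dist_le he.le]
    intro t
    have h1 := intf_clos (hA.pos n) (hx' n ω ω.2) ((rr n ω).symm t)
    have h2 : Γ n ω t = gn n (x' n ω ((rr n ω).symm t)) := hy' n ω ω.2 _
    rw [ContinuousMap.comp_apply, h2, extC_eq _ (hA.ds.norm_le n h1)]
    exact (hn _ h1).le
  have hdetseq : ∀ (q : C(unitInterval, ℂ) × C(ℝ≥0, ℝ)),
      (ARCX.NoSwallowR (fun t => q.2 t.toNNReal) ∧ ARCX.NoSwallowH (fun t => q.2 t.toNNReal)) →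
      (∀ t₁ t₂ : unitInterval, t₁ ≤ t₂ → q.1 t₁ = 1 → q.1 t₂ = 1) →
      ∀ (κ : ℕ → ℕ), StrictMono κ → ∀ ω : ∀ j, s (θ (κ j)),
      Tendsto (fun j => (rho (y (θ (κ j)) (ω j)), w (θ (κ j)) (ω j))) atTop (𝓝 q) →
      ∃ G, Gr cay 1 G q.2 ∧ Tendsto (fun j => (Γ (θ (κ j)) (ω j), X (θ (κ j)) (ω j))) atTop
        (𝓝 (G, (extC hA.ds.conf).comp G)) := by
    intro q hq1 hq2 κ hκ ω hlim
    have hθκ : Tendsto (fun j => θ (κ j)) atTop atTop :=
      hθ.tendsto_atTop.comp hκ.tendsto_atTop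
    have h1 : Tendsto (fun j => y' (θ (κ j)) (ω j)) atTop (𝓝 q.1) :=
      (continuous_fst.tendsto q).comp hlim
    have h2 : Tendsto (fun j => w (θ (κ j)) (ω j)) atTop (𝓝 q.2) :=
      (continuous_snd.tendsto q).comp hlim
    obtain ⟨γ, G, hγ, hG1, hG, hlimG⟩ := det_tr (fun j => cay) cay (fun j => 1) 1
      (fun j => w (θ (κ j)) (ω j)) q.2 (fun j => y' (θ (κ j)) (ω j))
      (fun j => Γ (θ (κ j)) (ω j)) q.1 (fun j => η (θ (κ j)) (ω j))
      (fun j => c (θ (κ j)) (ω j)) (fun j => T₀ (θ (κ j)) (ω j)) (fun j => T₁ (θ (κ j)) (ω j))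
      (fun j => ε (θ (κ j))) cay_uni (by
        rw [Metric.tendstoUniformlyOn_iff]
        intro e he
        exact Eventually.of_forall fun j z hz => by rwa [dist_self])
      tendsto_const_nhds (hε.comp hθκ) (fun j => hD _ _ (ω j).2)
      (fun j => rr (θ (κ j)) (ω j)) (fun j t => by
        change y' (θ (κ j)) (ω j) ((rr (θ (κ j)) (ω j)).symm (rr (θ (κ j)) (ω j) t)) = _
        rw [OrderIso.symm_apply_apply]) (fun j t ht => hrr _ _ t ht) h2 h1 hq2 hq1.1 hq1.2
    refine ⟨G, ⟨hG1, γ, hγ, hG⟩, hlimG.prodMk_nhds ?_⟩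
    have h3 := ((ContinuousMap.continuous_postcomp (extC hA.ds.conf)).tendsto G).comp hlimG
    rw [Metric.tendsto_nhds] at h3 ⊢
    intro e he
    filter_upwards [h3 (e / 2) (half_pos he), hθκ.eventually (hXΓ (e / 2) (half_pos he))] with j
      a1 a2
    have a3 := dist_triangle (X (θ (κ j)) (ω j)) ((extC hA.ds.conf).comp (Γ (θ (κ j)) (ω j)))
      ((extC hA.ds.conf).comp G)
    have a4 := a2 (ω j)
    have a5 : dist ((extC hA.ds.conf).comp (Γ (θ (κ j)) (ω j))) ((extC hA.ds.conf).comp G) <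
      e / 2 := a1
    linarith
  have : PolishSpace (C(unitInterval, ℂ) × C(unitInterval, ℂ)) := polish_prod
  obtain ⟨ν', hν', hfst', hgr', hlim'⟩ := ecm_polish (fun n => s (θ n)) (fun n => P (θ n))
    (fun n => hP (θ n)) (fun n ω => (rho (y (θ n) ω), w (θ n) ω)) (fun n => hmf _ _)
    (fun n ω => (Γ (θ n) ω, X (θ n) ω)) (fun n => hmf _ _) μ hjoint (by
      filter_upwards [hgood, hendμ] with q hq1 hq2
      by_cases hex : ∃ (κ : ℕ → ℕ) (_ : StrictMono κ) (ω : ∀ j, s (θ (κ j))),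
          Tendsto (fun j => (rho (y (θ (κ j)) (ω j)), w (θ (κ j)) (ω j))) atTop (𝓝 q)
      · obtain ⟨κ, hκ, ω, hlim⟩ := hex
        obtain ⟨G, hG, -⟩ := hdetseq q hq1 hq2 κ hκ ω hlim
        refine ⟨(G, (extC hA.ds.conf).comp G), fun κ' hκ' ω' hlim' => ?_⟩
        obtain ⟨G', hG', hlimG'⟩ := hdetseq q hq1 hq2 κ' hκ' ω' hlim'
        rwa [hG'.unique hG] at hlimG'
      · exact ⟨(q.1, q.1), fun κ hκ ω hlim => absurd ⟨κ, hκ, ω, hlim⟩ hex⟩)
  refine ⟨θ, hθ, ν', hν', ?_, ?_, ?_⟩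
  · have h1 : (ν'.map fun q => q.1.2) = lam := by
      rw [← hsnd, ← hfst', Measure.map_map measurable_snd measurable_fst]
      rfl
    rw [h1]
    exact hlamD
  · have h2 : ∀ᵐ q ∂ν', (ARCX.NoSwallowR (fun t => q.1.2 t.toNNReal) ∧
        ARCX.NoSwallowH (fun t => q.1.2 t.toNNReal)) := by
      rw [← hfst'] at hgood
      exact ae_of_ae_map measurable_fst.aemeasurable hgood
    have h3 : ∀ᵐ q ∂ν', ∀ t₁ t₂ : unitInterval, t₁ ≤ t₂ → q.1.1 t₁ = 1 → q.1.1 t₂ = 1 := by
      rw [← hfst'] at hendμ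
      exact ae_of_ae_map measurable_fst.aemeasurable hendμ
    filter_upwards [h2, h3, hgr'] with q hq1 hq2 hq3
    obtain ⟨κ, hκ, ω, hl1, hl2⟩ := hq3
    obtain ⟨G, hG, hlimG⟩ := hdetseq q.1 hq1 hq2 κ hκ ω hl1
    have : (G, (extC hA.ds.conf).comp G) = q.2 := tendsto_nhds_unique hlimG hl2
    rw [← this]
    exact ⟨hG, rfl⟩
  · intro F hF hM hinv
    obtain ⟨M, hM'⟩ := hM
    have h1 := hlim' (fun q => F q.2.2) (hF.comp (continuous_snd.comp continuous_snd))
      ⟨M, fun q => hM' q.2.2⟩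
    refine h1.congr fun n => ?_
    rw [hmean]
    refine integral_congr_ae (Eventually.of_forall fun ω => ?_)
    change F (reparam (reparam (x (θ n) ω) _) _) = F (x (θ n) ω)
    rw [hinv.reparam, hinv.reparam]

theorem exists_itf (hA : LS D φ δ N k p S φn gn) : ∃ x, Itf δ N k p S x := by
  have hex : ∀ (n : ℕ) (h : UNIQ.Hg), ∃ c : C(unitInterval, ℂ), h ∈ Heights (p n) (k n) (S n) →
      IsInterface (p n) (k n) (S n) (δ n) h c := by
    intro n h
    by_cases hh : h ∈ Heights (p n) (k n) (S n)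
    · obtain ⟨c, hc⟩ := POLY.i_intf (N n) (k n) (p n) (S n) (δ n) (hA.pos n) (hA.kpos n)
        (hA.klt n) (hA.poly n) (hA.encl n) h hh
      exact ⟨c, fun _ => hc⟩
    · exact ⟨ContinuousMap.const _ 0, fun hcon => absurd hcon hh⟩
  choose x hx using hex
  exact ⟨x, hx⟩

/-- The trace in the disc, as a measurable function of the driver. -/
theorem exists_base' (hdrv : T_drv) (hcross : T_cross) (hend : T_end) :
    ∃ (lam : Measure C(ℝ≥0, ℝ)) (_ : IsDrvLaw lam)
      (f : C(ℝ≥0, ℝ) → C(unitInterval, ℂ)), Measurable f ∧ ∀ᵐ w ∂lam, Gr cay 1 (f w) w := by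
  classical
  obtain ⟨Φ, δ, N, k, p, S, hA⟩ := i_exap
  obtain ⟨ψ, hψ⟩ := R1.i_unif Φ
  obtain ⟨ψn, g1, g2⟩ := i_rado Φ ψ hψ δ N k p S hA
  obtain ⟨φn, gn, hL⟩ := ls_of ((R1.isUniformizer_iff Φ ψ).1 hψ) hA.1 hA.2.1 g1 g2
  obtain ⟨x, hx⟩ := exists_itf hL
  obtain ⟨θ, hθ, ν, hν, h1, h2, h3⟩ := sub_limit' hdrv hcross hend hL x hx
  let e : (C(unitInterval, ℂ) × C(ℝ≥0, ℝ)) × (C(unitInterval, ℂ) × C(unitInterval, ℂ)) →
      C(ℝ≥0, ℝ) × ((C(unitInterval, ℂ) × C(ℝ≥0, ℝ)) ×
        (C(unitInterval, ℂ) × C(unitInterval, ℂ))) := fun q => (q.1.2, q)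
  have he : Continuous e := (continuous_snd.comp continuous_fst).prodMk continuous_id
  have hinj : Function.Injective e := fun q q' hq => (Prod.ext_iff.1 hq).2
  have : PolishSpace (C(unitInterval, ℂ) × C(unitInterval, ℂ)) := polish_prod
  have : PolishSpace ((C(unitInterval, ℂ) × C(ℝ≥0, ℝ)) ×
    (C(unitInterval, ℂ) × C(unitInterval, ℂ))) := polish_prod
  have hemb : MeasurableEmbedding e := he.measurableEmbedding hinj
  have hρ : IsProbabilityMeasure (ν.map e) :=
    Measure.isProbabilityMeasure_map he.measurable.aemeasurable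
  have hae : ∀ᵐ p ∂(ν.map e), Gr cay 1 p.2.2.1 p.1 := by
    rw [hemb.ae_map_iff]
    exact h2.mono fun q hq => hq.1
  obtain ⟨f, hf, hfR, -⟩ := graph_fun (ν.map e) (fun q => q.2.1)
    (measurable_fst.comp measurable_snd) (fun G w => Gr cay 1 G w)
    (fun G G' w h h' => h.unique h') hae
  have hfst : (ν.map e).fst = ν.map fun q => q.1.2 := by
    rw [Measure.fst, Measure.map_map measurable_fst he.measurable]
    rfl
  rw [hfst] at hfR
  exact ⟨_, h1, f, hf, hfR⟩

/-- Convergence of the whole sequence. -/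
theorem conv_main' (hdrv : T_drv) (hcross : T_cross) (hend : T_end)
    (lam : Measure C(ℝ≥0, ℝ)) (hlam : IsDrvLaw lam) (f : C(ℝ≥0, ℝ) → C(unitInterval, ℂ))
    (hf : Measurable f) (hG : ∀ᵐ w ∂lam, Gr cay 1 (f w) w) (hA : LS D φ δ N k p S φn gn)
    (x : ℕ → UNIQ.Hg → C(unitInterval, ℂ)) (hx : Itf δ N k p S x)
    (F : C(unitInterval, ℂ) → ℝ) (hF : Continuous F) (hM : ∃ M, ∀ y, |F y| ≤ M) (hI : Inv F) :
    Tendsto (fun n => mean (law (p n) (k n) (S n)) fun h => F (x n h)) atTop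
      (𝓝 (∫ w, F ((extC hA.ds.conf).comp (f w)) ∂lam)) := by
  refine tendsto_of_subseq_tendsto fun ns hns => ?_
  obtain ⟨θ, hθ, ν, hν, h1, h2, h3⟩ := sub_limit' hdrv hcross hend (hA.sub hns)
    (fun n => x (ns n)) (fun n => hx _)
  refine ⟨θ, ?_⟩
  have hm : Measurable fun q : (C(unitInterval, ℂ) × C(ℝ≥0, ℝ)) ×
      (C(unitInterval, ℂ) × C(unitInterval, ℂ)) => q.1.2 := measurable_snd.comp measurable_fst
  have e1 : (ν.map fun q => q.1.2) = lam := drv_unique h1 hlam
  have h4 : ∀ᵐ q ∂ν, Gr cay 1 (f q.1.2) q.1.2 := by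
    rw [← e1] at hG
    exact ae_of_ae_map hm.aemeasurable hG
  have e2 : ∫ q, F q.2.2 ∂ν = ∫ w, F ((extC hA.ds.conf).comp (f w)) ∂lam := by
    have e3 : ∫ q, F q.2.2 ∂ν = ∫ q, F ((extC hA.ds.conf).comp (f q.1.2)) ∂ν := by
      refine integral_congr_ae ?_
      filter_upwards [h2, h4] with q hq hq'
      rw [hq.2, hq.1.unique hq']
    rw [e3, ← e1]
    symm
    refine integral_map hm.aemeasurable ?_
    exact ((hF.comp (ContinuousMap.continuous_postcomp (extC hA.ds.conf))).measurable.comp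
      hf).aestronglyMeasurable
  rw [← e2]
  exact h3 F hF hM hI

end

/-- **The curve theorem** from the three statements in the disc. -/
theorem curveLimit_of (hdrv : T_drv) (hcross : T_cross) (hend : T_end) : N153.CurveLimit := by
  classical
  let _ : MeasurableSpace C(unitInterval, ℂ) := borel _
  have _ : BorelSpace C(unitInterval, ℂ) := ⟨rfl⟩
  let _ : MeasurableSpace C(ℝ≥0, ℝ) := borel _
  have _ : BorelSpace C(ℝ≥0, ℝ) := ⟨rfl⟩
  obtain ⟨lam, hlam, f, hf, hgr⟩ := exists_base' hdrv hcross hend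
  let γ : C(ℝ≥0, ℝ) → ℝ → ℂ := fun w =>
    if hw : ∃ γ, Final.IsSimpleTrace (fun t => w t.toNNReal) γ then hw.choose else fun _ => 0
  have hγ : ∀ᵐ w ∂lam, Final.IsSimpleTrace (fun t => w t.toNNReal) (γ w) := by
    filter_upwards [hgr] with w hw
    obtain ⟨-, γ', hγ', -⟩ := hw
    have hex : ∃ γ, Final.IsSimpleTrace (fun t => w t.toNNReal) γ := ⟨γ', hγ'⟩
    simp only [γ, dif_pos hex]
    exact hex.choose_spec
  refine ⟨C(ℝ≥0, ℝ), inferInstance, lam, γ, hlam.prob, H212.isSLE_of ?_, ?_⟩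
  · refine ⟨fun t w => w t / 2, hlam, ?_⟩
    filter_upwards [hγ] with w hw
    have h4 : √(4 : ℝ) = 2 := by
      rw [show (4 : ℝ) = 2 ^ 2 by norm_num]
      exact Real.sqrt_sq (by norm_num)
    have : (fun t : ℝ => √4 * (w t.toNNReal / 2)) = fun t => w t.toNNReal := by
      funext t
      rw [h4]; ring
    rw [this]
    exact hw
  · intro D ψ s β h
    have hU := isU_of h.1
    refine ⟨fun w => (extC hU.toDisc).comp (f w), ?_, ?_, ?_⟩
    · filter_upwards [hγ, hgr] with w hw hGw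
      obtain ⟨h1, γ', hγ', h2⟩ := hGw
      refine ⟨?_, fun t ht => ?_⟩
      · rw [ContinuousMap.comp_apply, h1, extC_eq _ norm_one.le, R1.toDisc_one]
      · have h0 : 0 ≤ (t : ℝ) / (1 - t) := div_nonneg t.2.1 (by linarith)
        have h3 : 0 ≤ (γ w (t / (1 - t))).im := by
          rcases h0.lt_or_eq with h4 | h4
          · exact (hw.im_pos _ h4).le
          · rw [← h4, hw.start, Complex.ofReal_im]
        rw [ContinuousMap.comp_apply, h2 t ht, trace_unique hγ' hw _ h0,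
          extC_eq _ (norm_cay_le h3), cay, R1.toDisc_mb h3]
    · intro F hF
      exact ((hF.comp (ContinuousMap.continuous_postcomp (extC hU.toDisc))).measurable.comp
        hf).aemeasurable
    · intro δ N k p S hA
      have hS : ∀ n, H212.Tris (S n) := fun n => H212.tris_of (hA.1 n).2.2.2
      obtain ⟨ψn, g1, g2, -⟩ := rado D ψ s β h δ N k p S hA
      obtain ⟨φn, gn, hL⟩ := ls_of (S := fun n => H212.old (S n)) hU (fun n =>
        ⟨(hA.1 n).1, (hA.1 n).2.1, (hA.1 n).2.2.1, H212.isPolygon (hA.1 n).2.2.2,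
          H212.encl_old (hA.1 n).2.2.2⟩) hA.2.1 g1 g2
      refine ⟨fun n g hg => ?_, fun c hc F hF hM hσ => ?_⟩
      · rw [H212.heights_arcs (hS n)] at hg
        obtain ⟨x, hx⟩ := exists_itf hL
        exact ⟨x n g, (H212.isInterface_iff (hS n) _ _ _ _).2 (hx n g hg)⟩
      · have h6 := conv_main' hdrv hcross hend lam hlam f hf hgr hL c (fun n g hg => by
          rw [← H212.heights_arcs (hS n)] at hg
          exact (H212.isInterface_iff (hS n) _ _ _ _).1 (hc n g hg)) F hF hM hσ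
        refine h6.congr fun n => ?_
        rw [H212.law_arcs (hS n)]
        rfl

end Vale.Agent.N153
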