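import Vale.Agent.N153.Base
import Vale.Agent.P153.R2.SLEX.EndF

/-!
N153, the curve: lattice crosscuts around a point of the circle, landing at a point of an open arc,
and the interface avoids the points of the open arcs.
-/

set_option autoImplicit false
set_option linter.unusedVariables false

namespace Vale.Agent.N153

open MeasureTheory ProbabilityTheory Filter Topology Set Metric
open Vale.Agent.P153 Vale.Agent.P153.R2
open Vale.Agent.P153.Topo (Conn adj_symm)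
open Vale.Agent.P153.R2.Final (IsPolygon Encloses Heights law mean IsInterface mid toC region)
open Vale.Agent.P153.R2.UNIQ (IsUnifD bptD)
open Vale.Agent.P153.R2.POLY (DC NN)
open Vale.Agent.P153.R2.INTF (PP Face St fa fb eta)
open Vale.Agent.P153.R2.FLDI (inn gr ng nr first_exit conn_meet conn_comp inn_out)
open Vale.Agent.P153.R2.DRV (Mn Pn Cs ru nu st pl bk bk_mem sh_bk)
open Vale.Agent.P153.R2.LOC (NO Co Co_subset TW ds mem_bx_iff ds_adj multW_ne S_land)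

section Lattice

variable {n k : ℕ} {p : ZMod n → ℤ × ℤ} {S : Finset Final.Tri} {δ : ℝ} {g : UNIQ.Hg}

theorem ng_dist (hδ : 0 < δ) {x : ℂ} {v : ℤ × ℤ} (hv : v ∈ ng (NN hδ x)) :
    dist (PP δ v) x ≤ 2 * δ := by
  have h1 := POLY.dist_sq hδ (PP δ v) x
  rw [INTF.lx_PP hδ, INTF.ly_PP hδ] at h1
  obtain ⟨h2, h3⟩ := hv
  rw [POLY.NN_apply] at h2 h3
  simp only at h2 h3
  obtain ⟨a, ha⟩ : ∃ a, a = (v.1 : ℝ) - INTF.lx δ x := ⟨_, rfl⟩
  obtain ⟨b, hb⟩ : ∃ b, b = (v.2 : ℝ) - INTF.ly δ x := ⟨_, rfl⟩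
  rw [← ha] at h1 h2
  rw [← hb] at h1 h3
  rw [abs_le] at h2 h3
  have h4 : a ^ 2 + a * b + b ^ 2 ≤ 4 := by nlinarith [sq_nonneg (a - b)]
  refine le_of_sq_le_sq ?_ (by positivity)
  rw [h1]
  nlinarith [sq_nonneg δ]

theorem ng_out (hδ : 0 < δ) (hS : Encloses p S) {x : ℂ} (hx : x ∉ DC δ S) :
    ∃ v ∈ ng (NN hδ x), v ∉ inn p S := by
  have h1 : x ∈ (DC δ S)ᶜ := hx
  rw [POLY.compl_DC hδ] at h1
  obtain ⟨t, ht, hxt⟩ := h1
  obtain ⟨h2, h3, h4, h5⟩ := POLY.ct_bound hxt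
  refine ⟨t.1 + (1, 0), ⟨?_, ?_⟩, fun hc => ht (POLY.faces_inn hS hc ?_)⟩
  · rw [abs_le]
    push_cast [Prod.fst_add]
    constructor <;> linarith
  · rw [abs_le]
    push_cast [Prod.snd_add]
    constructor <;> linarith
  · unfold Final.corners
    split_ifs <;> simp

theorem mid_face (hδ : 0 < δ) {t : Final.Tri} {v w : ℤ × ℤ} (hv : PP δ v ∈ Face δ t)
    (hw : PP δ w ∈ Face δ t) : mid δ v w ∈ Face δ t := by
  rw [POLY.mid_eq]
  exact (INTF.HH_comb (fun _ => 0) hv hw (by norm_num) (by norm_num) (by norm_num)).1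

/-- One step of the interface is in one face of the domain. -/
theorem ru_face (hδ : 0 < δ) (hp : IsPolygon p) (hS : Encloses p S) (hk : 0 < k) (hkn : k < n)
    (hg : g ∈ Cs p k S) {j : ℕ} (hj : j < nu p S g) : ∃ t ∈ S,
      (∀ x, x = (ru p S g j).1 ∨ x = (ru p S g j).2 → PP δ x ∈ Face δ t) ∧
      ∀ x, x = (ru p S g (j + 1)).1 ∨ x = (ru p S g (j + 1)).2 → PP δ x ∈ Face δ t := by
  have hf := (INTF.alive_lt hp hS hk hkn hg).2 hj
  have ha := (DRV.ru_good hp hS hk hkn hg j).1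
  have ha' := (DRV.ru_good hp hS hk hkn hg (j + 1)).1
  have e : fb (ru p S g (j + 1)) = fa (ru p S g j) := by
    have e1 : ru p S g (j + 1) = INTF.nx g (ru p S g j) := INTF.run_succ hf
    rw [e1]
    exact INTF.fb_nx ha
  refine ⟨_, hf, ?_, ?_⟩
  · rintro x (rfl | rfl)
    · exact INTF.face_of_corner hδ (INTF.corner1 ha)
    · exact INTF.face_of_corner hδ (INTF.corner2 ha)
  · rw [← e]
    rintro x (rfl | rfl)
    · exact INTF.face_of_corner hδ (INTF.corner1b ha')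
    · exact INTF.face_of_corner hδ (INTF.corner2b ha')

theorem ru_face' (hδ : 0 < δ) (hp : IsPolygon p) (hS : Encloses p S) (hk : 0 < k) (hkn : k < n)
    (hg : g ∈ Cs p k S) {j : ℕ} (hj : j ≤ nu p S g) : ∃ t ∈ S,
      ∀ x, x = (ru p S g j).1 ∨ x = (ru p S g j).2 → PP δ x ∈ Face δ t := by
  rcases hj.lt_or_eq with h | h
  · obtain ⟨t, ht, h1, -⟩ := ru_face hδ hp hS hk hkn hg h
    exact ⟨t, ht, h1⟩
  · have h0 := INTF.nu_pos hp hS hk hkn hg
    obtain ⟨i, rfl⟩ : ∃ i, j = i + 1 := ⟨j - 1, by omega⟩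
    obtain ⟨t, ht, -, h1⟩ := ru_face hδ hp hS hk hkn hg (j := i) (by omega)
    exact ⟨t, ht, h1⟩

/-- A point of the interface is in a face of the domain together with the vertices next to it. -/
theorem pl_face (hδ : 0 < δ) (hp : IsPolygon p) (hS : Encloses p S) (hk : 0 < k) (hkn : k < n)
    (hg : g ∈ Cs p k S) {s : ℝ} (h0 : 0 ≤ s) (h1 : s ≤ nu p S g) : ∃ t ∈ S,
      pl δ (ru p S g) s ∈ Face δ t ∧
      ∀ x, x = (ru p S g ⌊s⌋₊).1 ∨ x = (ru p S g ⌊s⌋₊).2 → PP δ x ∈ Face δ t := by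
  have h2 : ((⌊s⌋₊ : ℕ) : ℝ) ≤ s := Nat.floor_le h0
  have h3 : s < (⌊s⌋₊ : ℕ) + 1 := Nat.lt_floor_add_one s
  have h4 : ⌊s⌋₊ ≤ nu p S g := by
    have := Nat.floor_mono h1
    rwa [Nat.floor_natCast] at this
  rcases h4.lt_or_eq with h | h
  · obtain ⟨t, ht, k1, k2⟩ := ru_face hδ hp hS hk hkn hg h
    refine ⟨t, ht, ?_, k1⟩
    rw [DRV.pl_eq _ h2 h3.le]
    exact (INTF.HH_comb (fun _ => 0) (mid_face hδ (k1 _ (Or.inl rfl)) (k1 _ (Or.inr rfl)))
      (mid_face hδ (k2 _ (Or.inl rfl)) (k2 _ (Or.inr rfl))) (by linarith) (by linarith)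
      (by ring)).1
  · obtain ⟨t, ht, k1⟩ := ru_face' hδ hp hS hk hkn hg h4
    refine ⟨t, ht, ?_, k1⟩
    have e : s = (⌊s⌋₊ : ℕ) := le_antisymm (by rw [h]; exact h1) h2
    have e2 : pl δ (ru p S g) s = pl δ (ru p S g) (⌊s⌋₊ : ℕ) := by rw [← e]
    rw [e2, DRV.pl_nat]
    exact mid_face hδ (k1 _ (Or.inl rfl)) (k1 _ (Or.inr rfl))

/-- The time change between an interface and the canonical curve. -/
theorem intf_pl (hδ : 0 < δ) (hp : IsPolygon p) (hS : Encloses p S) (hk : 0 < k) (hkn : k < n)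
    (hg : g ∈ Cs p k S) {x : C(unitInterval, ℂ)} (hx : IsInterface p k S δ (bk p S g) x) :
    ∃ σ : unitInterval → ℝ, Monotone σ ∧ ∀ s, 0 ≤ σ s ∧ σ s ≤ nu p S g ∧
      x s = pl δ (ru p S g) (σ s) := by
  obtain ⟨-, -, -, -, -, hcan⟩ := POLY.s_can n k p S δ hδ hk hkn hp hS _ (bk_mem hp hS hg)
  obtain ⟨σ, -, hσ2, hσ0, hσ1, hσ⟩ := hcan x hx
  rw [sh_bk hp hS hg] at hσ hσ1
  refine ⟨σ, hσ2.monotone, fun s => ⟨?_, ?_, hσ s⟩⟩
  · rw [← hσ0]
    exact hσ2.monotone (unitInterval.nonneg s)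
  · rw [← hσ1]
    exact hσ2.monotone (unitInterval.le_one s)

/-- Lattice radii. -/
theorem radC (hδ : 0 < δ) {z : ℂ} {x₀ : ℤ × ℤ} {s a : ℝ} (hx : dist (PP δ x₀) z < s)
    {t ρ₀ : ℤ} (ht : 1 ≤ t) (hsa : 32 * t * s ≤ a) (hδa : 24 * (t + 1) * δ ≤ a)
    (hδs : ρ₀ * δ ≤ 4 * s) : ∃ K R : ℤ, ρ₀ ≤ K ∧ t * (K + 2) ≤ R - 2 ∧
      (∀ v, dist (PP δ v) z < s → v ∈ bx x₀ K) ∧ ∀ v, v ∈ bx x₀ R → dist (PP δ v) z < 2 * a := by
  have e : ∀ v, PP δ v = toC (F.Top.dp δ v) := fun v => (FLDI.toC_dp δ v).symm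
  have ez : z = toC (z.re, z.im) := rfl
  have k1 : ∀ v, dist (F.Top.dp δ v) (z.re, z.im) ≤ dist (PP δ v) z := fun v => by
    rw [e]
    exact SLEX.dist_le_toC _ _
  obtain ⟨K, R, h1, h2, h3, h4⟩ := SLEX.rad hδ ((k1 x₀).trans_lt hx) ht hsa hδa hδs
  refine ⟨K, R, h1, h2, fun v hv => h3 v ((k1 v).trans_lt hv), fun v hv => ?_⟩
  have h5 := SLEX.toC_dist_le (F.Top.dp δ v) (z.re, z.im)
  rw [← e, ← ez] at h5
  linarith [h4 v hv]

theorem dist_PP_adj (hδ : 0 < δ) {v w : ℤ × ℤ} (h : Adj v w) : dist (PP δ v) (PP δ w) = δ := by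
  rw [dist_eq_norm]
  exact INTF.norm_PP_adj hδ h

end Lattice

/-- `Q` is a crosscut of `F` between the levels `a` and `b` of `d`. -/
structure Crc (F : Set (ℤ × ℤ)) (d : ℤ × ℤ → ℝ) (Q : Set (ℤ × ℤ)) (a b : ℝ) : Prop where
  sub : Q ⊆ F
  cn : Cn Q
  far : ∀ v ∈ Q, a ≤ d v
  near : ∀ v ∈ Q, d v < b
  wall : ∃ q ∈ Q, NO F q
  cut : ∀ u v, u ∈ F → d u < a → b ≤ d v → ¬ Conn (F \ Q) u v

variable {D : Set ℂ} {φ : ℂ → ℂ} {δ : ℕ → ℝ} {N k : ℕ → ℕ} {p : ∀ n, ZMod (N n) → ℤ × ℤ}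
  {S : ℕ → Finset Final.Tri} {φn gn : ℕ → ℂ → ℂ}

theorem half_convex (s c : ℝ) : Convex ℝ {w : ℂ | w ∈ ch c ∧ 0 ≤ s * w.im} := by
  intro x hx y hy a b ha hb hab
  refine ⟨⟨mem_cb.1 (convex_closedBall 0 1 (mem_cb.2 hx.1.1) (mem_cb.2 hy.1.1) ha hb hab), ?_⟩, ?_⟩
  · have h1 := hx.1.2
    have h2 := hy.1.2
    simp only [Complex.add_re, Complex.smul_re, smul_eq_mul, h1, h2]
    linear_combination c * hab
  · have h1 := hx.2
    have h2 := hy.2
    simp only [Complex.add_im, Complex.smul_im, smul_eq_mul]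
    nlinarith [mul_nonneg ha h1, mul_nonneg hb h2]

/-- Half of a crosscut. -/
theorem LD.half_cut (h : LD D φ δ N p S φn gn) {s c c₁ c₂ : ℝ} (hs : s = 1 ∨ s = -1)
    (h0 : 0 < c₁) (h1 : c₁ < c) (h2 : c < c₂) (h3 : c₂ < 1)
    (hd1 : Disjoint (φ '' ch c) (φ '' ch c₁)) (hd2 : Disjoint (φ '' ch c) (φ '' ch c₂)) :
    ∀ᶠ n in atTop, ∀ x₀ ∈ ng (NN (h.pos n) (φn n c)), ∃ (Q : Set (ℤ × ℤ)) (q o : ℤ × ℤ),
      x₀ ∈ Q ∧ Q ⊆ inn (p n) (S n) ∧ (∀ v ∈ Q, Conn Q x₀ v) ∧ q ∈ Q ∧ Adj q o ∧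
      o ∉ inn (p n) (S n) ∧
      (∀ x ∈ grC (δ n) Q ∪ segment ℝ (PP (δ n) q) (PP (δ n) o),
        c₁ < (gn n x).re ∧ (gn n x).re < c₂) ∧ 0 ≤ s * (gn n (PP (δ n) o)).im := by
  have hs2 : s ^ 2 = 1 := by rcases hs with rfl | rfl <;> norm_num
  obtain ⟨m, hm0, hm⟩ : ∃ m : ℝ, 0 < m ∧ m ^ 2 < 1 - c₂ ^ 2 := by
    refine ⟨(1 - c₂) / 2, by linarith, by nlinarith⟩
  set H : Set ℂ := {w : ℂ | w ∈ ch c ∧ 0 ≤ s * w.im} with hH
  set B : Set ℂ := {w : ℂ | (c₁ ≤ w.re ∧ w.re ≤ c₂) ∧ s * w.im = -m} with hB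
  have hHc : IsCompact H := (isCompact_ch c).inter_right
    (isClosed_le continuous_const (continuous_const.mul Complex.continuous_im))
  have hH1 : H ⊆ closedBall 0 1 := fun w hw => ch_sub c hw.1
  have hB1 : ∀ w ∈ B, ‖w‖ < 1 := by
    intro w hw
    have e1 := norm_sq_eq w
    have e2 : w.im ^ 2 = m ^ 2 := by
      have : (s * w.im) ^ 2 = m ^ 2 := by rw [hw.2]; ring
      rw [mul_pow, hs2, one_mul] at this
      exact this
    have e3 : w.re ^ 2 ≤ c₂ ^ 2 := by nlinarith [hw.1.1, hw.1.2]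
    have e4 : ‖w‖ ^ 2 < 1 := by linarith
    nlinarith [norm_nonneg w]
  have hBc : IsCompact B := by
    refine (isCompact_closedBall (0 : ℂ) 1).of_isClosed_subset ?_ fun w hw => mem_cb.2 (hB1 w hw).le
    exact ((isClosed_le continuous_const Complex.continuous_re).inter
      (isClosed_le Complex.continuous_re continuous_const)).inter
      (isClosed_eq (continuous_const.mul Complex.continuous_im) continuous_const)
  have hdB : Disjoint (φ '' H) (φ '' B) := by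
    rw [Set.disjoint_left]
    rintro _ ⟨w, hw, rfl⟩ ⟨w', hw', he⟩
    rcases eq_or_sphere h.ds.conf (hB1 w' hw').le hw.1.1 he with e | e
    · have := hw'.2
      rw [e] at this
      linarith [hw.2]
    · exact (hB1 w' hw').ne e.1
  obtain ⟨d, hd, hbar⟩ := h.ds.barrier hHc ((isCompact_ch c₁).union ((isCompact_ch c₂).union hBc))
    hH1 (union_subset (ch_sub _) (union_subset (ch_sub _) fun w hw => mem_cb.2 (hB1 w hw).le)) (by
      rw [image_union, image_union, disjoint_union_right, disjoint_union_right]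
      exact ⟨hd1.mono_left (image_mono fun w hw => hw.1),
        hd2.mono_left (image_mono fun w hw => hw.1), hdB⟩)
  have hc1 : ‖(c : ℂ)‖ < 1 := by
    rw [Complex.norm_real, Real.norm_eq_abs, abs_lt]
    constructor <;> linarith
  set e := min (min (c - c₁) (c₂ - c)) m / 2 with he
  have he0 : 0 < e := half_pos (lt_min (lt_min (by linarith) (by linarith)) hm0)
  have he1 : e < c - c₁ := by
    have := (min_le_left (min (c - c₁) (c₂ - c)) m).trans (min_le_left _ _)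
    linarith
  have he2 : e < c₂ - c := by
    have := (min_le_left (min (c - c₁) (c₂ - c)) m).trans (min_le_right _ _)
    linarith
  have he3 : e < m := by
    have := min_le_right (min (c - c₁) (c₂ - c)) m
    linarith
  obtain ⟨ρ, hρ, hball⟩ := h.ds.ball_sub hc1 he0
  filter_upwards [hbar, hball, h.ds.conv (ρ / 2) (half_pos hρ),
    h.small (show 0 < min (ρ / 4) (d / 3) by positivity)] with n g1 g2 g3 g4 x₀ hx₀
  obtain ⟨g4, g5⟩ := lt_min_iff.1 g4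
  have hδ := h.pos n
  have hp := h.poly n
  have hS := h.encl n
  set V := inn (p n) (S n) with hV
  set E := NN hδ '' (φn n '' H) with hE
  have hEc : IsPreconnected E :=
    ((half_convex s c).isPreconnected.image _ ((h.ds.confn n).cont.mono hH1)).image _
      (NN hδ).continuous.continuousOn
  have hcH : (c : ℂ) ∈ H := ⟨⟨hc1.le, rfl⟩, by simp⟩
  have hcabs : |c| ≤ 1 := by rw [abs_le]; constructor <;> linarith
  have heH : cp s c ∈ H := by
    refine ⟨⟨(norm_cp hs hcabs).le, rfl⟩, ?_⟩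
    show 0 ≤ s * (s * √(1 - c ^ 2))
    rw [← mul_assoc, ← sq, hs2, one_mul]
    exact Real.sqrt_nonneg _
  obtain ⟨k1, k2⟩ := g2 (PP (δ n) x₀) (by
    have e1 := ng_dist hδ hx₀
    have e2 := g3 c hc1.le
    rw [mem_ball]
    linarith [dist_triangle (PP (δ n) x₀) (φn n c) (φ c)])
  have hx₀V : x₀ ∈ V := (POLY.PP_inn hδ hp hS _).1 k1
  obtain ⟨y, hy, hyV⟩ := ng_out hδ hS (notMem_of_norm (h.ds.confn n) (norm_cp hs hcabs))
  have hx₀E : x₀ ∈ nr E := ⟨_, mem_image_of_mem _ (mem_image_of_mem _ hcH), hx₀⟩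
  have hyE : y ∈ nr E := ⟨_, mem_image_of_mem _ (mem_image_of_mem _ heH), hy⟩
  obtain ⟨q, o, c1, c2, -, c4⟩ := first_exit (FLDI.conn_nr hEc hx₀E hyE) hx₀V hyV
  set Q : Set (ℤ × ℤ) := {v | Conn (nr E ∩ V) x₀ v} with hQ
  have hQV : Q ⊆ V := fun v hv => hv.right_mem.2
  have hx₀Q : x₀ ∈ Q := Conn.refl ⟨hx₀E, hx₀V⟩
  set K := grC (δ n) Q ∪ segment ℝ (PP (δ n) q) (PP (δ n) o) with hK
  have hface : ∀ x ∈ K, ∃ v ∈ Q, ∃ t ∈ S n, x ∈ Face (δ n) t ∧ PP (δ n) v ∈ Face (δ n) t := by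
    rintro x (hx | hx)
    · exact grC_face hδ hS hQV hx
    · exact ⟨q, c1, _, fa_mem hS (hQV c1) c2, seg_face hδ c2 hx, PP_fa1 hδ c2⟩
  have hKcl : K ⊆ closure (DC (δ n) (S n)) := fun x hx => by
    obtain ⟨v, -, t, ht, hxt, -⟩ := hface x hx
    exact face_sub hδ ht hxt
  have hav : ∀ w ∈ gn n '' K, w ∉ ch c₁ ∪ (ch c₂ ∪ B) := by
    rintro _ ⟨x, hx, rfl⟩
    obtain ⟨v, hv, t, ht, hxt, hvt⟩ := hface x hx
    obtain ⟨_, ⟨_, ⟨a, ha, rfl⟩, rfl⟩, hva⟩ := hv.right_mem.1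
    refine g1 x (hKcl hx) a ha ?_
    have e1 := ng_dist hδ hva
    have e2 := face_diam hδ hxt hvt
    linarith [dist_triangle x (PP (δ n) v) (φn n a)]
  have hKc : IsPreconnected (gn n '' K) := by
    refine h.ds.preconn n hKcl (IsPreconnected.union (PP (δ n) q) (PP_mem_grC c1)
      (left_mem_segment ℝ _ _) (grC_preconn hδ fun x hx y hy => conn_comp hx hy)
      (convex_segment _ _).isPreconnected)
  have hw₀ : gn n (PP (δ n) x₀) ∈ gn n '' K := mem_image_of_mem _ (Or.inl (PP_mem_grC hx₀Q))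
  have hre : |(gn n (PP (δ n) x₀)).re - c| ≤ e := by
    have := (Complex.abs_re_le_norm (gn n (PP (δ n) x₀) - c)).trans ((dist_eq_norm _ _).ge.trans k2)
    simpa using this
  have him : |(gn n (PP (δ n) x₀)).im| ≤ e := by
    have := (Complex.abs_im_le_norm (gn n (PP (δ n) x₀) - c)).trans ((dist_eq_norm _ _).ge.trans k2)
    simpa using this
  rw [abs_le] at hre him
  have hnorm : ∀ w ∈ gn n '' K, ‖w‖ ≤ 1 := by
    rintro _ ⟨x, hx, rfl⟩
    exact h.ds.norm_le n (hKcl hx)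
  have hstrip : ∀ w ∈ gn n '' K, c₁ < w.re ∧ w.re < c₂ := by
    intro w hw
    constructor
    · by_contra hc
      obtain ⟨x, hx, hxe⟩ := exists_re hKc hw hw₀ (not_lt.1 hc) (by linarith)
      exact hav x hx (Or.inl ⟨hnorm x hx, hxe⟩)
    · by_contra hc
      obtain ⟨x, hx, hxe⟩ := exists_re hKc hw₀ hw (c := c₂) (by linarith) (not_lt.1 hc)
      exact hav x hx (Or.inr (Or.inl ⟨hnorm x hx, hxe⟩))
  refine ⟨Q, q, o, hx₀Q, hQV, fun v hv => conn_comp hx₀Q hv, c1, c2, c4,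
    fun x hx => hstrip _ (mem_image_of_mem _ hx), ?_⟩
  have ho : gn n (PP (δ n) o) ∈ gn n '' K := mem_image_of_mem _ (Or.inr (right_mem_segment ℝ _ _))
  obtain ⟨i, rfl⟩ := inn_out hS (hQV c1) c2 c4
  have e1 := h.norm_poly n i
  have e2 := norm_sq_eq (gn n (PP (δ n) (p n i)))
  obtain ⟨e3, e4⟩ := hstrip _ ho
  have e5 : -m < s * (gn n (PP (δ n) (p n i))).im := by
    by_contra hc
    obtain ⟨x, hx, hxe⟩ := exists_im hKc ho hw₀ (not_lt.1 hc) (by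
      rcases hs with rfl | rfl <;> linarith)
    exact hav x hx (Or.inr (Or.inr ⟨⟨(hstrip x hx).1.le, (hstrip x hx).2.le⟩, hxe⟩))
  by_contra hc
  have e6 : (s * (gn n (PP (δ n) (p n i))).im) ^ 2 < m ^ 2 := by nlinarith
  rw [mul_pow, hs2, one_mul] at e6
  rw [e1] at e2
  nlinarith

theorem dist_one_lt {w : ℂ} (hw : ‖w‖ ≤ 1) {b : ℝ} (hb : 0 < b) (h : 1 - b ^ 2 / 2 < w.re) :
    dist w 1 < b := by
  rw [dist_eq_norm]
  refine lt_of_pow_lt_pow_left₀ 2 hb.le ?_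
  have e1 := norm_sq_eq w
  have e2 := norm_sq_eq (w - 1)
  have e3 : ‖w‖ ^ 2 ≤ 1 := by nlinarith [norm_nonneg w]
  rw [e2, Complex.sub_re, Complex.sub_im, Complex.one_re, Complex.one_im]
  nlinarith

theorem re_le_dist (w : ℂ) : 1 - w.re ≤ dist w 1 := by
  rw [dist_comm, dist_eq_norm]
  have := (le_abs_self _).trans (Complex.abs_re_le_norm (1 - w))
  simpa using this

/-- Crosscuts around the point `1`. -/
theorem LD.crc_one (h : LD D φ δ N p S φn gn) {b : ℝ} (hb : 0 < b) : ∃ a : ℝ, 0 < a ∧ a < b ∧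
    ∀ᶠ n in atTop, ∃ Q, Crc (inn (p n) (S n)) (fun v => dist (gn n (PP (δ n) v)) 1) Q a b := by
  set b' := min b 1 with hb'
  have hb0 : 0 < b' := lt_min hb one_pos
  have hb1 : b' ≤ 1 := min_le_right _ _
  have hb2 : b' ≤ b := min_le_left _ _
  set c := 1 - b' ^ 2 / 4 with hc
  have hsq : b' ^ 2 ≤ b' := by nlinarith
  have hsq0 : 0 < b' ^ 2 := by positivity
  have hcabs : |c| ≤ 1 := by rw [abs_le]; constructor <;> linarith
  obtain ⟨c₁, ⟨k1, k2⟩, hd1⟩ := exists_level h.ds.conf (α := 1 - b' ^ 2 / 2) (β := c) hcabs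
    (by linarith) (by linarith) (by linarith) fun hh => lt_irrefl _ hh.2
  obtain ⟨c₂, ⟨k3, k4⟩, hd2⟩ := exists_level h.ds.conf (α := c) (β := 1) hcabs
    (by linarith) (by linarith) le_rfl fun hh => lt_irrefl _ hh.1
  refine ⟨1 - c₂, by linarith, by linarith, ?_⟩
  filter_upwards [h.half_cut (Or.inl rfl) (by linarith) k2 k3 k4 hd1 hd2,
    h.half_cut (Or.inr rfl) (by linarith) k2 k3 k4 hd1 hd2] with n g1 g2
  have hδ := h.pos n
  have hp := h.poly n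
  have hS := h.encl n
  obtain ⟨x₀, hx₀⟩ := FLDI.ng_nonempty (NN hδ (φn n c))
  obtain ⟨Q, q, o, a1, a2, a3, a4, a5, a6, a7, a8⟩ := g1 x₀ hx₀
  obtain ⟨Q', q', o', b1, b2, b3, b4, b5, b6, b7, b8⟩ := g2 x₀ hx₀
  set V := inn (p n) (S n) with hV
  have hfin : V.Finite := Finset.finite_toSet _
  have hQV : Q ∪ Q' ⊆ V := union_subset a2 b2
  have hx : ∀ v ∈ Q ∪ Q', Conn (Q ∪ Q') x₀ v := by
    rintro v (hv | hv)
    · exact (a3 v hv).mono subset_union_left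
    · exact (b3 v hv).mono subset_union_right
  have hstrip : ∀ v ∈ Q ∪ Q', c₁ < (gn n (PP (δ n) v)).re ∧ (gn n (PP (δ n) v)).re < c₂ := by
    rintro v (hv | hv)
    · exact a7 _ (Or.inl (PP_mem_grC hv))
    · exact b7 _ (Or.inl (PP_mem_grC hv))
  refine ⟨Q ∪ Q', hQV, fun x hx' y hy => (hx x hx').symm.trans (hx y hy), fun v hv => ?_,
    fun v hv => ?_, ⟨q, Or.inl a4, a2 a4, o, a5, a6⟩, fun u v hu hua hvb huv => ?_⟩
  · exact le_trans (by linarith [(hstrip v hv).2]) (re_le_dist _)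
  · exact (dist_one_lt (h.norm_inn n (hQV hv)).le hb0 (by linarith [(hstrip v hv).1])).trans_le hb2
  set K₁ := grC (δ n) Q ∪ segment ℝ (PP (δ n) q) (PP (δ n) o) with hK₁
  set K₂ := grC (δ n) Q' ∪ segment ℝ (PP (δ n) q') (PP (δ n) o') with hK₂
  have hcl : ∀ {A : Set (ℤ × ℤ)} {x y : ℤ × ℤ}, A ⊆ V → x ∈ A → Adj x y →
      grC (δ n) A ∪ segment ℝ (PP (δ n) x) (PP (δ n) y) ⊆ closure (DC (δ n) (S n)) := by
    intro A x y hA hx hxy
    exact union_subset ((grC_DC hδ hp hS hA).trans subset_closure)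
      ((seg_face hδ hxy).trans (face_sub hδ (fa_mem hS (hA hx) hxy)))
  have hcon : ∀ {A : Set (ℤ × ℤ)} {x y : ℤ × ℤ}, (∀ v ∈ A, Conn A x₀ v) → x ∈ A →
      IsPreconnected (grC (δ n) A ∪ segment ℝ (PP (δ n) x) (PP (δ n) y)) := by
    intro A x y hA hx
    exact IsPreconnected.union (PP (δ n) x) (PP_mem_grC hx) (left_mem_segment ℝ _ _)
      (grC_preconn hδ fun a ha b hb => (hA a ha).symm.trans (hA b hb))
      (convex_segment _ _).isPreconnected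
  have hseg : ∀ x y : ℂ, IsCompact (segment ℝ x y) := fun x y => by
    rw [segment_eq_image]
    exact isCompact_Icc.image (by fun_prop)
  have hKcl : K₁ ∪ K₂ ⊆ closure (DC (δ n) (S n)) := union_subset (hcl a2 a4 a5) (hcl b2 b4 b5)
  set P : Set (ℤ × ℤ) := {y | Conn (V \ (Q ∪ Q')) u y} with hP
  have hPV : P ⊆ V := fun y hy => hy.right_mem.1
  have hPD := grC_DC hδ hp hS hPV
  have huP : u ∈ P := Conn.refl huv.left_mem
  obtain ⟨i, rfl⟩ := inn_out hS (a2 a4) a5 a6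
  obtain ⟨i', rfl⟩ := inn_out hS (b2 b4) b5 b6
  refine sep (K := gn n '' (K₁ ∪ K₂)) (T := gn n '' grC (δ n) P) (c₁ := c₁) (c₂ := c₂)
    (by linarith) k4.le (h.ds.compact n hKcl ?_) (h.ds.preconn n hKcl ?_) ?_ ?_
    (mem_image_of_mem _ (Or.inl (Or.inr (right_mem_segment ℝ _ _))))
    (mem_image_of_mem _ (Or.inr (Or.inr (right_mem_segment ℝ _ _))))
    (h.norm_poly n i) (h.norm_poly n i') (by linarith) (by linarith)
    (h.ds.preconn n (hPD.trans subset_closure) (grC_preconn hδ fun x hx y hy => conn_comp hx hy))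
    ?_ ?_ (mem_image_of_mem _ (PP_mem_grC huP)) (mem_image_of_mem _ (PP_mem_grC huv)) ?_ ?_
  · exact ((grC_compact hδ (hfin.subset a2)).union (hseg _ _)).union
      ((grC_compact hδ (hfin.subset b2)).union (hseg _ _))
  · exact IsPreconnected.union (PP (δ n) x₀) (Or.inl (PP_mem_grC a1)) (Or.inl (PP_mem_grC b1))
      (hcon a3 a4) (hcon b3 b4)
  · rintro _ ⟨x, hx, rfl⟩
    exact mem_cb.2 (h.ds.norm_le n (hKcl hx))
  · rintro _ ⟨x, hx | hx, rfl⟩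
    · exact a7 x hx
    · exact b7 x hx
  · rintro _ ⟨x, hx, rfl⟩
    exact mem_ob.2 (h.ds.norm_lt n (hPD hx))
  · rw [Set.disjoint_left]
    rintro _ ⟨x, hx, rfl⟩ ⟨y, hy, he⟩
    have e := h.ds.injOn n (hKcl hy) (subset_closure (hPD hx)) he
    subst e
    have hdis : Disjoint P ((Q ∪ Q') ∪ {p n i, p n i'}) := by
      rw [Set.disjoint_left]
      rintro z hz (h1 | h1 | h1)
      · exact hz.right_mem.2 h1
      · exact a6 (h1 ▸ hPV hz)
      · exact b6 (h1 ▸ hPV hz)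
    refine Set.disjoint_left.1 (grC_disj hδ hdis) hx ?_
    rcases hy with (⟨a, ha, b, hb, h1⟩ | hy) | (⟨a, ha, b, hb, h1⟩ | hy)
    · exact ⟨a, Or.inl (Or.inl ha), b, Or.inl (Or.inl hb), h1⟩
    · exact ⟨q, Or.inl (Or.inl a4), _, Or.inr (Or.inl rfl), Or.inr a5, hy⟩
    · exact ⟨a, Or.inl (Or.inr ha), b, Or.inl (Or.inr hb), h1⟩
    · exact ⟨q', Or.inl (Or.inr b4), _, Or.inr (Or.inr rfl), Or.inr b5, hy⟩
  · have := re_le_dist (gn n (PP (δ n) u))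
    have h1 : dist (gn n (PP (δ n) u)) 1 < 1 - c₂ := hua
    linarith
  · by_contra hc'
    have h1 := dist_one_lt (h.norm_inn n (hPV huv)).le hb0 (by linarith [not_le.1 hc'])
    have h2 : b ≤ dist (gn n (PP (δ n) v)) 1 := hvb
    linarith

/-- **Crosscuts** around a point of the circle. -/
theorem LD.crc (h : LD D φ δ N p S φn gn) {ζ : ℂ} (hζ : ‖ζ‖ = 1) {b : ℝ} (hb : 0 < b) :
    ∃ a : ℝ, 0 < a ∧ a < b ∧
    ∀ᶠ n in atTop, ∃ Q, Crc (inn (p n) (S n)) (fun v => dist (gn n (PP (δ n) v)) ζ) Q a b := by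
  obtain ⟨a, h1, h2, h3⟩ := (h.rot hζ).crc_one hb
  refine ⟨a, h1, h2, h3.mono fun n hn => ?_⟩
  have hζ0 : ζ ≠ 0 := by rintro rfl; simp at hζ
  have e : (fun v => dist (gn n (PP (δ n) v)) ζ) = fun v => dist (ζ⁻¹ * gn n (PP (δ n) v)) 1 := by
    funext v
    have : ζ⁻¹ * gn n (PP (δ n) v) - 1 = ζ⁻¹ * (gn n (PP (δ n) v) - ζ) := by field_simp
    rw [dist_eq_norm, dist_eq_norm, this, norm_mul, norm_inv, hζ, inv_one, one_mul]
  rw [e]
  exact hn

/-- The components of boxes are small in the disc. -/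
theorem LD.co (h : LD D φ δ N p S φn gn) {ε : ℝ} (hε : 0 < ε) : ∃ η > 0, ∀ᶠ n in atTop,
    ∀ (x₀ q : ℤ × ℤ) (R : ℤ) (z : ℂ), (∀ v ∈ bx x₀ R, dist (PP (δ n) v) z < η) →
      ∀ v ∈ Co (inn (p n) (S n)) x₀ R q, dist (gn n (PP (δ n) q)) (gn n (PP (δ n) v)) ≤ ε := by
  obtain ⟨η, hη, hl⟩ := h.light hε
  refine ⟨η / 2, half_pos hη, hl.mono fun n hn x₀ q R z hz v hv => ?_⟩
  refine hn _ inter_subset_left (fun a ha b hb => ?_) q v hv
  linarith [hz a ha.2, hz b hb.2, dist_triangle_right (PP (δ n) a) (PP (δ n) b) z]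

/-- The walls near a point of an open arc have the sign of the arc. -/
theorem LS.wall (h : LS D φ δ N k p S φn gn) (n : ℕ) {ζ : ℂ} {c : ℤ} (hc : c = 1 ∨ c = -1)
    (i : ZMod (N n)) (hi : dist (gn n (PP (δ n) (p n i))) ζ < c * ζ.im) :
    eta (Mn (p n) (k n) (S n)) (p n i) = c := by
  obtain ⟨h1, h2⟩ := h.side n
  have h3 : |(gn n (PP (δ n) (p n i))).im - ζ.im| < c * ζ.im := by
    rw [← Complex.sub_im]
    exact (Complex.abs_im_le_norm _).trans_lt (by rwa [← dist_eq_norm])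
  rw [abs_lt] at h3
  rcases hc with rfl | rfl
  · refine INTF.eta_not fun hm => ?_
    have := h1 _ hm
    push_cast at h3
    linarith [h3.1]
  · refine INTF.eta_mem ?_
    have h4 : p n i ∈ Pn (p n) (k n) (S n) ∪ Mn (p n) (k n) (S n) := by
      rw [INTF.Pn_Mn]
      exact mem_range_self i
    refine h4.resolve_left fun hm => ?_
    have := h2 _ hm
    push_cast at h3
    linarith [h3.2]

/-- **Landing at a point of an open arc**, for all vertices near the point at once. -/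
theorem LS.land (hL : S_land (0 + 2)) (h : LS D φ δ N k p S φn gn) {ζ : ℂ} (hζ : ‖ζ‖ = 1)
    {c : ℤ} (hc : c = 1 ∨ c = -1) (hcζ : 0 < c * ζ.im) {ρ ε : ℝ} (hρ : 0 < ρ) (hε : 0 < ε) :
    ∃ r : ℝ, 0 < r ∧ ∀ᶠ n in atTop, Pr (Cs (p n) (k n) (S n))
      {g | ∃ a b, dist (gn n (PP (δ n) a)) ζ < r ∧ ρ ≤ dist (gn n (PP (δ n) b)) ζ ∧
        Conn {v | v ∈ inn (p n) (S n) ∧ g v ≠ c} a b} ≤ ε := by
  obtain ⟨t, ht, ρ₀, hρ₀, H⟩ := multW_ne 0 hL ε hε
  have ht' : (1 : ℝ) ≤ t := by exact_mod_cast ht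
  have hρ₀' : (1 : ℝ) ≤ ρ₀ := by exact_mod_cast hρ₀
  obtain ⟨r₁, hr₁, hr₁ρ, hQ⟩ := h.crc hζ hρ
  set e := min r₁ (c * ζ.im) / 4 with he
  have he0 : 0 < e := by positivity
  have he1 : 4 * e ≤ r₁ := by linarith [min_le_left r₁ (c * ζ.im)]
  have he2 : 4 * e ≤ c * ζ.im := by linarith [min_le_right r₁ (c * ζ.im)]
  obtain ⟨η, hη, hco⟩ := h.co he0
  set s := η / (64 * t) with hs
  have hs0 : 0 < s := by positivity
  have hst : 32 * t * s = η / 2 := by rw [hs]; field_simp; ring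
  obtain ⟨b, hb, hmod⟩ := h.ds.modulus (half_pos hs0)
  obtain ⟨a₁, ha₁, hab₁, hQ₁⟩ := h.crc hζ (lt_min hb he0)
  refine ⟨a₁, ha₁, ?_⟩
  filter_upwards [hQ, hQ₁, hco, hmod, h.adj he0, h.small (show 0 < min (s / 2)
    (min (η / 2 / (24 * (t + 1))) (4 * s / ρ₀)) by positivity)] with n g1 g2 g3 g4 g5 g6
  obtain ⟨g6, g7⟩ := lt_min_iff.1 g6
  obtain ⟨g7, g8⟩ := lt_min_iff.1 g7
  rw [lt_div_iff₀ (by positivity)] at g7 g8
  have hδ := h.pos n
  have hp := h.poly n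
  have hS := h.encl n
  obtain ⟨Q, C⟩ := g1
  obtain ⟨Q₁, C₁⟩ := g2
  obtain ⟨q₁, hq₁, hq₁V, x₀, hqx, hx₀⟩ := C₁.wall
  set V := inn (p n) (S n) with hV
  have hb1 : min b e ≤ b := min_le_left _ _
  have hb2 : min b e ≤ e := min_le_right _ _
  have hnear : ∀ v ∈ V, dist (gn n (PP (δ n) v)) ζ < min b e → dist (PP (δ n) v) (φ ζ) < s / 2 :=
    fun v hv hd => g4 _ (subset_closure (PP_DC hδ hp hS hv)) ζ hζ.le (hd.trans_le hb1)
  have hq₁d : dist (gn n (PP (δ n) q₁)) ζ < min b e := C₁.near q₁ hq₁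
  obtain ⟨K, R, k1, k2, k3, k4⟩ := radC hδ (z := φ ζ) (x₀ := x₀) (s := s) (a := η / 2) (by
    have e1 := hnear q₁ hq₁V hq₁d
    have e2 := dist_PP_adj hδ (adj_symm hqx)
    linarith [dist_triangle (PP (δ n) x₀) (PP (δ n) q₁) (φ ζ)]) (ρ₀ := ρ₀) ht hst.le
    (by linarith) (by linarith)
  have hCo : ∀ v ∈ Co V x₀ R q₁, dist (gn n (PP (δ n) v)) ζ < 2 * e := by
    intro v hv
    have e1 := g3 x₀ q₁ R (φ ζ) (fun u hu => by linarith [k4 u hu]) v hv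
    linarith [dist_triangle_left (gn n (PP (δ n) v)) ζ (gn n (PP (δ n) q₁))]
  have hbx : ∀ v ∈ V, dist (gn n (PP (δ n) v)) ζ < min b e → v ∈ V ∩ bx x₀ K := fun v hv hd =>
    ⟨hv, k3 v (by linarith [hnear v hv hd])⟩
  have hQ₁b : Q₁ ⊆ V ∩ bx x₀ K := fun v hv => hbx v (C₁.sub hv) (C₁.near v hv)
  have hqN : q₁ ∈ Co V x₀ K q₁ := Conn.refl (hQ₁b hq₁)
  have key := H c V V x₀ K R q₁ (eta (Mn (p n) (k n) (S n))) (Co V x₀ K q₁) Q
    (by rcases hc with rfl | rfl <;> decide)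
    ⟨Finset.finite_toSet _, PLAN.CC_inner (FLDI.polyF hp) (FLDI.enclF hS), Subset.rfl,
      OBSV.CA_nonempty _ _, fun v hv _ => (Co_subset hv).1⟩
    (fun v _ => by
      rcases INTF.eta_or (Mn (p n) (k n) (S n)) v with h1 | h1 <;> rcases hc with rfl | rfl <;>
        rw [h1] <;> norm_num)
    (fun v hv w hw hwv _ => by
      obtain ⟨j, rfl⟩ := inn_out hS (Co_subset hw).1 hwv hv
      refine h.wall n (ζ := ζ) hc j ?_
      have e1 := hCo w hw
      have e2 := g5 w (Co_subset hw).1 _ hwv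
      linarith [dist_triangle_left (gn n (PP (δ n) (p n j))) ζ (gn n (PP (δ n) w))])
    hx₀ k1 (by nlinarith) ⟨hq₁V, x₀, hqx, hx₀⟩ hqN (fun v hv => (Co_subset hv).1)
    (fun v hv => (Co_subset hv).2) (fun v hv => conn_comp hqN hv) C.sub
    (Set.disjoint_left.2 fun v hv hvC => by
      have e1 : r₁ ≤ dist (gn n (PP (δ n) v)) ζ := C.far v hv
      linarith [hCo v hvC]) C.cn
  refine (Pr_mono fun g hg hfar => ?_).trans key
  obtain ⟨a, b', ha, hb', hab⟩ := hfar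
  have haV : a ∈ V := hab.left_mem.1
  have haN : a ∈ Co V x₀ K q₁ := by
    obtain ⟨q', o', c1, c2, c3, c4⟩ := first_exit
      (V := {v | dist (gn n (PP (δ n) v)) ζ < min b e}) hab (ha.trans hab₁) (by
        rw [mem_ofPred_eq, not_lt]
        linarith)
    have c4' : min b e ≤ dist (gn n (PP (δ n) o')) ζ := not_lt.1 c4
    rcases conn_meet (Q := Q₁) c1 with h1 | ⟨y, hy, h1⟩
    · exfalso
      have h4 : Conn (V \ Q₁) a q' :=
        Conn.mono (fun v hv => (⟨hv.1.1.1, hv.2⟩ : v ∈ V \ Q₁)) h1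
      exact C₁.cut a o' haV ha c4' (h4.tail c2 ⟨c3.1, fun hc => (C₁.near o' hc).not_ge c4'⟩)
    · have h2 : Conn (V ∩ bx x₀ K) a y := Conn.mono (fun v hv => hbx v hv.1.1 hv.2) h1
      exact (Conn.mono hQ₁b (C₁.cn q₁ hq₁ y hy)).trans h2.symm
  rcases conn_meet (Q := Q) hab with h1 | ⟨y, hy, h1⟩
  · exfalso
    refine C.cut a b' haV ?_ hb' (Conn.mono (fun v hv => (⟨hv.1.1, hv.2⟩ : v ∈ V \ Q)) h1)
    show dist (gn n (PP (δ n) a)) ζ < r₁
    linarith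
  · exact ⟨a, haN, y, hy, Conn.mono (fun v hv => Or.inl ⟨hv.1, hv.2⟩) h1⟩

/-- The two vertices of the first state are near `-1`. -/
theorem LS.start (h : LS D φ δ N k p S φn gn) {ε : ℝ} (hε : 0 < ε) : ∀ᶠ n in atTop,
    ∀ x, x = (st (p n) (S n)).1 ∨ x = (st (p n) (S n)).2 → dist (gn n (PP (δ n) x)) (-1) ≤ ε := by
  filter_upwards [h.face hε] with n hn x hx
  have hδ := h.pos n
  have ha := INTF.st_adj (S := S n) (h.poly n)
  have k1 := INTF.face_of_corner hδ (INTF.corner1 ha)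
  have k2 := INTF.face_of_corner hδ (INTF.corner2 ha)
  have e : mid (δ n) (p n (-1)) (p n 0) = mid (δ n) (st (p n) (S n)).1 (st (p n) (S n)).2 := by
    by_cases hP : DRV.Pos (p n) (S n)
    · rw [INTF.st_pos hP, SLEX.mid_comm]
    · rw [INTF.st_neg hP]
  rw [← h.gn_zero n, e]
  refine hn _ (INTF.st_side (h.poly n) (h.encl n)).1 _ ?_ _ (mid_face hδ k1 k2)
  rcases hx with rfl | rfl
  · exact k1
  · exact k2

/-- **The interface avoids the points of the open arcs.** -/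
theorem t_bdp (hL : S_land (0 + 2)) : T_bdp := by
  intro D φ δ N k p S φn gn h x hx ζ hζ hζ0 e he
  obtain ⟨c, hc, hcζ⟩ : ∃ c : ℤ, (c = 1 ∨ c = -1) ∧ 0 < c * ζ.im := by
    rcases lt_or_gt_of_ne hζ0 with h1 | h1
    · exact ⟨-1, Or.inr rfl, by push_cast; linarith⟩
    · exact ⟨1, Or.inl rfl, by push_cast; linarith⟩
  set ρ := c * ζ.im with hρ
  have hρ1 : ρ ≤ dist ζ (-1) := by
    have h1 : |ζ.im| ≤ dist ζ (-1) := by
      have := Complex.abs_im_le_norm (ζ - (-1))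
      rw [← dist_eq_norm] at this
      simpa using this
    rw [abs_le] at h1
    rcases hc with rfl | rfl <;> push_cast at hρ <;> linarith [h1.1, h1.2]
  obtain ⟨r, hr, hland⟩ := h.land hL hζ hc hcζ (show 0 < ρ / 4 by positivity) he
  set η := min (r / 2) (ρ / 4) with hη
  have hη0 : 0 < η := by positivity
  have hη1 : η ≤ r / 2 := min_le_left _ _
  have hη2 : η ≤ ρ / 4 := min_le_right _ _
  refine ⟨η, hη0, ?_⟩
  filter_upwards [hland, h.face hη0, h.adj hη0, h.start hη0] with n g1 g2 g3 g4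
  have hδ := h.pos n
  have hp := h.poly n
  have hS := h.encl n
  have hk := h.kpos n
  have hkn := h.klt n
  rw [SLEX.law_real_Cs hp hS]
  refine (Pr_mono fun g hg hgA => ?_).trans g1
  obtain ⟨s, hs⟩ := hgA
  obtain ⟨σ, -, hσ⟩ := intf_pl hδ hp hS hk hkn hg (hx n _ (bk_mem hp hS hg))
  obtain ⟨h0, h1, h2⟩ := hσ s
  obtain ⟨t, ht, h3, h4⟩ := pl_face hδ hp hS hk hkn hg h0 h1
  obtain ⟨a, o, ha, ho, hao⟩ : ∃ a o, (a = (ru (p n) (S n) g ⌊σ s⌋₊).1 ∨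
      a = (ru (p n) (S n) g ⌊σ s⌋₊).2) ∧ (o = (st (p n) (S n)).1 ∨ o = (st (p n) (S n)).2) ∧
      Conn {v | v ∈ Final.verts (S n) ∧ g v = -c} a o := by
    obtain ⟨k1, k2⟩ := SLEX.ru_conn hp hS hk hkn hg ⌊σ s⌋₊
    rcases hc with rfl | rfl
    · exact ⟨_, _, Or.inr rfl, Or.inr rfl, k2⟩
    · exact ⟨_, _, Or.inl rfl, Or.inl rfl, k1⟩
  have had : dist (gn n (PP (δ n) a)) ζ < 2 * η := by
    have e1 := g2 t ht _ (h4 a ha) _ h3
    rw [← h2] at e1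
    linarith [dist_triangle (gn n (PP (δ n) a)) (gn n (x n (bk (p n) (S n) g) s)) ζ]
  obtain ⟨q, o', c1, c2, c3, c4⟩ := first_exit
    (V := {v | dist (gn n (PP (δ n) v)) ζ < ρ / 2}) hao (by rw [mem_ofPred_eq]; linarith) (by
      rw [mem_ofPred_eq, not_lt]
      linarith [g4 o ho, dist_triangle_left ζ (-1) (gn n (PP (δ n) o))])
  have c4' : ρ / 2 ≤ dist (gn n (PP (δ n) o')) ζ := not_lt.1 c4
  have hne : -c ≠ c := by rcases hc with rfl | rfl <;> norm_num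
  have hin : ∀ v ∈ {v | v ∈ Final.verts (S n) ∧ g v = -c} ∩
      {v | dist (gn n (PP (δ n) v)) ζ < ρ / 2}, v ∈ {v | v ∈ inn (p n) (S n) ∧ g v ≠ c} := by
    rintro v ⟨⟨h5, h6⟩, h7⟩
    refine ⟨?_, by rw [h6]; exact hne⟩
    by_contra hcon
    obtain ⟨i, rfl⟩ := DRV.exists_p h5 hcon
    have h8 : dist (gn n (PP (δ n) (p n i))) ζ < ρ / 2 := h7
    have h9 := h.wall n (ζ := ζ) hc i (by linarith)
    rw [(INTF.mem_CA.1 hg).2.1 _ hcon, h9] at h6
    exact hne h6.symm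
  refine ⟨a, q, by linarith, ?_, Conn.mono hin c1⟩
  have e1 := g3 q (hin q c1.right_mem).1 o' c2
  linarith [dist_triangle_left (gn n (PP (δ n) o')) ζ (gn n (PP (δ n) q))]

end Vale.Agent.N153
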