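import Vale.Agent.P153E.Defs

/-!
The scaling limits of the uniform odd heights in bounded simply connected domains marked at two
prime ends: the definitions. The lattice domains, the heights, the field `h_δ(φ)`, the interface,
chordal SLE in the half-plane, the Green function and the Gaussian free field are those of the
imported files.
-/

set_option autoImplicit false

namespace Vale.Agent.N153

open MeasureTheory ProbabilityTheory Filter Topology Set TopologicalSpace
open Vale.Agent.P153.H212 (pt Encloses curve region Heights arcs law fld IsInterface IsSLE)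
open Vale.Agent.P153E (Marked Approximates IsGreen IsField InLaw IsH0 IsUnif)

/-- `ψ` is a conformal map of the upper half-plane onto `D`. It marks `D` at two distinct prime
ends: `a`, the image of `0`, and `b`, the image of `∞`. -/
def IsConf (D : Set ℂ) (ψ : ℂ → ℂ) : Prop :=
  DifferentiableOn ℂ ψ {z | 0 < z.im} ∧ BijOn ψ {z | 0 < z.im} D

/-- Convergence in the sense of Carathéodory. Lattice domains of mesh `δ n → 0` in a fixed ball,
enclosed by the polygons `p n` and marked at the midpoints `a n`, `b n` of the boundary edges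
`p (-1) p 0` and `p (k - 1) p k`, converge to the domain marked by `ψ`: conformal maps `ψn n` of the
half-plane onto the lattice domains, with `0 ↦ a n` and `∞ ↦ b n`, converge to `ψ` locally
uniformly. The sign `s = ±1` is the orientation: the arc `A_+` is the image of `s · (0, ∞)`. -/
def Cara (ψ : ℂ → ℂ) (s : ℝ) (δ : ℕ → ℝ) (N k : ℕ → ℕ) (p : ∀ n, ZMod (N n) → ℤ × ℤ)
    (S : ℕ → Finset (Finset (ℤ × ℤ))) : Prop :=
  (∀ n, 0 < δ n ∧ 0 < k n ∧ k n < N n ∧ Encloses (p n) (S n)) ∧ Tendsto δ atTop (𝓝 0) ∧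
  (∃ R : ℝ, ∀ n, region (δ n) (S n) ⊆ Metric.closedBall 0 R) ∧
  ∃ ψn : ℕ → ℂ → ℂ,
    (∀ n, IsUnif (interior (region (δ n) (S n))) (δ n * curve (p n) (-1 / 2))
      (δ n * curve (p n) (k n - 1 / 2)) (ψn n)) ∧
    (∀ᶠ n in atTop, ∃ x : ℝ, 0 < s * x ∧ ψn n x = δ n * pt (p n 0)) ∧
    TendstoLocallyUniformlyOn ψn ψ atTop {z | 0 < z.im}

/-- `β` is the marked boundary curve of the domain `D`: the conformal map `ψ` extends continuously
to the boundary, with `0 ↦ a = β 0` and `∞ ↦ b = β (1/2)`, and `β t = ψ (s θ t)`, where `θ` runs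
increasingly through `[0, ∞)` on `[0, 1/2)` and through `(-∞, 0]` on `(1/2, 1]`. The arcs are
`A_+ = β (0, 1/2)` and `A_- = β (1/2, 1)`. -/
def Param (D : Set ℂ) (ψ : ℂ → ℂ) (s : ℝ) (β : ℝ → ℂ) : Prop :=
  IsUnif D (β 0) (β (1 / 2)) ψ ∧ (s = 1 ∨ s = -1) ∧ ∃ θ : ℝ → ℝ,
    StrictMonoOn θ (Ico 0 (1 / 2)) ∧ θ '' Ico 0 (1 / 2) = Ici 0 ∧
    StrictMonoOn θ (Ioc (1 / 2) 1) ∧ θ '' Ioc (1 / 2) 1 = Iic 0 ∧
    ∀ t ∈ Icc (0 : ℝ) 1, t ≠ 1 / 2 → β t = ψ (s * θ t : ℝ)

/-- `u` is bounded and harmonic in `D` with the boundary values `1` at the prime ends of `A_+` and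
`-1` at the prime ends of `A_-`. -/
def IsMean (D : Set ℂ) (ψ : ℂ → ℂ) (s : ℝ) (u : ℂ → ℝ) : Prop :=
  InnerProductSpace.HarmonicOnNhd u D ∧ (∀ z ∈ D, |u z| ≤ 1) ∧
    (∀ x : ℝ, 0 < s * x → Tendsto (fun z => u (ψ z)) (𝓝[{z | 0 < z.im}] x) (𝓝 1)) ∧
    ∀ x : ℝ, s * x < 0 → Tendsto (fun z => u (ψ z)) (𝓝[{z | 0 < z.im}] x) (𝓝 (-1))

/-- The limit of the field in a space `E` of distributions on `D`: there is exactly one law `P` on
`E` of the Gaussian free field `Φ_D`, and it is not degenerate; the harmonic function `u` (there is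
exactly one), the fields `h_δ` and their means are elements `U`, `X n h`, `M n` of `E`; the means
converge to `u`; and in law in `E`, `h_δ - E h_δ → √(8/π) Φ_D` and `h_δ → u + √(8/π) Φ_D`. -/
def FieldLimit {D : Opens ℂ} {E : Type} [AddCommGroup E] [Module ℝ E] [TopologicalSpace E]
    [MeasurableSpace E] (ψ : ℂ → ℂ) (s : ℝ) (ev : E → TestFunction D ℝ ⊤ → ℝ) : Prop :=
  ∀ G, IsGreen D G → ∃ P : Measure E, IsField ev G P ∧ (∀ P', IsField ev G P' → P' = P) ∧
    (∀ f, f ≠ 0 → 0 < ∫ T, ev T f * ev T f ∂P) ∧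
    ∃ (u : ℂ → ℝ) (U : E), IsMean D ψ s u ∧ (∀ u', IsMean D ψ s u' → EqOn u' u D) ∧
    (∀ f, ev U f = ∫ z, u z * f z) ∧
    ∀ (δ : ℕ → ℝ) (N k : ℕ → ℕ) (p : ∀ n, ZMod (N n) → ℤ × ℤ)
      (S : ℕ → Finset (Finset (ℤ × ℤ))), Cara ψ s δ N k p S →
      ∃ (X : ℕ → (ℤ × ℤ → ℤ) → E) (M : ℕ → E),
        (∀ n h f, ev (X n h) f = fld (S n) (δ n) f h) ∧
        (∀ n f, ev (M n) f = ∫ h, fld (S n) (δ n) f h ∂law (p n) (S n) (arcs (k n))) ∧
        (∀ f, Tendsto (fun n => ev (M n) f) atTop (𝓝 (ev U f))) ∧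
        InLaw (fun n => law (p n) (S n) (arcs (k n))) (fun n h => X n h - M n) P
          (fun T => √(8 / Real.pi) • T) ∧
        InLaw (fun n => law (p n) (S n) (arcs (k n))) X P (fun T => U + √(8 / Real.pi) • T)

/-- The marked domains and their approximations exist. (1) Every bounded simply connected domain is
a conformal image of the half-plane. (2) Every marked domain has approximations in the sense of
Carathéodory, for every sequence of meshes. (3) If the boundary is locally connected, then every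
marking has a boundary curve, and every pair of distinct boundary points is a pair of marked
points. (4) The boundary curve of a marked Jordan domain is a marked boundary curve. (5) Every
marked boundary curve is the uniform limit, modulo reparametrization, of marked lattice polygons,
for every sequence of meshes; (6) and this convergence implies the convergence in the sense of
Carathéodory. -/
def Domains : Prop :=
  (∀ D : Set ℂ, IsOpen D → IsSimplyConnected D → Bornology.IsBounded D → ∃ ψ, IsConf D ψ) ∧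
  (∀ D ψ, IsConf D ψ → Bornology.IsBounded D → ∀ s : ℝ, (s = 1 ∨ s = -1) →
    ∀ δ : ℕ → ℝ, (∀ n, 0 < δ n) → Tendsto δ atTop (𝓝 0) →
      ∃ (N k : ℕ → ℕ) (p : ∀ n, ZMod (N n) → ℤ × ℤ) (S : ℕ → Finset (Finset (ℤ × ℤ))),
        Cara ψ s δ N k p S) ∧
  (∀ D ψ, IsConf D ψ → Bornology.IsBounded D → LocallyConnectedSpace (frontier D) →
    ∀ s : ℝ, (s = 1 ∨ s = -1) →
      (∃ ψ' β, EqOn ψ' ψ {z | 0 < z.im} ∧ Param D ψ' s β) ∧
      ∀ a ∈ frontier D, ∀ b ∈ frontier D, a ≠ b →
        ∃ ψ' β, Param D ψ' s β ∧ β 0 = a ∧ β (1 / 2) = b) ∧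
  (∀ D β, Marked D β → (∃ ψ, IsUnif D (β 0) (β (1 / 2)) ψ) ∧
    ∀ ψ, IsUnif D (β 0) (β (1 / 2)) ψ → ∃ s, Param D ψ s β) ∧
  ∀ D ψ s β, Param D ψ s β →
    (∀ δ : ℕ → ℝ, (∀ n, 0 < δ n) → Tendsto δ atTop (𝓝 0) →
      ∃ (N k : ℕ → ℕ) (p : ∀ n, ZMod (N n) → ℤ × ℤ) (S : ℕ → Finset (Finset (ℤ × ℤ))),
        Approximates β δ N k p S) ∧
    ∀ (δ : ℕ → ℝ) (N k : ℕ → ℕ) (p : ∀ n, ZMod (N n) → ℤ × ℤ)
      (S : ℕ → Finset (Finset (ℤ × ℤ))), Approximates β δ N k p S → Cara ψ s δ N k p S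

/-- The Green function exists, and the field converges in law in `𝓓'(D)` (with its Borel sets). -/
def DistLimit : Prop :=
  ∀ (D : Opens ℂ) (ψ : ℂ → ℂ), IsConf D ψ → Bornology.IsBounded (D : Set ℂ) →
    (∃ G, IsGreen D G) ∧ ∀ s : ℝ, (s = 1 ∨ s = -1) →
    ∀ [MeasurableSpace (Distribution D ℝ ⊤)] [BorelSpace (Distribution D ℝ ⊤)],
      FieldLimit ψ s fun (T : Distribution D ℝ ⊤) f => T f

/-- The space `H^r_0(D)` exists, and the field converges in law in its dual `H^{-r}(D)`, `r > 1`. -/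
def SobLimit : Prop :=
  ∀ (D : Opens ℂ) (ψ : ℂ → ℂ), IsConf D ψ → Bornology.IsBounded (D : Set ℂ) →
    ∀ s : ℝ, (s = 1 ∨ s = -1) → ∀ r : ℝ, 1 < r →
    (∃ (H : Type) (_ : NormedAddCommGroup H) (_ : NormedSpace ℝ H)
      (J : TestFunction D ℝ ⊤ →ₗ[ℝ] H), IsH0 r J) ∧
    ∀ (H : Type) [NormedAddCommGroup H] [NormedSpace ℝ H] (J : TestFunction D ℝ ⊤ →ₗ[ℝ] H),
      IsH0 r J → ∀ [MeasurableSpace (StrongDual ℝ H)] [BorelSpace (StrongDual ℝ H)],
        FieldLimit ψ s fun (T : StrongDual ℝ H) f => T (J f)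

/-- There is a chordal `SLE_4` trace `γ` in the upper half-plane such that for every domain with a
marked boundary curve `β`, given by the conformal map `ψ`, and all lattice domains whose marked
boundary curves converge to `β`, the interfaces exist and converge in law to the curve `ψ ∘ γ`, in
the uniform metric modulo increasing reparametrization: the expectations of all bounded continuous
functions of the curve which are invariant under increasing reparametrization converge. -/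
def CurveLimit : Prop :=
  ∃ (Ω : Type) (_ : MeasurableSpace Ω) (P : Measure Ω) (γ : Ω → ℝ → ℂ),
    IsProbabilityMeasure P ∧ IsSLE 4 P γ ∧
    ∀ D ψ s β, Param D ψ s β → ∃ G : Ω → C(unitInterval, ℂ),
      (∀ᵐ ω ∂P, G ω 1 = β (1 / 2) ∧
        ∀ t : unitInterval, (t : ℝ) < 1 → G ω t = ψ (γ ω (t / (1 - t)))) ∧
      (∀ F : C(unitInterval, ℂ) → ℝ, Continuous F → AEMeasurable (fun ω => F (G ω)) P) ∧
      ∀ (δ : ℕ → ℝ) (N k : ℕ → ℕ) (p : ∀ n, ZMod (N n) → ℤ × ℤ)
        (S : ℕ → Finset (Finset (ℤ × ℤ))), Approximates β δ N k p S →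
        (∀ n, ∀ h ∈ Heights (p n) (S n) (arcs (k n)), ∃ c,
          IsInterface (p n) (k n) (S n) (δ n) h c) ∧
        ∀ c : ∀ _ : ℕ, (ℤ × ℤ → ℤ) → C(unitInterval, ℂ),
          (∀ n, ∀ h ∈ Heights (p n) (S n) (arcs (k n)),
            IsInterface (p n) (k n) (S n) (δ n) h (c n h)) →
          ∀ F : C(unitInterval, ℂ) → ℝ, Continuous F → (∃ M, ∀ x, |F x| ≤ M) →
            (∀ (x : C(unitInterval, ℂ)) (σ : C(unitInterval, unitInterval)), StrictMono σ →
              Function.Surjective σ → F (x.comp σ) = F x) →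
            Tendsto (fun n => ∫ h, F (c n h) ∂law (p n) (S n) (arcs (k n))) atTop
              (𝓝 (∫ ω, F (G ω) ∂P))

end Vale.Agent.N153
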