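import Vale.Agent.N153.Defs
import Vale.Agent.P153.R2.R1.Jordan

/-!
N153: the parts (1), (3), (4) of `Domains` (Riemann, Carathéodory–Torhorst, Carathéodory), and the
elementary properties of a marked boundary curve.
-/

set_option autoImplicit false

namespace Vale.Agent.N153

open Filter Topology Set Metric Bornology
open Vale.Agent.P153E (Marked IsUnif)
open Vale.Agent.P153.R2
open Vale.Agent.P153.R2.R1 (Conf CConf IsU mb imb LC Ctrl NoCut Good JCurve toDisc cext csq)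

variable {D : Set ℂ} {ψ : ℂ → ℂ} {a b : ℂ} {s : ℝ} {β : ℝ → ℂ}

theorem isUnif_iff : IsUnif D a b ψ ↔ IsU ψ D a b :=
  ⟨fun ⟨h1, h2, h3, h4, h5⟩ => ⟨h1, h2.injOn, h2.image_eq, h3, h4, h5⟩,
    fun h => ⟨h.diff, h.img ▸ h.inj.bijOn_image, h.cont, h.zero, h.infty⟩⟩

theorem I_pos : 0 < Complex.I.im := by simp

theorem ne_one_of_ball {w : ℂ} (hw : w ∈ ball (0 : ℂ) 1) : w ≠ 1 := by
  rintro rfl
  rw [mem_ball_zero_iff, norm_one] at hw
  exact lt_irrefl _ hw

/-- From the disc to the half-plane. -/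
theorem isConf_of_conf {φ : ℂ → ℂ} (h : Conf φ D) {u c : ℂ} (hu : ‖u‖ = 1) (hc : 0 < c.im) :
    IsConf D fun z => φ (mb u c z) := by
  have hm : MapsTo (mb u c) {z | 0 < z.im} (ball 0 1) := fun z hz =>
    mem_ball_zero_iff.2 (R1.norm_mb_lt hu hc hz)
  refine ⟨h.diff.comp (fun z hz => (R1.mb_differentiableAt hc (le_of_lt hz)).differentiableWithinAt)
    hm, ?_⟩
  have hi : InjOn (fun z => φ (mb u c z)) {z | 0 < z.im} := fun z hz z' hz' he =>
    R1.mb_injOn hu hc (show 0 ≤ z.im from le_of_lt hz) (show 0 ≤ z'.im from le_of_lt hz')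
      (h.inj (hm hz) (hm hz') he)
  have := hi.bijOn_image
  rwa [← image_image φ, R1.mb_image_open hu hc, h.img] at this

/-- From the half-plane to the disc. -/
theorem IsConf.conf (h : IsConf D ψ) : Conf (fun w => ψ (imb 1 Complex.I w)) D := by
  have hm : MapsTo (imb 1 Complex.I) (ball 0 1) {z | 0 < z.im} := fun w hw =>
    R1.imb_im_pos norm_one I_pos (mem_ball_zero_iff.1 hw)
  refine ⟨h.1.comp (fun w hw =>
    (R1.imb_differentiableAt (ne_one_of_ball hw)).differentiableWithinAt) hm, ?_, ?_⟩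
  · intro w hw w' hw' he
    have h2 := h.2.injOn (hm hw) (hm hw') he
    rw [← (R1.mb_imb norm_one I_pos (ne_one_of_ball hw)).2, h2,
      (R1.mb_imb norm_one I_pos (ne_one_of_ball hw')).2]
  · rw [← h.2.image_eq]
    apply Subset.antisymm
    · rintro _ ⟨w, hw, rfl⟩
      exact ⟨_, hm hw, rfl⟩
    · rintro _ ⟨z, hz, rfl⟩
      refine ⟨mb 1 Complex.I z, mem_ball_zero_iff.2 (R1.norm_mb_lt norm_one I_pos hz), ?_⟩
      simp only [R1.imb_mb norm_one I_pos (le_of_lt hz)]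

theorem IsConf.isOpen (h : IsConf D ψ) : IsOpen D := h.conf.isOpen

theorem IsConf.isConnected (h : IsConf D ψ) : IsConnected D :=
  ⟨h.conf.nonempty, h.conf.isPreconnected⟩

theorem ne_univ_of_bounded (h : IsBounded D) : D ≠ univ := by
  rintro rfl
  exact NormedSpace.unbounded_univ ℂ ℂ h

theorem rdom_of_simplyConnected (ho : IsOpen D) (hsc : IsSimplyConnected D) :
    P153.TOP.RMT.RDom D := by
  refine ⟨⟨hsc.nonempty, hsc.isPathConnected.isConnected.isPreconnected⟩, ?_⟩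
  intro f hf h0
  obtain ⟨F, hF, hF'⟩ := Complex.exists_continuousOn_eqOn_exp_comp hsc ho hf
    (by rintro ⟨z, hz, hz0⟩; exact h0 z hz hz0)
  exact ⟨F, hF, fun x hx => hF' hx⟩

/-- **Part (1)**: the Riemann mapping theorem. -/
theorem dom1 : ∀ D : Set ℂ, IsOpen D → IsSimplyConnected D → IsBounded D → ∃ ψ, IsConf D ψ := by
  intro D ho hsc hb
  obtain ⟨z, hz⟩ := hsc.nonempty
  obtain ⟨φ, hφ, -⟩ := R1.exists_conf ho (rdom_of_simplyConnected ho hsc)
    (ne_univ_of_bounded hb) hz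
  exact ⟨_, isConf_of_conf hφ norm_one I_pos⟩

/-! ### Locally connected boundary -/

/-- A compact locally connected set is uniformly locally connected. -/
theorem lc_of_locallyConnected (hb : IsBounded D) (h : LocallyConnectedSpace (frontier D)) :
    LC D := by
  intro ε hε
  have hK : IsCompact (frontier D) :=
    isCompact_of_isClosed_isBounded isClosed_frontier (hb.closure.subset frontier_subset_closure)
  have : CompactSpace (frontier D) := isCompact_iff_compactSpace.1 hK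
  obtain ⟨η, hη, hc⟩ := lebesgue_number_lemma_of_metric (s := (univ : Set (frontier D)))
    (c := fun p : frontier D => connectedComponentIn (ball p (ε / 2)) p) isCompact_univ
    (fun p => isOpen_ball.connectedComponentIn)
    (fun p _ => mem_iUnion.2 ⟨p, mem_connectedComponentIn (mem_ball_self (half_pos hε))⟩)
  refine ⟨η / 2, half_pos hη, fun p hp => ?_⟩
  obtain ⟨q, hq⟩ := hc ⟨p, hp⟩ (mem_univ _)
  set V : Set ℂ := (↑) '' connectedComponentIn (ball q (ε / 2)) q with hV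
  have hVK : V ⊆ frontier D := by
    rintro _ ⟨x, -, rfl⟩
    exact x.2
  have hVb : V ⊆ ball (q : ℂ) (ε / 2) := by
    rintro _ ⟨x, hx, rfl⟩
    have h1 : x ∈ ball q (ε / 2) := connectedComponentIn_subset _ _ hx
    exact h1
  have hcl : closure V ⊆ frontier D := closure_minimal hVK isClosed_frontier
  refine ⟨closure V, hK.of_isClosed_subset isClosed_closure hcl,
    (isPreconnected_connectedComponentIn.image _ continuous_subtype_val.continuousOn).closure, hcl,
    ?_, ?_⟩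
  · rintro x ⟨hx, hxp⟩
    refine subset_closure ⟨⟨x, hx⟩, hq ?_, rfl⟩
    rw [mem_closedBall] at hxp
    show dist x p < η
    linarith
  · refine closure_minimal ?_ isClosed_closedBall
    intro x hx
    have h1 : dist x q < ε / 2 := hVb hx
    have h2 : dist p q < ε / 2 := hVb ⟨⟨p, hp⟩, hq (mem_ball_self hη), rfl⟩
    rw [mem_closedBall]
    linarith [dist_triangle_right x p q]

/-- A parameter which runs through `[0, ∞)` on `[0, 1/2)` and `(-∞, 0]` on `(1/2, 1]`. -/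
noncomputable def th0 (t : ℝ) : ℝ := if t < 1 / 2 then t / (1 / 2 - t) else (t - 1) / (t - 1 / 2)

theorem th0_mono1 : StrictMonoOn th0 (Ico 0 (1 / 2)) := by
  intro x hx y hy hxy
  simp only [th0, hx.2, hy.2, if_true]
  rw [div_lt_div_iff₀ (by linarith [hx.2]) (by linarith [hy.2])]
  nlinarith

theorem th0_mono2 : StrictMonoOn th0 (Ioc (1 / 2) 1) := by
  intro x hx y hy hxy
  simp only [th0, not_lt.2 hx.1.le, not_lt.2 hy.1.le, if_false]
  rw [div_lt_div_iff₀ (by linarith [hx.1]) (by linarith [hy.1])]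
  nlinarith

theorem th0_img1 : th0 '' Ico 0 (1 / 2) = Ici 0 := by
  apply Subset.antisymm
  · rintro _ ⟨t, ht, rfl⟩
    simp only [th0, ht.2, if_true]
    exact div_nonneg ht.1 (by linarith [ht.2])
  · intro y hy
    have hy' : 0 ≤ y := hy
    have h1 : y / (2 * (1 + y)) < 1 / 2 := by
      rw [div_lt_div_iff₀ (by positivity) (by norm_num)]
      linarith
    refine ⟨y / (2 * (1 + y)), ⟨by positivity, h1⟩, ?_⟩
    simp only [th0, h1, if_true]
    have : (1 : ℝ) / 2 - y / (2 * (1 + y)) = 1 / (2 * (1 + y)) := by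
      field_simp
      ring
    rw [this]
    field_simp

theorem th0_img2 : th0 '' Ioc (1 / 2) 1 = Iic 0 := by
  apply Subset.antisymm
  · rintro _ ⟨t, ht, rfl⟩
    simp only [th0, not_lt.2 ht.1.le, if_false]
    exact div_nonpos_of_nonpos_of_nonneg (sub_nonpos.2 ht.2) (sub_nonneg.2 ht.1.le)
  · intro y hy
    have hy' : y ≤ 0 := hy
    have h0 : 0 < 1 - y := by linarith
    have h1 : 1 / 2 < 1 / 2 + 1 / (2 * (1 - y)) := by
      have : 0 < 1 / (2 * (1 - y)) := by positivity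
      linarith
    have h2 : 1 / (2 * (1 - y)) ≤ 1 / 2 := by
      rw [div_le_div_iff₀ (by positivity) (by norm_num)]
      linarith
    refine ⟨1 / 2 + 1 / (2 * (1 - y)), ⟨h1, by linarith⟩, ?_⟩
    simp only [th0, not_lt.2 h1.le, if_false]
    rw [add_sub_cancel_left]
    field_simp
    ring

/-- The boundary curve of a conformal map which is continuous up to the boundary. -/
theorem exists_param (h : IsU ψ D a b) (hs : s = 1 ∨ s = -1) :
    ∃ β, Param D ψ s β ∧ β 0 = a ∧ β (1 / 2) = b := by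
  classical
  set β : ℝ → ℂ := fun t => if t = 1 / 2 then b else ψ (s * th0 t : ℝ) with hβ
  have h0 : β 0 = a := by
    have e : (0 : ℝ) ≠ 1 / 2 := by norm_num
    have e2 : th0 0 = 0 := by simp [th0]
    simp only [hβ, e, if_false, e2, mul_zero, Complex.ofReal_zero, h.zero]
  have h1 : β (1 / 2) = b := by simp only [hβ, if_true]
  refine ⟨β, ⟨?_, hs, th0, th0_mono1, th0_img1, th0_mono2, th0_img2, fun t _ ht => ?_⟩, h0, h1⟩
  · rw [h0, h1]
    exact isUnif_iff.2 h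
  · simp only [hβ, ht, if_false]

/-- The half-plane map with given boundary points of the disc. -/
theorem isU_of_cconf {Φ : ℂ → ℂ} (h : CConf Φ D) {u v : ℂ} (hu : ‖u‖ = 1) (hv : ‖v‖ = 1)
    (huv : u ≠ v) : IsU (fun z => Φ (mb v (csq (u / v)) z)) D (Φ u) (Φ v) := by
  have hv0 : v ≠ 0 := by rintro rfl; simp at hv
  have hquo : ‖u / v‖ = 1 := by rw [norm_div, hu, hv, div_one]
  have hquo1 : u / v ≠ 1 := fun h => huv ((div_eq_one_iff_eq hv0).1 h)
  have hne0 : u / v ≠ 0 := by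
    intro h
    rw [h, norm_zero] at hquo
    exact zero_ne_one hquo
  have h1 := h.isU hv (R1.csq_im_pos hquo hquo1)
  rwa [R1.mb_zero (R1.norm_csq hquo), R1.csq_sq hne0, mul_div_cancel₀ _ hv0] at h1

/-- **Part (3)**: the theorem of Carathéodory and Torhorst. -/
theorem dom3 : ∀ D ψ, IsConf D ψ → IsBounded D → LocallyConnectedSpace (frontier D) →
    ∀ s : ℝ, (s = 1 ∨ s = -1) →
      (∃ ψ' β, EqOn ψ' ψ {z | 0 < z.im} ∧ Param D ψ' s β) ∧
      ∀ a ∈ frontier D, ∀ b ∈ frontier D, a ≠ b →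
        ∃ ψ' β, Param D ψ' s β ∧ β 0 = a ∧ β (1 / 2) = b := by
  intro D ψ h hb hlc s hs
  have hΦ := h.conf.cconf hb (lc_of_locallyConnected hb hlc)
  refine ⟨?_, fun a ha b hb' hab => ?_⟩
  · obtain ⟨β, hβ, -⟩ := exists_param (hΦ.isU norm_one I_pos) hs
    refine ⟨_, β, fun z hz => ?_, hβ⟩
    have hm : mb 1 Complex.I z ∈ ball (0 : ℂ) 1 :=
      mem_ball_zero_iff.2 (R1.norm_mb_lt norm_one I_pos hz)
    simp only [R1.cext_eq h.conf.diff.continuousOn hm, R1.imb_mb norm_one I_pos (le_of_lt hz)]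
  · rw [← hΦ.frontier_eq] at ha hb'
    obtain ⟨u, hu, rfl⟩ := ha
    obtain ⟨v, hv, rfl⟩ := hb'
    obtain ⟨β, hβ⟩ := exists_param (isU_of_cconf hΦ (mem_sphere_zero_iff_norm.1 hu)
      (mem_sphere_zero_iff_norm.1 hv) fun e => hab (by rw [e])) hs
    exact ⟨_, β, hβ⟩

/-! ### Jordan domains -/

/-- The complement of a domain with a connected boundary is connected. -/
theorem noBdd_of_frontier (ho : IsOpen D) (hne : D.Nonempty) (hb : IsBounded D)
    (hf : IsPreconnected (frontier D)) : P153.TOP.NoBdd D := by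
  have hfc : frontier D ⊆ Dᶜ := fun x hx => R1.notMem_of_frontier ho hx
  have key : ∀ z ∉ D, (connectedComponentIn Dᶜ z ∩ frontier D).Nonempty := by
    intro z hz
    by_contra hcon
    rw [not_nonempty_iff_eq_empty] at hcon
    set C := connectedComponentIn Dᶜ z with hC
    have hzC : z ∈ C := mem_connectedComponentIn hz
    have hsub : C ⊆ (closure D)ᶜ := by
      intro x hx hxc
      have : x ∈ C ∩ frontier D := ⟨hx, by
        rw [ho.frontier_eq]
        exact ⟨hxc, connectedComponentIn_subset _ _ hx⟩⟩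
      rw [hcon] at this
      exact this
    have he : C = connectedComponentIn (closure D)ᶜ z :=
      Subset.antisymm (isPreconnected_connectedComponentIn.subset_connectedComponentIn hzC hsub)
        (connectedComponentIn_mono _ (compl_subset_compl.2 subset_closure))
    have hCo : IsOpen C := by
      rw [he]
      exact isClosed_closure.isOpen_compl.connectedComponentIn
    have hCc : IsClosed C := by
      refine isClosed_of_closure_subset ?_
      exact isPreconnected_connectedComponentIn.closure.subset_connectedComponentIn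
        (subset_closure hzC) (closure_minimal (connectedComponentIn_subset _ _) ho.isClosed_compl)
    have hu : C = univ := IsClopen.eq_univ ⟨hCc, hCo⟩ ⟨z, hzC⟩
    obtain ⟨w, hw⟩ := hne
    have : w ∈ C := hu ▸ mem_univ w
    exact connectedComponentIn_subset _ _ this hw
  intro z hz
  refine ⟨Dᶜ, ?_, hz, Subset.rfl, fun h => ?_⟩
  · obtain ⟨p, -, hp⟩ := key z hz
    refine isPreconnected_of_forall p fun y hy => ?_
    obtain ⟨q, hq1, hq2⟩ := key y hy
    exact ⟨connectedComponentIn Dᶜ y ∪ frontier D,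
      union_subset (connectedComponentIn_subset _ _) hfc, Or.inr hp,
      Or.inl (mem_connectedComponentIn hy),
      isPreconnected_connectedComponentIn.union q hq1 hq2 hf⟩
  · have h2 := hb.union h
    rw [union_compl_self] at h2
    exact NormedSpace.unbounded_univ ℝ ℂ h2

theorem marked_jcurve (h : Marked D β) :
    JCurve (β ∘ Int.fract) 1 ∧ frontier D = range (β ∘ Int.fract) := by
  obtain ⟨-, -, -, h4, h5, h6, h7⟩ := h
  have hm : ∀ x : ℝ, Int.fract x ∈ Ico (0 : ℝ) 1 := fun x =>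
    ⟨Int.fract_nonneg x, Int.fract_lt_one x⟩
  refine ⟨⟨one_pos, h4.comp_fract'' h6.symm, fun x => by simp, fun x y he => ?_⟩, ?_⟩
  · obtain ⟨k, hk⟩ := Int.fract_eq_fract.1 (h5 (hm x) (hm y) he)
    exact ⟨k, by linarith⟩
  · rw [h7]
    apply Subset.antisymm
    · rintro _ ⟨t, ht, rfl⟩
      rcases ht.2.lt_or_eq with h1 | rfl
      · exact ⟨t, by simp only [Function.comp, Int.fract_eq_self.2 ⟨ht.1, h1⟩]⟩
      · exact ⟨0, by simp only [Function.comp, Int.fract_zero, h6]⟩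
    · rintro _ ⟨x, rfl⟩
      exact ⟨_, Ico_subset_Icc_self (hm x), rfl⟩

theorem marked_good (h : Marked D β) : Good D := by
  obtain ⟨hj, hf⟩ := marked_jcurve h
  obtain ⟨h1, h2, h3, -⟩ := h
  refine ⟨h1, ⟨h2, P153.TOP.hasLogOn_of_noBdd h1 h2.isPreconnected
    (noBdd_of_frontier h1 h2.nonempty h3 ?_)⟩, h3, hj.lc hf, hj.noCut hf⟩
  rw [hf]
  exact isPreconnected_range hj.cont

theorem mono_or_anti {S : Set ℝ} (hS : S.OrdConnected) {x : ℝ → ℝ} (hc : ContinuousOn x S)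
    (hi : InjOn x S) : StrictMonoOn x S ∨ StrictAntiOn x S := by
  by_contra hcon
  rw [not_or] at hcon
  obtain ⟨h1, h2⟩ := hcon
  simp only [StrictMonoOn, StrictAntiOn, not_forall] at h1 h2
  obtain ⟨p, hp, q, hq, hpq, h1⟩ := h1
  obtain ⟨u, hu, v, hv, huv, h2⟩ := h2
  have hl : min p u ∈ S := by
    rcases min_choice p u with e | e <;> rw [e] <;> assumption
  have hr : max q v ∈ S := by
    rcases max_choice q v with e | e <;> rw [e] <;> assumption
  have hsub : Icc (min p u) (max q v) ⊆ S := hS.out hl hr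
  have hle : min p u ≤ max q v := (min_le_left _ _).trans (hpq.le.trans (le_max_left _ _))
  rcases (hc.mono hsub).strictMonoOn_of_injOn_Icc' hle (hi.mono hsub) with h | h
  · exact h1 (h ⟨min_le_left _ _, hpq.le.trans (le_max_left _ _)⟩
      ⟨(min_le_left _ _).trans hpq.le, le_max_left _ _⟩ hpq)
  · exact h2 (h ⟨min_le_right _ _, huv.le.trans (le_max_right _ _)⟩
      ⟨(min_le_right _ _).trans huv.le, le_max_right _ _⟩ huv)

theorem theta_of_mono {x : ℝ → ℝ} (h1 : StrictMonoOn x (Ico 0 (1 / 2)))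
    (h2 : StrictMonoOn x (Ioc (1 / 2) 1) ∨ StrictAntiOn x (Ioc (1 / 2) 1)) (h0 : x 0 = 0)
    (h0' : x 1 = 0) (hs : ∀ y, ∃ t ∈ Ico (0 : ℝ) (1 / 2) ∪ Ioc (1 / 2) 1, x t = y) :
    StrictMonoOn x (Ico 0 (1 / 2)) ∧ x '' Ico 0 (1 / 2) = Ici 0 ∧
      StrictMonoOn x (Ioc (1 / 2) 1) ∧ x '' Ioc (1 / 2) 1 = Iic 0 := by
  have m0 : (0 : ℝ) ∈ Ico (0 : ℝ) (1 / 2) := ⟨le_rfl, by norm_num⟩
  have m1 : (1 : ℝ) ∈ Ioc (1 / 2 : ℝ) 1 := ⟨by norm_num, le_rfl⟩
  have a1 : ∀ t ∈ Ico (0 : ℝ) (1 / 2), 0 ≤ x t := fun t ht =>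
    h0 ▸ h1.monotoneOn m0 ht ht.1
  rcases h2 with h2 | h2
  · have a2 : ∀ t ∈ Ioc (1 / 2 : ℝ) 1, x t ≤ 0 := fun t ht =>
      h0' ▸ h2.monotoneOn ht m1 ht.2
    refine ⟨h1, Subset.antisymm (image_subset_iff.2 a1) fun y hy => ?_, h2,
      Subset.antisymm (image_subset_iff.2 a2) fun y hy => ?_⟩
    · obtain ⟨t, ht | ht, rfl⟩ := hs y
      · exact ⟨t, ht, rfl⟩
      · exact ⟨0, m0, by rw [h0]; exact le_antisymm hy (a2 t ht)⟩
    · obtain ⟨t, ht | ht, rfl⟩ := hs y
      · exact ⟨1, m1, by rw [h0']; exact le_antisymm (a1 t ht) hy⟩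
      · exact ⟨t, ht, rfl⟩
  · exfalso
    obtain ⟨t, ht | ht, he⟩ := hs (-1)
    · linarith [a1 t ht]
    · have := h2.antitoneOn ht m1 ht.2
      linarith

/-- **Part (4)**: Carathéodory's theorem for Jordan domains. -/
theorem dom4 : ∀ D β, Marked D β → (∃ ψ, IsUnif D (β 0) (β (1 / 2)) ψ) ∧
    ∀ ψ, IsUnif D (β 0) (β (1 / 2)) ψ → ∃ s, Param D ψ s β := by
  intro D β h
  have hg := marked_good h
  obtain ⟨-, h2, -, h4, h5, h6, h7⟩ := h
  have hfr : ∀ t ∈ Icc (0 : ℝ) 1, β t ∈ frontier D := fun t ht => h7 ▸ mem_image_of_mem β ht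
  have m0 : (0 : ℝ) ∈ Icc (0 : ℝ) 1 := ⟨le_rfl, zero_le_one⟩
  have m1 : (1 : ℝ) ∈ Icc (0 : ℝ) 1 := ⟨zero_le_one, le_rfl⟩
  have mh : (1 / 2 : ℝ) ∈ Icc (0 : ℝ) 1 := ⟨by norm_num, by norm_num⟩
  have hhalf : ∀ t ∈ Icc (0 : ℝ) 1, β t = β (1 / 2) → t = 1 / 2 := by
    intro t ht he
    rcases ht.2.lt_or_eq with h1 | rfl
    · exact h5 ⟨ht.1, h1⟩ ⟨by norm_num, by norm_num⟩ he
    · rw [h6] at he
      have := h5 ⟨le_rfl, one_pos⟩ ⟨by norm_num, by norm_num⟩ he
      norm_num at this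
  refine ⟨?_, fun ψ hψ => ?_⟩
  · obtain ⟨ψ, hψ, -⟩ := hg.exists_isU h2.nonempty (hfr 0 m0) (hfr _ mh) fun e => by
      have := hhalf 0 m0 e
      norm_num at this
    exact ⟨ψ, isUnif_iff.2 hψ⟩
  have hU := isUnif_iff.1 hψ
  have hΦ := hU.toDisc
  set Φ := toDisc ψ (β (1 / 2)) with hΦd
  have hinj := hΦ.injOn hg.nocut
  have hex : ∀ t : ℝ, ∃ ζ : ℂ, t ∈ Icc (0 : ℝ) 1 → ζ ∈ sphere (0 : ℂ) 1 ∧ Φ ζ = β t := by
    intro t
    by_cases ht : t ∈ Icc (0 : ℝ) 1
    · have := hfr t ht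
      rw [← hΦ.frontier_eq] at this
      obtain ⟨ζ, h1, h2⟩ := this
      exact ⟨ζ, fun _ => ⟨h1, h2⟩⟩
    · exact ⟨0, fun h => (ht h).elim⟩
  choose ζ hζ using hex
  have hζb : ∀ t ∈ Icc (0 : ℝ) 1, ζ t ∈ closedBall (0 : ℂ) 1 := fun t ht =>
    sphere_subset_closedBall (hζ t ht).1
  have hζc : ContinuousOn ζ (Icc 0 1) := by
    intro t ht
    refine hΦ.tendsto_inv hg.nocut (eventually_nhdsWithin_of_forall hζb) (hζb t ht) ?_
    rw [(hζ t ht).2]
    exact (h4 t ht).congr' (eventually_nhdsWithin_of_forall fun u hu => (hζ u hu).2.symm)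
  have hζ1 : ∀ t ∈ Icc (0 : ℝ) 1, t ≠ 1 / 2 → ζ t ≠ 1 := by
    intro t ht hne he
    apply hne
    apply hhalf t ht
    rw [← (hζ t ht).2, he, hΦd, R1.toDisc_one]
  set x : ℝ → ℝ := fun t => (imb 1 Complex.I (ζ t)).re with hx
  have hxe : ∀ t ∈ Icc (0 : ℝ) 1, t ≠ 1 / 2 → ((x t : ℝ) : ℂ) = imb 1 Complex.I (ζ t) := by
    intro t ht hne
    refine Complex.ext rfl ?_
    rw [Complex.ofReal_im, R1.imb_im_eq norm_one I_pos (mem_sphere_zero_iff_norm.1 (hζ t ht).1)
      (hζ1 t ht hne)]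
  have hβx : ∀ t ∈ Icc (0 : ℝ) 1, t ≠ 1 / 2 → β t = ψ (x t) := by
    intro t ht hne
    rw [hxe t ht hne, ← (hζ t ht).2, hΦd]
    simp only [toDisc, hζ1 t ht hne, if_false]
  have hxc : ∀ S ⊆ Icc (0 : ℝ) 1, (1 / 2 : ℝ) ∉ S → ContinuousOn x S := by
    intro S hS hn t ht
    have e1 : ContinuousAt (imb 1 Complex.I) (ζ t) :=
      (R1.imb_differentiableAt (hζ1 t (hS ht) fun e => hn (e ▸ ht))).continuousAt
    exact Complex.continuous_re.continuousAt.comp_continuousWithinAt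
      (e1.comp_continuousWithinAt ((hζc t (hS ht)).mono hS))
  have hreal : ∀ y y' : ℝ, ψ y = ψ y' → y = y' := by
    intro y y' he
    have e1 : (0 : ℝ) ≤ (y : ℂ).im := by simp
    have e2 : (0 : ℝ) ≤ (y' : ℂ).im := by simp
    rw [← R1.toDisc_mb (ψ := ψ) (b := β (1 / 2)) e1,
      ← R1.toDisc_mb (ψ := ψ) (b := β (1 / 2)) e2] at he
    have := R1.mb_injOn norm_one I_pos e1 e2 (hinj (R1.mb_mem_closedBall norm_one I_pos e1)
      (R1.mb_mem_closedBall norm_one I_pos e2) he)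
    exact_mod_cast this
  have sA : Ico (0 : ℝ) (1 / 2) ⊆ Icc 0 1 := fun t ht => ⟨ht.1, by linarith [ht.2]⟩
  have sB : Ioc (1 / 2 : ℝ) 1 ⊆ Icc 0 1 := fun t ht => ⟨by linarith [ht.1], ht.2⟩
  have x0 : x 0 = 0 := hreal _ _ (by
    rw [← hβx 0 m0 (by norm_num), Complex.ofReal_zero, hU.zero])
  have x1 : x 1 = 0 := hreal _ _ (by
    rw [← hβx 1 m1 (by norm_num), Complex.ofReal_zero, hU.zero, h6])
  have iA : InjOn x (Ico 0 (1 / 2)) := by
    intro t ht u hu he
    refine h5 ⟨ht.1, by linarith [ht.2]⟩ ⟨hu.1, by linarith [hu.2]⟩ ?_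
    rw [hβx t (sA ht) ht.2.ne, hβx u (sA hu) hu.2.ne, he]
  have iB : InjOn x (Ioc (1 / 2) 1) := by
    intro t ht u hu he
    have e : β t = β u := by rw [hβx t (sB ht) ht.1.ne', hβx u (sB hu) hu.1.ne', he]
    rcases ht.2.lt_or_eq with h1 | rfl <;> rcases hu.2.lt_or_eq with h1' | rfl
    · exact h5 ⟨(sB ht).1, h1⟩ ⟨(sB hu).1, h1'⟩ e
    · rw [h6] at e
      have := h5 ⟨(sB ht).1, h1⟩ ⟨le_rfl, one_pos⟩ e
      linarith [ht.1]
    · rw [h6] at e
      have := h5 ⟨le_rfl, one_pos⟩ ⟨(sB hu).1, h1'⟩ e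
      linarith [hu.1]
    · rfl
  have hsurj : ∀ y : ℝ, ∃ t ∈ Ico (0 : ℝ) (1 / 2) ∪ Ioc (1 / 2) 1, x t = y := by
    intro y
    have e1 : (0 : ℝ) ≤ (y : ℂ).im := by simp
    have hm : mb 1 Complex.I y ∈ sphere (0 : ℂ) 1 :=
      mem_sphere_zero_iff_norm.2 (R1.norm_mb_eq norm_one I_pos (by simp))
    have hf := hΦ.sphere_mem hm
    rw [h7] at hf
    obtain ⟨t, ht, he⟩ := hf
    have hne : t ≠ 1 / 2 := by
      rintro rfl
      refine R1.mb_ne norm_one I_pos e1 (hinj (sphere_subset_closedBall hm) (by simp) ?_)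
      rw [← he, hΦd, R1.toDisc_one]
    rw [hΦd, R1.toDisc_mb e1, hβx t ht hne] at he
    refine ⟨t, ?_, hreal _ _ he⟩
    rcases lt_or_gt_of_ne hne with h1 | h1
    · exact Or.inl ⟨ht.1, h1⟩
    · exact Or.inr ⟨h1, ht.2⟩
  have cA := mono_or_anti ordConnected_Ico (hxc _ sA (by simp)) iA
  have cB := mono_or_anti ordConnected_Ioc (hxc _ sB (by simp)) iB
  rcases cA with cA | cA
  · obtain ⟨g1, g2, g3, g4⟩ := theta_of_mono cA cB x0 x1 hsurj
    exact ⟨1, hψ, Or.inl rfl, x, g1, g2, g3, g4, fun t ht hne => by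
      rw [one_mul]; exact hβx t ht hne⟩
  · obtain ⟨g1, g2, g3, g4⟩ := theta_of_mono (x := fun t => -x t) cA.neg
      (cB.symm.imp (fun h => h.neg) fun h => h.neg) (by simp only [x0, neg_zero])
      (by simp only [x1, neg_zero]) (fun y => by
        obtain ⟨t, ht, he⟩ := hsurj (-y)
        exact ⟨t, ht, by simp only [he, neg_neg]⟩)
    exact ⟨-1, hψ, Or.inr rfl, fun t => -x t, g1, g2, g3, g4, fun t ht hne => by
      rw [neg_one_mul, neg_neg]; exact hβx t ht hne⟩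

end Vale.Agent.N153
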