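import Vale.Agent.N153.Dom1

/-!
N153: a marked boundary curve in the coordinates of the disc.
-/

set_option autoImplicit false

namespace Vale.Agent.N153

open Filter Topology Set Metric Bornology
open Vale.Agent.P153.R2
open Vale.Agent.P153.R2.R1 (CConf IsU mb toDisc)

variable {D : Set ℂ} {ψ : ℂ → ℂ} {s : ℝ} {β : ℝ → ℂ}

theorem Param.isU (h : Param D ψ s β) : IsU ψ D (β 0) (β (1 / 2)) := isUnif_iff.1 h.1

theorem Param.cconf (h : Param D ψ s β) : CConf (toDisc ψ (β (1 / 2))) D := h.isU.toDisc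

theorem Param.isConf (h : Param D ψ s β) : IsConf D ψ := ⟨h.1.1, h.1.2.1⟩

theorem Param.isBounded (h : Param D ψ s β) : IsBounded D := h.cconf.isBounded

theorem Param.sq (h : Param D ψ s β) : s * s = 1 := by
  rcases h.2.1 with rfl | rfl <;> norm_num

/-- The point of the circle of angle `π + 2 π x`. -/
noncomputable def cir (x : ℝ) : ℂ := -Complex.exp ((2 * Real.pi * x : ℝ) * Complex.I)

theorem norm_cir (x : ℝ) : ‖cir x‖ = 1 := by rw [cir, norm_neg, Complex.norm_exp_ofReal_mul_I]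

theorem cir_mem (x : ℝ) : cir x ∈ sphere (0 : ℂ) 1 := mem_sphere_zero_iff_norm.2 (norm_cir x)

theorem continuous_cir : Continuous cir := by
  unfold cir
  fun_prop

theorem cir_add_int (x : ℝ) (k : ℤ) : cir (x + k) = cir x := by
  unfold cir
  congr 1
  push_cast
  rw [mul_add, add_mul, Complex.exp_add,
    show (2 : ℂ) * Real.pi * k * Complex.I = k * (2 * Real.pi * Complex.I) by ring,
    Complex.exp_int_mul_two_pi_mul_I, mul_one]

theorem cir_zero : cir 0 = -1 := by simp [cir]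

theorem cir_half : cir (1 / 2) = 1 := by
  rw [cir, show 2 * Real.pi * (1 / 2) = Real.pi by ring, Complex.exp_pi_mul_I, neg_neg]

theorem cir_neg_half : cir (-(1 / 2)) = 1 := by
  rw [← cir_half, ← cir_add_int (-(1 / 2)) 1]
  norm_num

theorem cir_eq_iff {x y : ℝ} : cir x = cir y ↔ ∃ k : ℤ, x = y + k := by
  refine ⟨fun h => ?_, by rintro ⟨k, rfl⟩; exact cir_add_int y k⟩
  obtain ⟨n, hn⟩ := Complex.exp_eq_exp_iff_exists_int.1 (neg_injective h)
  refine ⟨n, ?_⟩
  have h2 := congrArg Complex.im hn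
  simp only [Complex.add_im, Complex.mul_im, Complex.ofReal_re, Complex.I_im, Complex.ofReal_im,
    Complex.I_re, Complex.mul_re, Complex.intCast_re, Complex.intCast_im, Complex.re_ofNat,
    Complex.im_ofNat] at h2
  have h3 : 2 * Real.pi * (x - (y + n)) = 0 := by linarith
  have := (mul_eq_zero.1 h3).resolve_left (by positivity)
  linarith

theorem exists_cir {z : ℂ} (hz : z ∈ sphere (0 : ℂ) 1) (c : ℝ) : ∃ x ∈ Ico c (c + 1), cir x = z := by
  have h1 : ‖-z‖ = 1 := by rw [norm_neg]; exact mem_sphere_zero_iff_norm.1 hz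
  have h2 : cir ((-z).arg / (2 * Real.pi)) = z := by
    have := Complex.norm_mul_exp_arg_mul_I (-z)
    rw [h1, Complex.ofReal_one, one_mul] at this
    rw [cir, mul_div_cancel₀ _ (by positivity), this, neg_neg]
  obtain ⟨k, hk, -⟩ := existsUnique_add_zsmul_mem_Ico one_pos ((-z).arg / (2 * Real.pi)) c
  rw [zsmul_eq_mul, mul_one] at hk
  exact ⟨_, hk, by rw [cir_add_int, h2]⟩

theorem mb_arctan (x : ℝ) : mb 1 Complex.I x = cir (Real.arctan x / Real.pi) := by
  have hc := Real.cos_arctan_pos x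
  have hx : x = Real.sin (Real.arctan x) / Real.cos (Real.arctan x) := by
    rw [← Real.tan_eq_sin_div_cos, Real.tan_arctan]
  set φ := Real.arctan x with hφ
  have e1 : ((2 * Real.pi * (φ / Real.pi) : ℝ) : ℂ) * Complex.I = φ * Complex.I + φ * Complex.I := by
    have : 2 * Real.pi * (φ / Real.pi) = φ + φ := by field_simp; ring
    rw [this]
    push_cast
    ring
  have hd := R1.mb_den (c := Complex.I) (z := (x : ℂ)) I_pos (by simp)
  rw [cir, e1, Complex.exp_add, mb, one_mul, div_eq_iff hd, Complex.exp_mul_I, Complex.conj_I, hx]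
  have hc' : (Real.cos φ : ℂ) ≠ 0 := by exact_mod_cast hc.ne'
  have h1 : (Real.cos φ : ℂ) ^ 2 + (Real.sin φ : ℂ) ^ 2 = 1 := by
    exact_mod_cast Real.cos_sq_add_sin_sq φ
  rw [← Complex.ofReal_cos, ← Complex.ofReal_sin]
  push_cast at hc' h1 ⊢
  field_simp
  linear_combination (Complex.cos φ + Complex.sin φ * Complex.I) * Complex.I * h1 +
    (Complex.sin φ + (Complex.cos φ + Complex.sin φ * Complex.I) * Complex.sin φ * Complex.cos φ) *
      Complex.I_sq

/-- The marked boundary curve in the coordinates of the disc. -/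
theorem Param.disc (h : Param D ψ s β) : ∃ σ : ℝ → ℝ, ContinuousOn σ (Icc 0 1) ∧
    StrictMonoOn σ (Icc 0 1) ∧ σ '' Icc 0 1 = Icc 0 1 ∧ σ 0 = 0 ∧ σ (1 / 2) = 1 / 2 ∧ σ 1 = 1 ∧
    ∀ t ∈ Icc (0 : ℝ) 1, β t = toDisc ψ (β (1 / 2)) (cir (s * σ t)) := by
  obtain ⟨-, hs, θ, m1, i1, m2, i2, hβ⟩ := h
  have hπ := Real.pi_pos
  set σ : ℝ → ℝ := fun t => if t < 1 / 2 then Real.arctan (θ t) / Real.pi else
    if t = 1 / 2 then 1 / 2 else 1 + Real.arctan (θ t) / Real.pi with hσ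
  have s1 : ∀ t < 1 / 2, σ t = Real.arctan (θ t) / Real.pi := fun t ht => by
    simp only [hσ, ht, if_true]
  have s2 : σ (1 / 2) = 1 / 2 := by simp only [hσ, lt_irrefl, if_false, if_true]
  have s3 : ∀ t, 1 / 2 < t → σ t = 1 + Real.arctan (θ t) / Real.pi := fun t ht => by
    simp only [hσ, not_lt.2 ht.le, ht.ne', if_false]
  have b1 : ∀ x : ℝ, Real.arctan x / Real.pi < 1 / 2 := fun x => by
    rw [div_lt_iff₀ hπ]
    linarith [Real.arctan_lt_pi_div_two x]
  have b2 : ∀ x : ℝ, -(1 / 2) < Real.arctan x / Real.pi := fun x => by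
    rw [lt_div_iff₀ hπ]
    linarith [Real.neg_pi_div_two_lt_arctan x]
  have am : StrictMono fun x : ℝ => Real.arctan x / Real.pi := fun x y hxy =>
    div_lt_div_of_pos_right (Real.arctan_strictMono hxy) hπ
  have m0 : (0 : ℝ) ∈ Ico (0 : ℝ) (1 / 2) := ⟨le_rfl, by norm_num⟩
  have m1' : (1 : ℝ) ∈ Ioc (1 / 2 : ℝ) 1 := ⟨by norm_num, le_rfl⟩
  have t0 : θ 0 = 0 := by
    obtain ⟨t, ht, he⟩ : (0 : ℝ) ∈ θ '' Ico 0 (1 / 2) := i1 ▸ self_mem_Ici
    have : θ 0 ∈ Ici 0 := i1 ▸ mem_image_of_mem θ m0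
    exact le_antisymm (he ▸ m1.monotoneOn m0 ht ht.1) this
  have t1 : θ 1 = 0 := by
    obtain ⟨t, ht, he⟩ : (0 : ℝ) ∈ θ '' Ioc (1 / 2) 1 := i2 ▸ self_mem_Iic
    have : θ 1 ∈ Iic 0 := i2 ▸ mem_image_of_mem θ m1'
    exact le_antisymm this (he ▸ m2.monotoneOn ht m1' ht.2)
  have z0 : σ 0 = 0 := by rw [s1 0 m0.2, t0, Real.arctan_zero, zero_div]
  have z1 : σ 1 = 1 := by rw [s3 1 m1'.1, t1, Real.arctan_zero, zero_div, add_zero]
  have hm : StrictMonoOn σ (Icc 0 1) := by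
    intro x hx y hy hxy
    rcases lt_trichotomy x (1 / 2) with a | a | a <;> rcases lt_trichotomy y (1 / 2) with b | b | b
    · rw [s1 x a, s1 y b]
      exact am (m1 ⟨hx.1, a⟩ ⟨hy.1, b⟩ hxy)
    · rw [s1 x a, b, s2]
      exact b1 _
    · rw [s1 x a, s3 y b]
      linarith [b1 (θ x), b2 (θ y)]
    · linarith
    · linarith
    · rw [a, s2, s3 y b]
      linarith [b2 (θ y)]
    · linarith
    · linarith
    · rw [s3 x a, s3 y b]
      linarith [am (m2 ⟨a, hx.2⟩ ⟨b, hy.2⟩ hxy)]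
  have hat : ∀ y ∈ Ioo (-(1 / 2) : ℝ) (1 / 2),
      Real.arctan (Real.tan (Real.pi * y)) / Real.pi = y := fun y hy => by
    rw [Real.arctan_tan (by nlinarith [hy.1]) (by nlinarith [hy.2]), mul_div_cancel_left₀ _ hπ.ne']
  have himg : σ '' Icc 0 1 = Icc 0 1 := by
    apply Subset.antisymm
    · rintro _ ⟨t, ht, rfl⟩
      exact ⟨z0 ▸ hm.monotoneOn ⟨le_rfl, zero_le_one⟩ ht ht.1,
        z1 ▸ hm.monotoneOn ht ⟨zero_le_one, le_rfl⟩ ht.2⟩
    · intro y hy
      rcases lt_trichotomy y (1 / 2) with a | a | a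
      · have : Real.tan (Real.pi * y) ∈ θ '' Ico 0 (1 / 2) := by
          rw [i1]
          exact Real.tan_nonneg_of_nonneg_of_le_pi_div_two (mul_nonneg hπ.le hy.1) (by nlinarith)
        obtain ⟨t, ht, he⟩ := this
        exact ⟨t, ⟨ht.1, by linarith [ht.2]⟩, by
          rw [s1 t ht.2, he, hat y ⟨by linarith [hy.1], a⟩]⟩
      · exact ⟨1 / 2, ⟨by norm_num, by norm_num⟩, by rw [s2, a]⟩
      · have : Real.tan (Real.pi * (y - 1)) ∈ θ '' Ioc (1 / 2) 1 := by
          rw [i2]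
          exact Real.tan_nonpos_of_nonpos_of_neg_pi_div_two_le
            (mul_nonpos_of_nonneg_of_nonpos hπ.le (by linarith [hy.2])) (by nlinarith)
        obtain ⟨t, ht, he⟩ := this
        exact ⟨t, ⟨by linarith [ht.1], ht.2⟩, by
          rw [s3 t ht.1, he, hat (y - 1) ⟨by linarith, by linarith [hy.2]⟩]
          ring⟩
  have hc : ContinuousOn σ (Icc 0 1) := by
    have hmap : MapsTo σ (Icc 0 1) (Icc 0 1) := fun t ht => himg ▸ mem_image_of_mem σ ht
    have e : Continuous (hmap.restrict σ (Icc 0 1) (Icc 0 1)) := by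
      refine Monotone.continuous_of_surjective (fun x y hxy => hm.monotoneOn x.2 y.2 hxy) ?_
      rintro ⟨y, hy⟩
      rw [← himg] at hy
      obtain ⟨t, ht, rfl⟩ := hy
      exact ⟨⟨t, ht⟩, rfl⟩
    rw [continuousOn_iff_continuous_domRestrict]
    exact continuous_subtype_val.comp e
  have key : ∀ x : ℝ, mb 1 Complex.I (s * x : ℝ) = cir (s * (Real.arctan x / Real.pi)) := by
    intro x
    rw [mb_arctan]
    rcases hs with rfl | rfl
    · rw [one_mul, one_mul]
    · rw [neg_one_mul, Real.arctan_neg, neg_div, neg_one_mul]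
  refine ⟨σ, hc, hm, himg, z0, s2, z1, fun t ht => ?_⟩
  rcases lt_trichotomy t (1 / 2) with a | a | a
  · rw [s1 t a, ← key, R1.toDisc_mb (by simp), hβ t ht a.ne]
  · rw [a, s2]
    rcases hs with rfl | rfl
    · rw [one_mul, cir_half, R1.toDisc_one]
    · rw [neg_one_mul, cir_neg_half, R1.toDisc_one]
  · have e : cir (s * (1 + Real.arctan (θ t) / Real.pi)) =
        cir (s * (Real.arctan (θ t) / Real.pi)) := by
      rcases hs with rfl | rfl
      · exact cir_eq_iff.2 ⟨1, by push_cast; ring⟩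
      · exact cir_eq_iff.2 ⟨-1, by push_cast; ring⟩
    rw [s3 t a, e, ← key, R1.toDisc_mb (by simp), hβ t ht a.ne']

theorem Param.continuousOn (h : Param D ψ s β) : ContinuousOn β (Icc 0 1) := by
  obtain ⟨σ, h1, -, -, -, -, -, h2⟩ := h.disc
  refine ContinuousOn.congr ?_ h2
  exact h.cconf.cont.comp (continuous_cir.comp_continuousOn (continuousOn_const.mul h1))
    fun t _ => sphere_subset_closedBall (cir_mem _)

theorem Param.one_eq (h : Param D ψ s β) : β 1 = β 0 := by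
  obtain ⟨σ, -, -, -, h0, -, h1, h2⟩ := h.disc
  rw [h2 1 ⟨zero_le_one, le_rfl⟩, h2 0 ⟨le_rfl, zero_le_one⟩, h0, h1]
  congr 1
  rcases h.2.1 with rfl | rfl
  · exact cir_eq_iff.2 ⟨1, by norm_num⟩
  · exact cir_eq_iff.2 ⟨-1, by norm_num⟩

theorem Param.frontier_eq (h : Param D ψ s β) : frontier D = β '' Icc 0 1 := by
  obtain ⟨σ, -, -, h3, -, -, -, h2⟩ := h.disc
  rw [← h.cconf.frontier_eq]
  apply Subset.antisymm
  · rintro _ ⟨z, hz, rfl⟩
    have : ∃ x ∈ Icc (0 : ℝ) 1, cir (s * x) = z := by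
      rcases h.2.1 with rfl | rfl
      · obtain ⟨x, hx, he⟩ := exists_cir hz 0
        exact ⟨x, ⟨hx.1, by linarith [hx.2]⟩, by rw [one_mul, he]⟩
      · obtain ⟨x, hx, he⟩ := exists_cir hz (-1)
        exact ⟨-x, ⟨by linarith [hx.2], by linarith [hx.1]⟩, by rw [neg_one_mul, neg_neg, he]⟩
    obtain ⟨x, hx, rfl⟩ := this
    rw [← h3] at hx
    obtain ⟨t, ht, rfl⟩ := hx
    exact ⟨t, ht, h2 t ht⟩
  · rintro _ ⟨t, ht, rfl⟩
    exact ⟨_, cir_mem _, (h2 t ht).symm⟩

end Vale.Agent.N153
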