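import Vale.Agent.N153.Stmt
import Vale.Agent.N153.Par
import Vale.Agent.P153.H212.Fin

/-!
N153: existence of lattice approximations (parts (2), (5) and (6) of `Domains`), from the case of
Jordan domains, by an exhaustion with Jordan subdomains and a diagonal argument.
-/

set_option autoImplicit false

namespace Vale.Agent.N153.Dom2

open Filter Topology Set Complex
open Vale.Agent.P153.H212 (pt Encloses curve region old Tris Adj)
open Vale.Agent.P153E (Marked Approximates IsUnif HasApprox)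
open Vale.Agent.P153.R2

/-! ### The diagonal argument -/

theorem diag {Q : ℕ → ℕ → Prop} (h : ∀ j, ∀ᶠ n in atTop, Q j n) :
    ∃ J : ℕ → ℕ, Tendsto J atTop atTop ∧ ∀ᶠ n in atTop, Q (J n) n := by
  classical
  choose a ha using fun j => eventually_atTop.1 (h j)
  refine ⟨fun n => Nat.findGreatest (fun j => a j ≤ n) n, ?_, ?_⟩
  · refine tendsto_atTop.2 fun j => ?_
    filter_upwards [eventually_ge_atTop j, eventually_ge_atTop (a j)] with n h1 h2
    exact Nat.le_findGreatest (P := fun j => a j ≤ n) h1 h2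
  · filter_upwards [eventually_ge_atTop (a 0)] with n h1
    exact ha _ n (Nat.findGreatest_spec (P := fun j => a j ≤ n) (Nat.zero_le n) h1)

theorem small {J : ℕ → ℕ} (hJ : Tendsto J atTop atTop) {η : ℝ} (hη : 0 < η) :
    ∀ᶠ n in atTop, 1 / ((J n : ℝ) + 2) < η := by
  have h1 : Tendsto (fun n => 1 / ((J n : ℝ) + 2)) atTop (𝓝 0) :=
    tendsto_const_nhds.div_atTop
      (tendsto_atTop_add_const_right _ 2 (tendsto_natCast_atTop_atTop.comp hJ))
  exact h1.eventually (gt_mem_nhds hη)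

theorem eps_pos (j : ℕ) : 0 < 1 / ((j : ℝ) + 2) := by positivity

theorem eps_lt (j : ℕ) : 1 / ((j : ℝ) + 2) < 1 := by
  rw [div_lt_one (by positivity)]
  have : (0 : ℝ) ≤ j := Nat.cast_nonneg j
  linarith

/-! ### The contraction of the half-plane -/

/-- A Möbius map of the closed half-plane onto a disc inside the open half-plane. -/
noncomputable def mob (ε : ℝ) (z : ℂ) : ℂ := (z + ε * I) / (1 - ε * I * z)

variable {ε : ℝ} {z : ℂ}

theorem one_le_den (hε : 0 ≤ ε) (hz : 0 ≤ z.im) : 1 ≤ ‖1 - ε * I * z‖ := by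
  refine le_trans ?_ (Complex.re_le_norm _)
  have : (1 - ε * I * z).re = 1 + ε * z.im := by simp
  rw [this]
  nlinarith [mul_nonneg hε hz]

theorem den_ne (hε : 0 ≤ ε) (hz : 0 ≤ z.im) : 1 - ε * I * z ≠ 0 := by
  intro h
  have := one_le_den hε hz
  rw [h, norm_zero] at this
  linarith

theorem mob_im (hε : 0 < ε) (hz : 0 ≤ z.im) : 0 < (mob ε z).im := by
  have h1 : 0 < normSq (1 - ε * I * z) := normSq_pos.2 (den_ne hε.le hz)
  rw [mob, Complex.div_im, ← sub_div]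
  refine div_pos ?_ h1
  have e : (z + ε * I).im * (1 - ε * I * z).re - (z + ε * I).re * (1 - ε * I * z).im =
      z.im + ε + ε * (z.re ^ 2 + z.im ^ 2) + ε ^ 2 * z.im := by
    simp
    ring
  rw [e]
  positivity

theorem mob_inj (hε : 0 < ε) (h1 : ε < 1) : InjOn (mob ε) {z | 0 ≤ z.im} := by
  intro z hz w hw h
  rw [mob, mob, div_eq_div_iff (den_ne hε.le hz) (den_ne hε.le hw)] at h
  have h2 : ((1 - ε ^ 2 : ℝ) : ℂ) * (z - w) = 0 := by
    push_cast
    linear_combination h - (ε : ℂ) ^ 2 * (z - w) * I_mul_I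
  rcases mul_eq_zero.1 h2 with h3 | h3
  · have : (1 - ε ^ 2 : ℝ) = 0 := by exact_mod_cast h3
    nlinarith
  · exact sub_eq_zero.1 h3

theorem mob_sub_inf (hε : 0 < ε) (hz : 0 ≤ z.im) :
    mob ε z - I / ε = ((ε ^ 2 - 1) / ε : ℝ) * I / (1 - ε * I * z) := by
  have h1 := den_ne hε.le hz
  have h2 : (ε : ℂ) ≠ 0 := by exact_mod_cast hε.ne'
  rw [mob, eq_div_iff h1, sub_mul, div_mul_cancel₀ _ h1]
  push_cast
  field_simp
  linear_combination (ε : ℂ) * z * I_mul_I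

theorem mob_ne (hε : 0 < ε) (h1 : ε < 1) (hz : 0 ≤ z.im) : mob ε z ≠ I / ε := by
  intro h
  have h2 := mob_sub_inf hε hz
  rw [h, sub_self, eq_comm, div_eq_zero_iff, mul_eq_zero] at h2
  rcases h2 with (h2 | h2) | h2
  · have h3 : (ε ^ 2 - 1) / ε = 0 := by exact_mod_cast h2
    rw [div_eq_zero_iff] at h3
    rcases h3 with h3 | h3 <;> nlinarith
  · exact I_ne_zero h2
  · exact den_ne hε.le hz h2

theorem mob_near (hε : 0 ≤ ε) (hz : 0 ≤ z.im) : ‖mob ε z - z‖ ≤ ε * (1 + ‖z‖ ^ 2) := by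
  have h1 := den_ne hε hz
  have e : mob ε z - z = ε * I * (1 + z ^ 2) / (1 - ε * I * z) := by
    rw [mob, eq_div_iff h1, sub_mul, div_mul_cancel₀ _ h1]
    ring
  rw [e, norm_div]
  refine (div_le_self (norm_nonneg _) (one_le_den hε hz)).trans ?_
  rw [norm_mul, norm_mul, Complex.norm_I, mul_one, Complex.norm_real, Real.norm_eq_abs,
    abs_of_nonneg hε]
  refine mul_le_mul_of_nonneg_left ((norm_add_le _ _).trans ?_) hε
  rw [norm_one, norm_pow]

theorem mob_big (hε : 0 ≤ ε) (hz : 0 ≤ z.im) {R : ℝ} (hR : 0 ≤ R) (h1 : ε * R ≤ 1 / 2)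
    (h2 : 2 * R ≤ ‖z‖) : R ≤ ‖mob ε z‖ := by
  have h3 : ‖z‖ ≤ ‖z + ε * I‖ := by
    rw [← sq_le_sq₀ (norm_nonneg _) (norm_nonneg _), ← normSq_eq_norm_sq, ← normSq_eq_norm_sq,
      normSq_apply, normSq_apply]
    simp
    nlinarith [mul_nonneg hε hz]
  have h4 : ‖1 - ε * I * z‖ ≤ 1 + ε * ‖z‖ := by
    refine (norm_sub_le _ _).trans ?_
    rw [norm_one, norm_mul, norm_mul, Complex.norm_I, mul_one, Complex.norm_real,
      Real.norm_eq_abs, abs_of_nonneg hε]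
  have h5 := one_le_den hε hz
  rw [mob, norm_div, le_div_iff₀ (by linarith)]
  have h6 : R * ‖1 - ε * I * z‖ ≤ R * (1 + ε * ‖z‖) := mul_le_mul_of_nonneg_left h4 hR
  nlinarith [norm_nonneg z]

theorem mob_diff (hε : 0 ≤ ε) : DifferentiableOn ℂ (mob ε) {z | 0 ≤ z.im} := by
  refine DifferentiableOn.div (by fun_prop) (by fun_prop) fun z hz => den_ne hε hz

theorem mob_tendsto (hε : 0 < ε) :
    Tendsto (mob ε) (Bornology.cobounded ℂ ⊓ 𝓟 {z | 0 ≤ z.im}) (𝓝 (I / ε)) := by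
  rw [tendsto_iff_norm_sub_tendsto_zero]
  have h1 : Tendsto (fun z : ℂ => ε * ‖z‖ - 1) (Bornology.cobounded ℂ ⊓ 𝓟 {z | 0 ≤ z.im})
      atTop :=
    (tendsto_atTop_add_const_right _ (-1)
      ((tendsto_norm_cobounded_atTop (E := ℂ)).const_mul_atTop hε)).mono_left inf_le_left
  have h2 : Tendsto (fun z : ℂ => ‖(1 : ℂ) - ε * I * z‖)
      (Bornology.cobounded ℂ ⊓ 𝓟 {z | 0 ≤ z.im}) atTop := by
    refine tendsto_atTop_mono (fun z => ?_) h1
    have := norm_sub_norm_le (ε * I * z) 1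
    rw [norm_one, norm_mul, norm_mul, Complex.norm_I, mul_one, Complex.norm_real,
      Real.norm_eq_abs, abs_of_pos hε, norm_sub_rev] at this
    exact this
  have h3 := (tendsto_const_nhds (x := ‖(((ε ^ 2 - 1) / ε : ℝ) : ℂ) * I‖)).div_atTop h2
  refine h3.congr' ?_
  filter_upwards [mem_inf_of_right (mem_principal_self _)] with z hz
  rw [mob_sub_inf hε hz, norm_div]

theorem inf_im (hε : 0 < ε) : 0 < (I / ε : ℂ).im := by
  rw [Complex.div_ofReal_im, I_im]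
  positivity

/-! ### The parametrization of the real line -/

/-- The properties of the parameter `θ` in `Param`. -/
structure Th (θ : ℝ → ℝ) : Prop where
  mL : StrictMonoOn θ (Ico 0 (1 / 2))
  iL : θ '' Ico 0 (1 / 2) = Ici 0
  mR : StrictMonoOn θ (Ioc (1 / 2) 1)
  iR : θ '' Ioc (1 / 2) 1 = Iic 0

variable {θ : ℝ → ℝ}

theorem Th.nonneg (h : Th θ) {t : ℝ} (ht : t ∈ Ico (0 : ℝ) (1 / 2)) : 0 ≤ θ t :=
  (h.iL ▸ mem_image_of_mem θ ht : θ t ∈ Ici 0)

theorem Th.nonpos (h : Th θ) {t : ℝ} (ht : t ∈ Ioc (1 / 2 : ℝ) 1) : θ t ≤ 0 :=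
  (h.iR ▸ mem_image_of_mem θ ht : θ t ∈ Iic 0)

theorem Th.zero (h : Th θ) : θ 0 = 0 := by
  have h0 : (0 : ℝ) ∈ Ico (0 : ℝ) (1 / 2) := ⟨le_rfl, by norm_num⟩
  obtain ⟨t, ht, e⟩ : (0 : ℝ) ∈ θ '' Ico 0 (1 / 2) := h.iL ▸ self_mem_Ici
  exact le_antisymm (e ▸ h.mL.monotoneOn h0 ht ht.1) (h.nonneg h0)

theorem Th.one (h : Th θ) : θ 1 = 0 := by
  have h0 : (1 : ℝ) ∈ Ioc (1 / 2 : ℝ) 1 := ⟨by norm_num, le_rfl⟩
  obtain ⟨t, ht, e⟩ : (0 : ℝ) ∈ θ '' Ioc (1 / 2) 1 := h.iR ▸ self_mem_Iic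
  exact le_antisymm (h.nonpos h0) (e ▸ h.mR.monotoneOn ht h0 ht.2)

theorem Th.inj (h : Th θ) {s t : ℝ} (hs : s ∈ Ico (0 : ℝ) 1) (ht : t ∈ Ico (0 : ℝ) 1)
    (hs' : s ≠ 1 / 2) (ht' : t ≠ 1 / 2) (e : θ s = θ t) : s = t := by
  have neg : ∀ u, 1 / 2 < u → u < 1 → θ u < 0 := fun u h1 h2 =>
    h.one ▸ h.mR ⟨h1, h2.le⟩ ⟨by norm_num, le_rfl⟩ h2
  rcases lt_or_gt_of_ne hs' with h1 | h1 <;> rcases lt_or_gt_of_ne ht' with h2 | h2
  · exact h.mL.injOn ⟨hs.1, h1⟩ ⟨ht.1, h2⟩ e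
  · linarith [h.nonneg ⟨hs.1, h1⟩, neg t h2 ht.2]
  · linarith [h.nonneg ⟨ht.1, h2⟩, neg s h1 hs.2]
  · exact h.mR.injOn ⟨h1, hs.2.le⟩ ⟨h2, ht.2.le⟩ e

/-! ### The Jordan subdomains -/

variable {D : Set ℂ} {ψ : ℂ → ℂ} {a b : ℂ} {s : ℝ} {β : ℝ → ℂ}

/-- The boundary curve of the subdomain. -/
noncomputable def bet (ψ : ℂ → ℂ) (s : ℝ) (θ : ℝ → ℝ) (ε t : ℝ) : ℂ :=
  if t = 1 / 2 then ψ (I / ε) else ψ (mob ε (s * θ t : ℝ))

theorem sub_param (hψ : IsConf D ψ) (hs : s = 1 ∨ s = -1) (hθ : Th θ) (hε : 0 < ε)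
    (h1 : ε < 1) :
    Param ((fun z => ψ (mob ε z)) '' {z | 0 < z.im}) (fun z => ψ (mob ε z)) s (bet ψ s θ ε) ∧
      Marked ((fun z => ψ (mob ε z)) '' {z | 0 < z.im}) (bet ψ s θ ε) := by
  have hm : MapsTo (mob ε) {z | 0 ≤ z.im} {z | 0 < z.im} := fun z hz => mob_im hε hz
  have hsub : {z : ℂ | 0 < z.im} ⊆ {z | 0 ≤ z.im} := fun z hz => le_of_lt (show 0 < z.im from hz)
  have hd : DifferentiableOn ℂ (fun z => ψ (mob ε z)) {z | 0 ≤ z.im} :=
    hψ.1.comp (mob_diff hε.le) hm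
  have hi : InjOn (fun z => ψ (mob ε z)) {z | 0 ≤ z.im} := hψ.2.injOn.comp (mob_inj hε h1) hm
  have b1 : bet ψ s θ ε (1 / 2) = ψ (I / ε) := if_pos rfl
  have b2 : ∀ t, t ≠ 1 / 2 → bet ψ s θ ε t = ψ (mob ε (s * θ t : ℝ)) := fun t ht => if_neg ht
  have hP : Param ((fun z => ψ (mob ε z)) '' {z | 0 < z.im}) (fun z => ψ (mob ε z)) s
      (bet ψ s θ ε) := by
    refine ⟨⟨hd.mono hsub, (hi.mono hsub).bijOn_image, hd.continuousOn, ?_, ?_⟩, hs, θ, hθ.mL,
      hθ.iL, hθ.mR, hθ.iR, fun t _ ht => b2 t ht⟩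
    · rw [b2 0 (by norm_num), hθ.zero, mul_zero, ofReal_zero]
    · rw [b1]
      exact (hψ.1.continuousOn.continuousAt
        ((isOpen_lt continuous_const continuous_im).mem_nhds (inf_im hε))).tendsto.comp
        (mob_tendsto hε)
  refine ⟨hP, hP.isConf.isOpen, hP.isConf.isConnected, hP.isBounded, hP.continuousOn, ?_,
    hP.one_eq, hP.frontier_eq⟩
  have hr : ∀ x : ℝ, 0 ≤ (x : ℂ).im := fun x => (ofReal_im x).ge
  have ne : ∀ x : ℝ, ψ (mob ε x) ≠ ψ (I / ε) := fun x h =>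
    mob_ne hε h1 (hr x) (hψ.2.injOn (mob_im hε (hr x)) (inf_im hε) h)
  intro t ht u hu e
  by_cases c1 : t = 1 / 2 <;> by_cases c2 : u = 1 / 2
  · rw [c1, c2]
  · rw [c1, b1, b2 u c2] at e
    exact absurd e.symm (ne _)
  · rw [c2, b1, b2 t c1] at e
    exact absurd e (ne _)
  · rw [b2 t c1, b2 u c2] at e
    have e2 : s * θ t = s * θ u := ofReal_injective (hi (hr _) (hr _) e)
    have hs0 : s ≠ 0 := by rcases hs with rfl | rfl <;> norm_num
    exact hθ.inj ht hu c1 c2 (mul_left_cancel₀ hs0 e2)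

theorem far (h : IsUnif D a b ψ) {η : ℝ} (hη : 0 < η) :
    ∃ R : ℝ, 0 < R ∧ ∀ z : ℂ, 0 ≤ z.im → R ≤ ‖z‖ → dist (ψ z) b < η := by
  have h1 := h.2.2.2.2.eventually (Metric.ball_mem_nhds b hη)
  rw [eventually_inf_principal] at h1
  obtain ⟨R, -, hR⟩ := (Metric.hasBasis_cobounded_compl_ball (0 : ℂ)).eventually_iff.1 h1
  refine ⟨max R 1, by positivity, fun z hz h2 => hR ?_ hz⟩
  rw [mem_compl_iff, mem_ball_zero_iff, not_lt]
  exact (le_max_left _ _).trans h2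

/-- The maps onto the subdomains are uniformly close to the map. -/
theorem close (h : IsUnif D a b ψ) {η : ℝ} (hη : 0 < η) :
    ∃ ε₀ > 0, ∀ ε : ℝ, 0 < ε → ε < ε₀ → dist (ψ (I / ε)) b < η ∧
      ∀ z : ℂ, 0 ≤ z.im → dist (ψ (mob ε z)) (ψ z) < η := by
  obtain ⟨R, hR, hfar⟩ := far h (half_pos hη)
  have hK : IsCompact ({z : ℂ | 0 ≤ z.im} ∩ Metric.closedBall 0 (2 * R + 1)) :=
    (isCompact_closedBall _ _).inter_left (isClosed_le continuous_const continuous_im)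
  obtain ⟨ρ, hρ, hu⟩ := Metric.uniformContinuousOn_iff.1
    (hK.uniformContinuousOn_of_continuous (h.2.2.1.mono inter_subset_left)) η hη
  have hc : 0 < 1 + (2 * R) ^ 2 := by positivity
  refine ⟨min (1 / (2 * R)) (min ρ 1 / (1 + (2 * R) ^ 2)), by positivity, fun ε hε hlt => ?_⟩
  have e1 : ε * (2 * R) < 1 := (lt_div_iff₀ (by positivity)).1 (hlt.trans_le (min_le_left _ _))
  have e2 : ε * (1 + (2 * R) ^ 2) < min ρ 1 :=
    (lt_div_iff₀ hc).1 (hlt.trans_le (min_le_right _ _))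
  refine ⟨(hfar _ (inf_im hε).le ?_).trans (half_lt_self hη), fun z hz => ?_⟩
  · rw [norm_div, norm_I, norm_real, Real.norm_eq_abs, abs_of_pos hε, le_div_iff₀ hε]
    nlinarith
  rcases le_total (2 * R) ‖z‖ with c | c
  · have f1 := hfar _ (mob_im hε hz).le (mob_big hε.le hz hR.le (by linarith) c)
    have f2 := hfar z hz (by linarith)
    linarith [dist_triangle_right (ψ (mob ε z)) (ψ z) b]
  · have f1 : ‖mob ε z - z‖ < min ρ 1 := by
      refine ((mob_near hε.le hz).trans ?_).trans_lt e2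
      gcongr
    refine hu _ ⟨(mob_im hε hz).le, ?_⟩ z ⟨hz, ?_⟩ ?_
    · rw [mem_closedBall_zero_iff]
      linarith [norm_le_norm_add_norm_sub' (mob ε z) z, min_le_right ρ 1]
    · rw [mem_closedBall_zero_iff]
      linarith
    · rw [dist_eq_norm]
      exact f1.trans_le (min_le_left _ _)

/-- The maps onto the subdomains are locally uniformly close to the map. -/
theorem close_loc (h : IsConf D ψ) {x : ℂ} (hx : 0 < x.im) {η : ℝ} (hη : 0 < η) :
    ∃ ε₀ > 0, ∃ r > 0, ∀ ε, 0 < ε → ε < ε₀ →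
      ∀ z : ℂ, 0 < z.im → dist z x < r → dist (ψ z) (ψ (mob ε z)) < η := by
  obtain ⟨ρ, hρ, hu⟩ := Metric.continuousAt_iff.1 (h.1.continuousOn.continuousAt
    ((isOpen_lt continuous_const continuous_im).mem_nhds hx)) (η / 2) (half_pos hη)
  have hc : 0 < 1 + (‖x‖ + ρ) ^ 2 := by positivity
  refine ⟨ρ / 2 / (1 + (‖x‖ + ρ) ^ 2), by positivity, ρ / 2, half_pos hρ,
    fun ε hε hlt z hz hd => ?_⟩
  have e2 : ε * (1 + (‖x‖ + ρ) ^ 2) < ρ / 2 := (lt_div_iff₀ hc).1 hlt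
  have f0 : ‖z‖ ≤ ‖x‖ + ρ := by
    rw [dist_eq_norm] at hd
    linarith [norm_le_norm_add_norm_sub' z x]
  have f1 : dist (mob ε z) z < ρ / 2 := by
    rw [dist_eq_norm]
    refine ((mob_near hε.le hz.le).trans ?_).trans_lt e2
    gcongr
  have f2 := hu (show dist z x < ρ by linarith)
  have f3 := hu (show dist (mob ε z) x < ρ by linarith [dist_triangle (mob ε z) z x])
  linarith [dist_triangle_right (ψ z) (ψ (mob ε z)) (ψ x)]

/-! ### Part (5): uniform approximations -/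

theorem appr_exists (hA : HasApprox) : ∀ D ψ s β, Param D ψ s β →
    ∀ δ : ℕ → ℝ, (∀ n, 0 < δ n) → Tendsto δ atTop (𝓝 0) →
      ∃ (N k : ℕ → ℕ) (p : ∀ n, ZMod (N n) → ℤ × ℤ) (S : ℕ → Finset (Finset (ℤ × ℤ))),
        Approximates β δ N k p S := by
  intro D ψ s β h δ h1 h2
  have hψ := h.isConf
  obtain ⟨hU, hs, θ, m1, i1, m2, i2, hβ⟩ := h
  have hθ : Th θ := ⟨m1, i1, m2, i2⟩
  choose N k p S hS using fun j : ℕ =>
    (hA _ _ (sub_param hψ hs hθ (eps_pos j) (eps_lt j)).2).2 δ h1 h2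
  obtain ⟨J, hJ, hQ⟩ := diag fun j => (hS j).2.2 _ (eps_pos j)
  refine ⟨fun n => N (J n) n, fun n => k (J n) n, fun n => p (J n) n, fun n => S (J n) n,
    fun n => (hS (J n)).1 n, h2, fun η hη => ?_⟩
  obtain ⟨ε₀, hε₀, hc⟩ := close hU (half_pos hη)
  filter_upwards [hQ, small hJ hε₀, small hJ (half_pos hη)] with n ⟨τ, t1, t2, t3, t4, t5, t6⟩
    c1 c2
  refine ⟨τ, t1, t2, t3, t4, t5, fun t ht => ?_⟩
  obtain ⟨c3, c4⟩ := hc _ (eps_pos (J n)) c1
  have c5 : dist (bet ψ s θ (1 / ((J n : ℝ) + 2)) t) (β t) < η / 2 := by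
    by_cases c : t = 1 / 2
    · rw [c, bet, if_pos rfl]
      exact c3
    · rw [bet, if_neg c, hβ t ht c]
      exact c4 _ (ofReal_im _).ge
  linarith [t6 t ht, dist_triangle (δ n * curve (p (J n) n) (τ t))
    (bet ψ s θ (1 / ((J n : ℝ) + 2)) t) (β t)]

/-! ### The convergence in the sense of Carathéodory -/

theorem int_region {S : Finset (Finset (ℤ × ℤ))} (hS : Tris S) (δ : ℝ) :
    Final.toC '' interior (Final.region δ (old S)) = interior (region δ S) := by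
  have h1 : region δ S = P153.H212.e.symm.toHomeomorph '' Final.region δ (old S) := by
    ext z
    rw [P153.H212.mem_region hS]
    exact ⟨fun h => ⟨_, h, P153.H212.e.symm_apply_apply z⟩, fun ⟨w, hw, he⟩ => by
      rw [← he]
      exact (P153.H212.e.apply_symm_apply w).symm ▸ hw⟩
  rw [h1, ← Homeomorph.image_interior]
  rfl

theorem unif_of {n k : ℕ} {p : ZMod n → ℤ × ℤ} {S : Finset (Finset (ℤ × ℤ))} {δ : ℝ}
    (hE : Encloses p S) (h : UNIQ.IsUnifD p k (old S) δ ψ) :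
    IsUnif (interior (region δ S)) (δ * curve p (-1 / 2)) (δ * curve p (k - 1 / 2)) ψ := by
  have e1 : Final.mid δ (p (-1)) (p 0) = δ * curve p (-1 / 2) := by
    rw [P153.H212.curve_start, P153.H212.mid_eq]
  have e2 : UNIQ.bptD p k δ = δ * curve p (k - 1 / 2) := by
    rw [P153.H212.curve_end, UNIQ.bptD, P153.H212.mid_eq]
  have hi : InjOn ψ {z | 0 < z.im} := h.injOn.mono fun z hz => le_of_lt (show 0 < z.im from hz)
  refine ⟨h.diff, ?_, h.cont, h.zero.trans e1, e2 ▸ h.inf⟩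
  rw [← int_region (P153.H212.tris_of hE) δ, ← h.image]
  exact hi.bijOn_image

theorem tri_int {A B C : ℂ} {d : ℝ} (hd : 0 < d) (h1 : dist A B = d) (h2 : dist B C = d)
    (h3 : dist C A = d) : (interior (convexHull ℝ ({A, B, C} : Set ℂ))).Nonempty := by
  have h4 : AffineIndependent ℝ ![A, B, C] := by
    rw [affineIndependent_iff_not_collinear_set]
    intro h
    rcases h.wbtw_or_wbtw_or_wbtw with h | h | h <;> have := h.dist_add_dist <;>
      linarith [dist_comm A B, dist_comm B C, dist_comm C A]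
  rw [interior_convexHull_nonempty_iff_affineSpan_eq_top]
  have h5 := h4.affineSpan_eq_top_iff_card_eq_finrank_add_one.2 (by simp)
  rwa [Matrix.range_cons, Matrix.range_cons, Matrix.range_cons_empty, singleton_union,
    singleton_union] at h5

theorem region_sub {S : Finset (Finset (ℤ × ℤ))} (hS : Tris S) {δ : ℝ} (hδ : 0 < δ) :
    region δ S ⊆ closure (interior (region δ S)) := by
  classical
  refine iUnion₂_subset fun t ht => ?_
  obtain ⟨h3, hp⟩ := hS t ht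
  have hn : (interior (convexHull ℝ ((fun v => δ * pt v) '' (t : Set (ℤ × ℤ))))).Nonempty := by
    obtain ⟨x, y, z, xy, xz, yz, rfl⟩ := Finset.card_eq_three.1 h3
    have hd : ∀ v w, Adj v w → dist (δ * pt v) (δ * pt w) = δ := fun v w h => by
      have h' : dist (pt v) (pt w) = 1 := h
      rw [dist_eq_norm] at h' ⊢
      rw [← mul_sub, norm_mul, h', mul_one, norm_real, Real.norm_eq_abs, abs_of_pos hδ]
    rw [Finset.coe_insert, Finset.coe_pair] at hp ⊢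
    rw [image_insert_eq, image_pair]
    exact tri_int hδ (hd _ _ (hp (by simp) (by simp) xy)) (hd _ _ (hp (by simp) (by simp) yz))
      (hd _ _ (hp (by simp) (by simp) xz.symm))
  refine subset_closure.trans ?_
  rw [← (convex_convexHull ℝ _).closure_interior_eq_closure_of_nonempty_interior hn]
  exact closure_mono (interior_mono (subset_iUnion₂_of_subset t ht Subset.rfl))

theorem cara_mk {δ : ℕ → ℝ} {N k : ℕ → ℕ} {p : ∀ n, ZMod (N n) → ℤ × ℤ}
    {S : ℕ → Finset (Finset (ℤ × ℤ))} {ψn : ℕ → ℂ → ℂ} {R : ℝ}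
    (h1 : ∀ n, 0 < δ n ∧ 0 < k n ∧ k n < N n ∧ Encloses (p n) (S n))
    (h2 : Tendsto δ atTop (𝓝 0)) (h3 : ∀ n, UNIQ.IsUnifD (p n) (k n) (old (S n)) (δ n) (ψn n))
    (h4 : ∀ᶠ n in atTop, ∀ z : ℂ, 0 < z.im → ‖ψn n z‖ ≤ R)
    (h5 : ∀ᶠ n in atTop, ∃ x : ℝ, 0 < s * x ∧ ψn n x = δ n * pt (p n 0))
    (h6 : TendstoLocallyUniformlyOn ψn ψ atTop {z | 0 < z.im}) : Cara ψ s δ N k p S := by
  have hU := fun n => unif_of (h1 n).2.2.2 (h3 n)
  have hR := fun n => region_sub (P153.H212.tris_of (h1 n).2.2.2) (h1 n).1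
  refine ⟨h1, h2, ?_, ψn, hU, h5, h6⟩
  obtain ⟨m, hm⟩ := eventually_atTop.1 h4
  have hb : Bornology.IsBounded (Metric.closedBall (0 : ℂ) R ∪ ⋃ n ∈ Iio m, region (δ n) (S n)) :=
    Metric.isBounded_closedBall.union ((Bornology.isBounded_biUnion (finite_Iio m)).2
      fun n _ => (isUnif_iff.1 (hU n)).toDisc.isBounded.closure.subset (hR n))
  obtain ⟨R', hR'⟩ := hb.subset_closedBall 0
  refine ⟨R', fun n => Subset.trans ?_ hR'⟩
  rcases lt_or_ge n m with c | c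
  · exact (subset_biUnion_of_mem (u := fun n => region (δ n) (S n)) (mem_Iio.2 c)).trans
      subset_union_right
  · refine ((hR n).trans (closure_minimal ?_ Metric.isClosed_closedBall)).trans subset_union_left
    rw [← (hU n).2.1.image_eq]
    rintro _ ⟨z, hz, rfl⟩
    exact mem_closedBall_zero_iff.2 (hm n c z hz)

theorem norm_le_of {w w' : ℂ} {R : ℝ} (h : w' ∈ Metric.closedBall (0 : ℂ) R) (hd : dist w w' < 1) :
    ‖w‖ ≤ R + 1 := by
  rw [dist_eq_norm] at hd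
  linarith [norm_le_norm_add_norm_sub' w w', mem_closedBall_zero_iff.1 h]

/-- **Part (6)**. -/
theorem cara_of (hR : RADO) : ∀ D ψ s β, Param D ψ s β →
    ∀ (δ : ℕ → ℝ) (N k : ℕ → ℕ) (p : ∀ n, ZMod (N n) → ℤ × ℤ)
      (S : ℕ → Finset (Finset (ℤ × ℤ))), Approximates β δ N k p S → Cara ψ s δ N k p S := by
  intro D ψ s β h δ N k p S hS
  obtain ⟨ψn, h1, h2, h3⟩ := hR D ψ s β h δ N k p S hS
  obtain ⟨R, hb⟩ := h.isBounded.subset_closedBall 0
  refine cara_mk (R := R + 1) hS.1 hS.2.1 h1 ?_ h3 ?_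
  · filter_upwards [h2 1 one_pos] with n hn z hz
    exact norm_le_of (hb (h.1.2.1.mapsTo hz)) (hn z hz.le)
  · refine Metric.tendstoLocallyUniformlyOn_iff.2 fun η hη x _ => ⟨_, self_mem_nhdsWithin, ?_⟩
    filter_upwards [h2 η hη] with n hn z hz
    rw [dist_comm]
    exact hn z (le_of_lt hz)

/-- **Part (2)**. -/
theorem exc (hA : HasApprox) (hR : RADO) : EXC := by
  intro D ψ hψ hb s hs δ h1 h2
  have hθ : Th th0 := ⟨th0_mono1, th0_img1, th0_mono2, th0_img2⟩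
  have hP := fun j : ℕ => sub_param hψ hs hθ (eps_pos j) (eps_lt j)
  choose N k p S hS using fun j : ℕ => (hA _ _ (hP j).2).2 δ h1 h2
  choose ψn u1 u2 u3 using fun j : ℕ => hR _ _ _ _ (hP j).1 δ _ _ _ _ (hS j)
  obtain ⟨J, hJ, hQ⟩ := diag fun j => (u2 j _ (eps_pos j)).and (u3 j)
  obtain ⟨R, hb⟩ := hb.subset_closedBall 0
  refine ⟨fun n => N (J n) n, fun n => k (J n) n, fun n => p (J n) n, fun n => S (J n) n,
    cara_mk (ψn := fun n => ψn (J n) n) (R := R + 1) (fun n => (hS (J n)).1 n) h2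
      (fun n => u1 (J n) n) ?_ (hQ.mono fun n hn => hn.2) ?_⟩
  · filter_upwards [hQ] with n hn z hz
    exact norm_le_of (hb (hψ.2.mapsTo (mob_im (eps_pos _) hz.le)))
      ((hn.1 z hz.le).trans (eps_lt _))
  · refine Metric.tendstoLocallyUniformlyOn_iff.2 fun η hη x hx => ?_
    obtain ⟨ε₀, hε₀, r, hr, hc⟩ := close_loc hψ hx (half_pos hη)
    refine ⟨_, inter_mem_nhdsWithin _ (Metric.ball_mem_nhds x hr), ?_⟩
    filter_upwards [hQ, small hJ hε₀, small hJ (half_pos hη)] with n hn c1 c2 z hz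
    have c3 := hc _ (eps_pos (J n)) c1 z hz.1 hz.2
    have c4 := hn.1 z (le_of_lt hz.1)
    linarith [dist_triangle_right (ψ z) (ψn (J n) n z) (ψ (mob (1 / ((J n : ℝ) + 2)) z))]

theorem domains (hA : HasApprox) (hR : RADO) : Domains :=
  ⟨dom1, exc hA hR, dom3, dom4, fun D ψ s β h =>
    ⟨appr_exists hA D ψ s β h, cara_of hR D ψ s β h⟩⟩

end Vale.Agent.N153.Dom2
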