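import Vale.Agent.N153.Cut

/-!
N153, the curve: after a visit of a small neighbourhood of the end point (in the disc) the
interface does not return.
-/

set_option autoImplicit false
set_option linter.unusedVariables false

namespace Vale.Agent.N153.En

open Filter Topology Set Metric
open Vale.Agent.P153 Vale.Agent.P153.R2
open Vale.Agent.P153.Topo (Conn adj_symm)
open Vale.Agent.P153.R2.Final (IsPolygon Encloses Heights law)
open Vale.Agent.P153.R2.INTF (CA CA_finite eta eta_or Arcs PP Face St Good)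
open Vale.Agent.P153.R2.LOC (An Co Co_subset Co_step Co_mono Wdn Wdn_subset NO TW multW_hi ds
  mem_An_iff mem_bx_iff ds_adj fib_exa)
open Vale.Agent.P153.R2.PLAN (Cl_subset)
open Vale.Agent.P153.R2.OBSV (CA_nonempty sw)
open Vale.Agent.P153.R2.FLDI (inn)
open Vale.Agent.P153.R2.DRV (ru nu st Cs Mn Pn bk bk_mem)
open Vale.Agent.P153.R2.SLEX (Eh Ch D1 D2 DD D1_congr D2_congr DD_congr cc_V low_ebd wall_neg
  Cl_step Ev TchE Nb Stp.nb nx_stp exists_crossing run_ev ru_mem sw_Pr law_real_Cs)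

/-- Four crosscuts around a boundary point: `Q₁ < Q₁' < Q₂' < Q₂`. -/
structure Four (F : Set Pt) (x₀ p₁ p₂ : Pt) (Q₁ Q₁' Q₂' Q₂ : Set Pt) (ρ₁ R₁ ρ R ρ₂ R₂ : ℤ) :
    Prop where
  x0 : x₀ ∉ F
  s1 : Q₁ ⊆ F
  s1' : Q₁' ⊆ F
  s2' : Q₂' ⊆ F
  s2 : Q₂ ⊆ F
  c1 : Cn Q₁
  c1' : Cn Q₁'
  c2' : Cn Q₂'
  c2 : Cn Q₂
  m1 : p₁ ∈ Q₁
  w1 : NO F p₁
  m2' : p₂ ∈ Q₂'
  w2' : NO F p₂
  b1 : Q₁ ⊆ bx x₀ ρ₁
  d1 : Disjoint Q₁' (Co F x₀ R₁ p₁)
  g1 : ∀ q ∈ Q₁, ∀ v, Conn (F \ Q₁') q v → v ∈ bx x₀ (ρ - 2)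
  g2 : ∀ q ∈ Q₂, ∀ v, Conn (F \ Q₂') q v → v ∉ Co F x₀ (R + 2) p₁
  b2' : Q₂' ⊆ bx x₀ ρ₂
  d2 : Disjoint Q₂ (Co F x₀ R₂ p₂)

/-- No high path between two crosscuts. -/
theorem high_small (hS : LOC.S_land 2) : ∀ ε : ℝ, 0 < ε → ∃ t : ℤ, 1 ≤ t ∧ ∃ ρ₀ : ℤ, 1 ≤ ρ₀ ∧
    ∀ (F P M : Set Pt) (x₀ p : Pt) (ρ R : ℤ) (N Q : Set Pt), Arcs F P M → x₀ ∉ F → ρ₀ ≤ ρ →
      t * ρ ≤ R → N ⊆ F → Q ⊆ F → Cn N → Cn Q → p ∈ N → NO F p → N ⊆ bx x₀ ρ →
      Disjoint Q (Co F x₀ R p) →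
      Pr (CA F M) {h | ∃ x ∈ N, ∃ y ∈ Q, Conn (F ∩ up h 3) x y} ≤ ε := by
  intro ε hε
  obtain ⟨t, ht, ρ₀, hρ₀, H⟩ := multW_hi 0 hS ε hε
  refine ⟨t, ht, ρ₀, hρ₀, ?_⟩
  intro F P M x₀ p ρ R N Q hA hx₀ hρ hR hNF hQF hN hQ hp hpn hNb hQb
  have hle : ∀ z, eta M z ≤ 1 := fun z => by
    rcases eta_or M z with h | h <;> rw [h] <;> norm_num
  have key := H 1 F F x₀ ρ R p (eta M) N Q odd_one
    ⟨hA.fin, hA.cc, subset_rfl, CA_nonempty F M, fun x hx _ => (Co_subset hx).1⟩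
    (fun z _ => by have := hle z; push_cast; omega) (fun z _ x _ _ _ => hle z) hx₀ hρ hR hpn hp hNF
    hNb (fun x hx => hN p hp x hx) hQF hQb hQ
  refine (Pr_mono fun h _ hh => ?_).trans key
  obtain ⟨x, hx, y, hy, hxy⟩ := hh
  refine ⟨x, hx, y, hy, hxy.mono ?_⟩
  intro z hz
  refine ⟨hz.1, fun hc => ?_⟩
  have h1 : h z ≤ 1 := (Wdn_subset hc).2
  have h2 : 3 ≤ h z := hz.2
  omega

/-- The first set stays away from the annulus. -/
def Gd (F : Set Pt) (x₀ p : Pt) (ρ R : ℤ) (D : Set Pt) : Prop :=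
  ∀ x ∈ D, x ∈ bx x₀ (ρ - 1) ∨ x ∉ Co F x₀ (R + 1) p

/-- **The crossing which is not attached to the positive wall.** -/
theorem end_plus (hS : LOC.S_land 2) : ∀ ε : ℝ, 0 < ε → ∃ t : ℤ, 1 ≤ t ∧ ∃ ρ₀ : ℤ, 1 ≤ ρ₀ ∧
    ∀ (F P M : Set Pt) (x₀ p p₂ : Pt) (Q₁ Q₁' Q₂' Q₂ : Set Pt) (ρ₁ R₁ ρ R ρ₂ R₂ : ℤ), Arcs F P M →
      Four F x₀ p p₂ Q₁ Q₁' Q₂' Q₂ ρ₁ R₁ ρ R ρ₂ R₂ → ρ₀ ≤ ρ₁ → t * ρ₁ ≤ R₁ → ρ₀ ≤ ρ → t * ρ ≤ R →
      ρ₀ ≤ ρ₂ → t * ρ₂ ≤ R₂ →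
      Pr (CA F M) {h | ∃ x ∈ Q₁, ∃ y ∈ Q₂,
        Conn ((F ∩ up h 1) \ Eh F P (Q₁ ∪ Q₂) h ∪ Q₁ ∪ Q₂) x y} ≤ ε := by
  classical
  intro ε hε
  obtain ⟨t₁, ht₁, r₁, hr₁, H₁⟩ := high_small hS (ε / 3) (by positivity)
  obtain ⟨t₂, ht₂, r₂, hr₂, H₂⟩ := multW_hi 0 hS (ε / 3) (by positivity)
  refine ⟨2 * max t₁ t₂, by
    have := le_max_left t₁ t₂
    omega, max r₁ r₂ + 2, by
    have := le_max_left r₁ r₂
    omega, ?_⟩
  intro F P M x₀ p p₂ Q₁ Q₁' Q₂' Q₂ ρ₁ R₁ ρ R ρ₂ R₂ hA hF hρ₁ hR₁ hρ hR hρ₂ hR₂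
  have m1 := le_max_left r₁ r₂
  have m2 := le_max_right r₁ r₂
  have m3 : t₁ ≤ max t₁ t₂ := le_max_left t₁ t₂
  have m4 : t₂ ≤ max t₁ t₂ := le_max_right t₁ t₂
  have hbx : ∀ {v : Pt} {a b : ℤ}, v ∈ bx x₀ a → a ≤ b → v ∈ bx x₀ b := by
    intro v a b hv hab
    rw [mem_bx_iff] at hv ⊢
    omega
  have k1 := H₁ F P M x₀ p ρ₁ R₁ Q₁ Q₁' hA hF.x0 (by omega) (by nlinarith) hF.s1 hF.s1' hF.c1 hF.c1'
    hF.m1 hF.w1 hF.b1 hF.d1
  have k2 := H₁ F P M x₀ p₂ ρ₂ R₂ Q₂' Q₂ hA hF.x0 (by omega) (by nlinarith) hF.s2' hF.s2 hF.c2' hF.c2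
    hF.m2' hF.w2' hF.b2' hF.d2
  set Q := Q₁ ∪ Q₂ with hQ
  have hQF : Q ⊆ F := union_subset hF.s1 hF.s2
  set S := CA F M with hSd
  have hfin : S.Finite := CA_finite hA.fin
  set A : Set UNIQ.Hg := {h | ∃ x ∈ Q₁, ∃ y ∈ Q₂, Conn ((F ∩ up h 1) \ Eh F P Q h ∪ Q₁ ∪ Q₂) x y} with hAd
  set B₁ : Set UNIQ.Hg := {h | ∃ x ∈ Q₁, ∃ y ∈ Q₁', Conn (F ∩ up h 3) x y} with hB₁
  set B₂ : Set UNIQ.Hg := {h | ∃ x ∈ Q₂', ∃ y ∈ Q₂, Conn (F ∩ up h 3) x y} with hB₂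
  set G : Set UNIQ.Hg := {h | Gd F x₀ p ρ R (D1 F Q h)} with hG
  have hd1 : Disjoint Q₁ Q₁' := by
    refine Set.disjoint_left.2 fun x hx hx' => Set.disjoint_left.1 hF.d1 hx'
      (Conn.mono (fun y hy => mem_inter (hF.s1 hy) (hbx (hF.b1 hy) ?_)) (hF.c1 p hF.m1 x hx))
    nlinarith
  have hd2 : Disjoint Q₂ Q₂' := by
    refine Set.disjoint_left.2 fun x hx hx' => Set.disjoint_left.1 hF.d2 hx
      (Conn.mono (fun y hy => mem_inter (hF.s2' hy) (hbx (hF.b2' hy) ?_)) (hF.c2' p₂ hF.m2' x hx'))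
    nlinarith
  have hgood : ∀ h, h ∉ B₁ → h ∉ B₂ → h ∈ G := by
    intro h hb1 hb2
    have hC : ∀ x ∈ Ch F Q h, x ∈ bx x₀ (ρ - 2) ∨ x ∉ Co F x₀ (R + 2) p := by
      rintro x ⟨q, hq, hqx⟩
      rcases hq with hq | hq
      · left
        refine hF.g1 q hq x ?_
        refine Conn.ind (S := F ∩ up h 3) (fun x => Conn (F \ Q₁') q x)
          (Conn.refl ⟨hF.s1 hq, fun hc => Set.disjoint_left.1 hd1 hq hc⟩) ?_ hqx
        intro u v hu huv hv ih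
        exact ih.tail huv ⟨hv.1, fun hc => hb1 ⟨q, hq, v, hc, hu.tail huv hv⟩⟩
      · right
        refine hF.g2 q hq x ?_
        refine Conn.ind (S := F ∩ up h 3) (fun x => Conn (F \ Q₂') q x)
          (Conn.refl ⟨hF.s2 hq, fun hc => Set.disjoint_left.1 hd2 hq hc⟩) ?_ hqx
        intro u v hu huv hv ih
        exact ih.tail huv ⟨hv.1, fun hc => hb2 ⟨v, hc, q, hq, (hu.tail huv hv).symm⟩⟩
    have hC' : ∀ x ∈ Ch F Q h, ∀ y, Adj x y → y ∈ bx x₀ (ρ - 1) ∨ y ∉ Co F x₀ (R + 1) p := by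
      intro x hx y hxy
      have h1 := ds_adj (x₀ := x₀) hxy
      rw [abs_le] at h1
      rcases hC x hx with h2 | h2
      · left
        rw [mem_bx_iff] at h2 ⊢
        omega
      · right
        refine fun hc => h2 (Co_step (Co_mono (by omega) hc) (adj_symm hxy) (Cl_subset hx).1 ?_)
        have h3 := (Co_subset hc).2
        rw [mem_bx_iff] at h3 ⊢
        omega
    rintro x (hx | ⟨hxF, hx | ⟨y, hy, hyx⟩⟩)
    · rcases hx with hx | hx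
      · left
        exact hbx (hF.g1 x hx x (Conn.refl ⟨hF.s1 hx, fun hc => Set.disjoint_left.1 hd1 hx hc⟩))
          (by omega)
      · right
        intro hc
        exact hF.g2 x hx x (Conn.refl ⟨hF.s2 hx, fun hc => Set.disjoint_left.1 hd2 hx hc⟩)
          (Co_mono (by omega) hc)
    · rcases hC x hx with h2 | h2
      · exact Or.inl (hbx h2 (by omega))
      · exact Or.inr fun hc => h2 (Co_mono (by omega) hc)
    · exact hC' y hy x hyx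
  have key := Pr_le_of_fiber hfin (fun h : UNIQ.Hg => (DD F P Q h, fun x => if x ∈ DD F P Q h then h x
    else 0)) A G (c := ε / 3) ?_ ?_
  · have hle : Pr S G ≤ 1 := Pr_le_one _ _
    have h5 : Pr S A ≤ Pr S (B₁ ∪ (B₂ ∪ (G ∩ A))) := by
      refine Pr_mono fun h _ hh => ?_
      by_cases h6 : h ∈ B₁
      · exact Or.inl h6
      · by_cases h7 : h ∈ B₂
        · exact Or.inr (Or.inl h7)
        · exact Or.inr (Or.inr ⟨hgood h h6 h7, hh⟩)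
    have h6 := Pr_union_le S B₁ (B₂ ∪ (G ∩ A))
    have h7 := Pr_union_le S B₂ (G ∩ A)
    have h8 : ε / 3 * Pr S G ≤ ε / 3 := by
      have := Pr_nonneg S G
      nlinarith
    linarith
  · intro a ha b hb hab
    rw [Prod.mk.injEq] at hab
    have h1 : D1 F Q a = D1 F Q b := by
      refine D1_congr hQF fun x hx => ?_
      have h2 := congrFun hab.2 x
      have h3 : x ∈ DD F P Q b := Or.inl hx
      rw [if_pos (hab.1 ▸ h3), if_pos h3] at h2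
      exact h2
    simp only [hG, mem_ofPred_eq, h1]
  · intro h hh hhG
    have e : S ∩ {b | ((DD F P Q b, fun x => if x ∈ DD F P Q b then b x else 0) : Set Pt × UNIQ.Hg) =
        (DD F P Q h, fun x => if x ∈ DD F P Q h then h x else 0)} =
        Cfg (F \ DD F P Q h) (exa (F \ DD F P Q h) h) := by
      have e1 := fib_exa (F := F) (η := eta M) (h := h) hh (DD F P Q h)
      rw [← e1]
      ext g
      refine and_congr_right fun hg => ?_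
      rw [mem_ofPred_eq, mem_ofPred_eq, Prod.mk.injEq]
      constructor
      · rintro ⟨h1, h2⟩ x hx
        have h3 := congrFun h2 x
        rw [if_pos (h1 ▸ hx), if_pos hx] at h3
        exact h3
      · intro h1
        have h2 := DD_congr (P := P) hQF h1
        refine ⟨h2, funext fun x => ?_⟩
        rw [h2]
        split_ifs with h3
        · exact h1 x h3
        · rfl
    rw [e]
    have hV : F \ DD F P Q h ⊆ F \ D2 F P Q h := fun x hx => ⟨hx.1, fun hc => hx.2 (Or.inr hc)⟩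
    have hQV : Q ⊆ F \ D2 F P Q h := fun x hx => ⟨hQF hx, fun hc => hc.1.2 (Or.inl hx)⟩
    have hGh : Gd F x₀ p ρ R (D1 F Q h) := hhG
    have hp := hF.m1
    have hpn := hF.w1
    have hCo : Co (F \ D2 F P Q h) x₀ R p ⊆ Co F x₀ R p := fun x hx =>
      Conn.mono (fun y hy => (⟨hy.1.1, hy.2⟩ : y ∈ F ∩ bx x₀ R)) hx
    have hb1 : Q₁ ⊆ bx x₀ (ρ - 2) := fun x hx =>
      hF.g1 x hx x (Conn.refl ⟨hF.s1 hx, fun hc => Set.disjoint_left.1 hd1 hx hc⟩)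
    have hb2 : ∀ x ∈ Q₂, x ∉ Co F x₀ (R + 2) p := fun x hx =>
      hF.g2 x hx x (Conn.refl ⟨hF.s2 hx, fun hc => Set.disjoint_left.1 hd2 hx hc⟩)
    have hDr : ∀ x ∈ D1 F Q h, x ∈ Co F x₀ R p → x ∈ bx x₀ (ρ - 1) := by
      intro x hx hxR
      rcases hGh x hx with h1 | h1
      · exact h1
      · exact absurd (Co_mono (by omega) hxR) h1
    have k3 := H₂ (-1) (F \ D2 F P Q h) (F \ DD F P Q h) x₀ (ρ + 1) R p h Q₁ Q₂ (by decide)
      ⟨hA.fin.subset sdiff_subset, cc_V hA.cc hA.dFP, hV, ⟨h, ?_⟩, ?_⟩ ?_ ?_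
      (fun hc => hF.x0 hc.1) (by omega) (by nlinarith) ⟨hQV (Or.inl hp), ?_⟩ hp
      (fun x hx => hQV (Or.inl hx)) (fun x hx => hbx (hb1 hx) (by omega))
      (fun x hx => hF.c1 p hp x hx) (fun x hx => hQV (Or.inr hx)) ?_ hF.c2
    · refine (Pr_mono fun g hg hh => ?_).trans k3
      obtain ⟨x, hx, y, hy, hxy⟩ := hh
      refine ⟨x, hx, y, hy, hxy.mono ?_⟩
      have hgh : ∀ x ∈ DD F P Q h, g x = h x := fun x hx =>
        LOC.Cfg.eq_out hg fun hc => hc.2 hx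
      have e1 : D1 F Q g = D1 F Q h := D1_congr hQF fun x hx => hgh x (Or.inl hx)
      have e2 : D2 F P Q g = D2 F P Q h := D2_congr e1 fun x hx => hgh x (Or.inr hx)
      rintro z ((⟨⟨hzF, hz1⟩, hzE⟩ | hz) | hz)
      · have hz1' : 1 ≤ g z := hz1
        refine ⟨⟨hzF, fun hc => ?_⟩, fun hc => ?_⟩
        · rw [← e2] at hc
          refine hzE ?_
          have hzS : z ∈ (F \ D1 F Q g) ∩ up g 1 := ⟨hc.1, hz1⟩
          have h4 : z ∈ Eh F P (D1 F Q g) g := by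
            rcases hc.2 with h4 | ⟨y, hy, hyz⟩ | ⟨w, hw, hwz⟩
            · exact h4
            · exact Cl_step hy hyz hzS
            · exact ⟨z, ⟨w, hw, hwz⟩, Conn.refl hzS⟩
          obtain ⟨a, ha, haz⟩ := h4
          refine ⟨a, ha, haz.mono ?_⟩
          intro u hu
          exact ⟨⟨hu.1.1, fun hc => hu.1.2 (Or.inl hc)⟩, hu.2⟩
        · have h5 : g z ≤ -1 := (Wdn_subset hc).2
          omega
      · refine ⟨hQV (Or.inl hz), fun hc => ?_⟩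
        have h5 := mem_An_iff.1 (Wdn_subset hc).1.2
        have h6 := mem_bx_iff.1 (hb1 hz)
        omega
      · refine ⟨hQV (Or.inr hz), fun hc => ?_⟩
        exact hb2 z hz (Co_mono (by omega) (hCo (Wdn_subset hc).1.1))
    · have e1 := fib_exa (F := F) (η := eta M) (h := h) hh (DD F P Q h)
      rw [← e1]
      exact ⟨hh, fun _ _ => rfl⟩
    · intro x hx hxρ
      have h1 := Co_subset hx
      refine ⟨h1.1.1, ?_⟩
      rintro (hc | hc)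
      · have h2 := hDr x hc (hCo hx)
        rw [mem_bx_iff] at h2
        omega
      · exact h1.1.2 hc
    · intro z hz
      have := low_ebd hA hQF hh hz
      push_cast
      omega
    · intro z hz x hx hxz hzρ
      have h1 := Co_subset hx
      refine wall_neg hA hh hz h1.1 (fun hc => ?_) hxz
      have h2 := hDr x hc (hCo hx)
      have h3 := ds_adj (x₀ := x₀) hxz
      rw [mem_bx_iff] at h2
      rw [abs_le] at h3
      omega
    · obtain ⟨y, hy1, hy2⟩ := hpn.2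
      exact ⟨y, hy1, fun hc => hy2 hc.1⟩
    · refine Set.disjoint_left.2 fun x hx hx' => hb2 x hx (Co_mono (by omega) (hCo hx'))

/-- The levels of the vertices of two states are close. -/
def Cls (l : Pt → ℝ) (δ : ℝ) (s s' : St) : Prop :=
  ∀ x y, (x = s.1 ∨ x = s.2) → (y = s'.1 ∨ y = s'.2) → l y ≤ l x + 2 * δ ∧ l x ≤ l y + 2 * δ

theorem Cls.symm {l : Pt → ℝ} {δ : ℝ} {s s' : St} (h : Cls l δ s s') : Cls l δ s' s :=
  fun x y hx hy => (h y x hy hx).symm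

section Det

variable {F Q : Set Pt} {δ a b : ℝ} {l : Pt → ℝ}

/-- **The touch lemma.** -/
theorem touch (hδ : 0 < δ) (C : Crc F l Q a b) {τ : ℕ → St} {m : ℕ}
    (hN : ∀ j < m, Nb (τ j) (τ (j + 1))) (hadj : ∀ j, Adj (τ j).1 (τ j).2)
    (hC : ∀ j < m, Cls l δ (τ j) (τ (j + 1))) (hC0 : ∀ j ≤ m, Cls l δ (τ j) (τ j))
    (hpm : ∀ j ≤ m, a / 2 ≤ l (τ j).1 → l (τ j).1 < b + 8 * δ →
      (τ j).1 ∈ F ∨ (τ j).2 ∈ F)
    (h0 : l (τ 0).1 < 3 * a / 4) (hm : b + 4 * δ ≤ l (τ m).1)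
    (hδa : 16 * δ ≤ a) : ∃ j ≤ m, TchE Q (τ j) := by
  have hab : a < b := by
    obtain ⟨q, hq, -⟩ := C.wall
    exact (C.far q hq).trans_lt (C.near q hq)
  by_contra hcon
  push Not at hcon
  have hm0 : 0 < m := by
    rcases Nat.eq_zero_or_pos m with h1 | h1
    · rw [h1] at hm
      linarith
    · exact h1
  obtain ⟨c, d, -, hcd, hdm, hTc, hTd, hno⟩ :=
    exists_crossing (T₁ := fun j => b + 4 * δ ≤ l (τ j).1)
      (T₂ := fun j => l (τ j).1 < 3 * a / 4) hm0 h0 hm (fun j hj => by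
        obtain ⟨h1, h2⟩ := hj
        linarith)
  have hTc' : l (τ c).1 < 3 * a / 4 := hTc
  have hTd' : b + 4 * δ ≤ l (τ d).1 := hTd
  have hst : ∀ j < m, l (τ (j + 1)).1 ≤ l (τ j).1 + 2 * δ := fun j hj =>
    (hC j hj _ _ (Or.inl rfl) (Or.inl rfl)).1
  have hst' : ∀ j < m, l (τ j).1 ≤ l (τ (j + 1)).1 + 2 * δ := fun j hj =>
    (hC j hj _ _ (Or.inl rfl) (Or.inl rfl)).2
  have hcd1 : c + 1 < d := by
    by_contra h1
    have e : d = c + 1 := by omega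
    subst e
    have := hst c (by omega)
    linarith
  have hin : ∀ j, c < j → j ≤ d → 3 * a / 4 ≤ l (τ j).1 ∧
      l (τ j).1 < b + 6 * δ := by
    intro j h1 h2
    rcases Nat.lt_or_ge j d with h3 | h3
    · obtain ⟨h4, h5⟩ := hno j h1 h3
      have h4' : ¬ b + 4 * δ ≤ l (τ j).1 := h4
      have h5' : ¬ l (τ j).1 < 3 * a / 4 := h5
      constructor <;> linarith
    · have e : j = d := le_antisymm h2 h3
      subst e
      obtain ⟨i, rfl⟩ : ∃ i, j = i + 1 := ⟨j - 1, by omega⟩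
      obtain ⟨h4, -⟩ := hno i (by omega) (by omega)
      have h4' : ¬ b + 4 * δ ≤ l (τ i).1 := h4
      have h6 := hst i (by omega)
      constructor <;> linarith
  have hF : ∀ j, c < j → j ≤ d → ∃ x, (x = (τ j).1 ∨ x = (τ j).2) ∧ x ∈ F := by
    intro j h1 h2
    obtain ⟨h3, h4⟩ := hin j h1 h2
    rcases hpm j (by omega) (by linarith) (by linarith) with h5 | h5
    · exact ⟨_, Or.inl rfl, h5⟩
    · exact ⟨_, Or.inr rfl, h5⟩
  have hnQ : ∀ j ≤ m, ∀ x, (x = (τ j).1 ∨ x = (τ j).2) → x ∉ Q := by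
    rintro j hj x (rfl | rfl) hx
    · exact hcon j hj (Or.inl hx)
    · exact hcon j hj (Or.inr hx)
  obtain ⟨w₀, hw₀, hw₀F⟩ := hF (c + 1) (by omega) (by omega)
  have key : ∀ i, c + 1 + i ≤ d → ∀ w, (w = (τ (c + 1 + i)).1 ∨ w = (τ (c + 1 + i)).2) → w ∈ F →
      Conn (F \ Q) w₀ w := by
    intro i
    induction i with
    | zero =>
      intro _ w hw hwF
      have h1 : w₀ ∈ F \ Q := ⟨hw₀F, hnQ _ (by omega) _ hw₀⟩
      have h2 : w ∈ F \ Q := ⟨hwF, hnQ _ (by omega) _ hw⟩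
      rw [Nat.add_zero] at hw
      rcases hw₀ with e1 | e1 <;> rcases hw with e2 | e2
      · rw [e1, ← e2]; exact Conn.refl h2
      · exact Conn.of_adj h1 h2 (by rw [e1, e2]; exact hadj _)
      · exact Conn.of_adj h1 h2 (by rw [e1, e2]; exact adj_symm (hadj _))
      · rw [e1, ← e2]; exact Conn.refl h2
    | succ i ih =>
      intro hid w hw hwF
      obtain ⟨w', hw', hw'F⟩ := hF (c + 1 + i) (by omega) (by omega)
      have h1 := ih (by omega) w' hw' hw'F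
      have h2 : w ∈ F \ Q := ⟨hwF, hnQ _ (by omega) _ hw⟩
      rcases hN (c + 1 + i) (by omega) w' w hw' hw with h3 | h3
      · rw [← h3]; exact h1
      · exact h1.tail h3 h2
  obtain ⟨w₁, hw₁, hw₁F⟩ := hF d hcd le_rfl
  have h1 := key (d - (c + 1)) (by omega) w₁ (by rwa [show c + 1 + (d - (c + 1)) = d by omega]) hw₁F
  refine C.cut w₀ w₁ hw₀F ?_ ?_ h1
  · have h2 := (hC0 (c + 1) (by omega) _ _ (Or.inl rfl) hw₀).1
    have h3 := hst c (by omega)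
    linarith
  · have h2 := (hC0 d hdm _ _ (Or.inl rfl) hw₁).2
    linarith

variable {n k : ℕ} {p : ZMod n → ℤ × ℤ} {S : Finset Final.Tri} {g : UNIQ.Hg}

/-- **The deterministic part.** -/
theorem det_end {δ' : ℝ} (hδ' : 0 < δ') (hδ : 0 < δ) (hp : IsPolygon p) (hS : Encloses p S)
    (hk : 0 < k) (hkn : k < n) {Q₁ Q₂ : Set Pt} {a₁ b₁ a₂ r₂ b' : ℝ}
    (C₁ : Crc (inn p S) l Q₁ a₁ b₁) (C₂ : Crc (inn p S) l Q₂ a₂ r₂)
    (h12 : a₁ ≤ a₂) (hδ1 : 16 * δ ≤ a₁) (hδ2 : b₁ + 6 * δ ≤ a₂) (hδ3 : r₂ + 8 * δ ≤ b')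
    (hfc : ∀ t ∈ S, ∀ x y, PP δ' x ∈ Face δ' t → PP δ' y ∈ Face δ' t → l y ≤ l x + 2 * δ)
    (hpm : ∀ t ∈ S, ∀ x ∈ Pn p k S, ∀ y ∈ Mn p k S, PP δ' x ∈ Face δ' t → PP δ' y ∈ Face δ' t →
      l x < a₁ / 2 ∨ b' ≤ l x)
    (h0 : b' ≤ l (st p S).1) (hg : g ∈ Cs p k S)
    {u v : ℕ} (huv : u ≤ v) (hv : v ≤ nu p S g) (hu : l (ru p S g u).1 < 3 * a₁ / 4)
    (hv' : r₂ + 4 * δ ≤ l (ru p S g v).1) :
    g ∈ Ev (inn p S) (Pn p k S) Q₁ Q₂ ∨
      sw (inn p S) (Pn p k S) g ∈ Ev (inn p S) (Mn p k S) Q₁ Q₂ := by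
  have hA := INTF.arcs_poly hp hS hk hkn
  have hgood : ∀ j, Good g (ru p S g j) := fun j => DRV.ru_good hp hS hk hkn hg j
  have hadj : ∀ j, Adj (ru p S g j).1 (ru p S g j).2 := fun j => (hgood j).1
  have halive := (INTF.alive_nu hp hS hk hkn hg).1
  have hNb : ∀ j < nu p S g, Nb (ru p S g j) (ru p S g (j + 1)) := by
    intro j hj
    refine Stp.nb (hadj j) (hadj (j + 1)) ?_
    have e : ru p S g (j + 1) = INTF.nx g (ru p S g j) := INTF.run_succ (halive j hj)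
    rw [e]
    exact nx_stp g (hgood j)
  have hC : ∀ j < nu p S g, Cls l δ (ru p S g j) (ru p S g (j + 1)) := by
    intro j hj x y hx hy
    obtain ⟨t, ht, h1, h2⟩ := ru_face hδ' hp hS hk hkn hg hj
    exact ⟨hfc t ht x y (h1 x hx) (h2 y hy), hfc t ht y x (h2 y hy) (h1 x hx)⟩
  have hC0 : ∀ j ≤ nu p S g, Cls l δ (ru p S g j) (ru p S g j) := by
    intro j hj x y hx hy
    obtain ⟨t, ht, h1⟩ := ru_face' hδ' hp hS hk hkn hg hj
    exact ⟨hfc t ht x y (h1 x hx) (h1 y hy), hfc t ht y x (h1 y hy) (h1 x hx)⟩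
  have hF : ∀ j ≤ nu p S g, a₁ / 2 ≤ l (ru p S g j).1 → l (ru p S g j).1 < b' →
      (ru p S g j).1 ∈ inn p S ∨ (ru p S g j).2 ∈ inn p S := by
    intro j hj h1 h2
    obtain ⟨h3, h4⟩ := ru_mem hp hS hk hkn hg j
    by_contra hcon
    push Not at hcon
    obtain ⟨t, ht, h5⟩ := ru_face' hδ' hp hS hk hkn hg hj
    rcases hpm t ht _ (h3.resolve_left hcon.1) _ (h4.resolve_left hcon.2) (h5 _ (Or.inl rfl))
      (h5 _ (Or.inr rfl)) with h8 | h8 <;> linarith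
  have hr₂ : a₂ < r₂ := by
    obtain ⟨q, hq, -⟩ := C₂.wall
    exact (C₂.far q hq).trans_lt (C₂.near q hq)
  have hstart : r₂ + 4 * δ ≤ l (ru p S g 0).1 := by
    have e : ru p S g 0 = st p S := rfl
    rw [e]
    linarith
  have hsep : ∀ x ∈ Q₁, ∀ y ∈ Q₂, x ≠ y ∧ ¬ Adj x y := by
    intro x hx y hy
    have h1 := C₁.near x hx
    have h2 := C₂.far y hy
    refine ⟨fun h3 => ?_, fun h3 => ?_⟩
    · rw [h3] at h1
      linarith
    · have h4 := hfc _ (fa_mem hS (C₁.sub hx) h3) x y (PP_fa1 hδ' h3) (PP_fa2 hδ' h3)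
      linarith
  obtain ⟨j₂, hj₂, ht₂⟩ := touch hδ C₂ (τ := fun j => ru p S g (u - j)) (m := u)
    (fun j hj => by
      have := hNb (u - (j + 1)) (by omega)
      rw [show u - (j + 1) + 1 = u - j by omega] at this
      exact this.symm) (fun j => hadj _)
    (fun j hj => by
      have := hC (u - (j + 1)) (by omega)
      rw [show u - (j + 1) + 1 = u - j by omega] at this
      exact this.symm) (fun j hj => hC0 _ (by omega))
    (fun j _ h1 h2 => hF _ (by omega) (by linarith) (by linarith)) (by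
      show l (ru p S g (u - 0)).1 < 3 * a₂ / 4
      rw [Nat.sub_zero]
      linarith) (by
      show r₂ + 4 * δ ≤ l (ru p S g (u - u)).1
      rw [Nat.sub_self]
      exact hstart) (by linarith)
  set i₂ := u - j₂ with hi₂
  have ht₂' : TchE Q₂ (ru p S g i₂) := ht₂
  have hD₂ : b₁ + 4 * δ ≤ l (ru p S g i₂).1 := by
    rcases ht₂' with h1 | h1
    · have := C₂.far _ h1
      linarith
    · have h2 := C₂.far _ h1
      have h3 := (hC0 i₂ (by omega) _ _ (Or.inl rfl) (Or.inr rfl)).1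
      linarith
  obtain ⟨j₁, hj₁, ht₁⟩ := touch hδ C₁ (τ := fun j => ru p S g (u - j)) (m := j₂)
    (fun j hj => by
      have := hNb (u - (j + 1)) (by omega)
      rw [show u - (j + 1) + 1 = u - j by omega] at this
      exact this.symm) (fun j => hadj _)
    (fun j hj => by
      have := hC (u - (j + 1)) (by omega)
      rw [show u - (j + 1) + 1 = u - j by omega] at this
      exact this.symm) (fun j hj => hC0 _ (by omega))
    (fun j _ h1 h2 => hF _ (by omega) h1 (by linarith)) (by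
      show l (ru p S g (u - 0)).1 < 3 * a₁ / 4
      rw [Nat.sub_zero]
      exact hu) hD₂ hδ1
  set w := u - j₁ with hw
  have ht₁' : TchE Q₁ (ru p S g w) := ht₁
  have hne : i₂ ≠ w := by
    intro h1
    rw [h1] at ht₂'
    rcases ht₁' with h3 | h3 <;> rcases ht₂' with h4 | h4
    · exact (hsep _ h3 _ h4).1 rfl
    · exact (hsep _ h3 _ h4).2 (hadj w)
    · exact (hsep _ h3 _ h4).2 (adj_symm (hadj w))
    · exact (hsep _ h3 _ h4).1 rfl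
  have hiw : i₂ < w := by omega
  obtain ⟨j₃, hj₃, ht₃⟩ := touch hδ C₂ (τ := fun j => ru p S g (u + j)) (m := v - u)
    (fun j hj => by
      have := hNb (u + j) (by omega)
      rw [add_assoc] at this
      exact this) (fun j => hadj _)
    (fun j hj => by
      have := hC (u + j) (by omega)
      rw [add_assoc] at this
      exact this) (fun j hj => hC0 _ (by omega))
    (fun j _ h1 h2 => hF _ (by omega) (by linarith) (by linarith)) (by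
      show l (ru p S g (u + 0)).1 < 3 * a₂ / 4
      rw [Nat.add_zero]
      linarith) (by
      show r₂ + 4 * δ ≤ l (ru p S g (u + (v - u))).1
      rw [show u + (v - u) = v by omega]
      exact hv') (by linarith)
  obtain ⟨m1, m2⟩ := INTF.st_mem (S := S) hp hk hkn
  exact run_ev hA hg (INTF.good_st hp hS hk hkn hg) m1 m2 (INTF.st_side hp hS).2 halive
    (fun j _ => ru_mem hp hS hk hkn hg j) C₂.sub C₂.cn hsep hiw (by omega : w ≤ u + j₃)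
    (by omega) ht₂' ht₁' ht₃

end Det

variable {D : Set ℂ} {φ : ℂ → ℂ} {δ : ℕ → ℝ} {N k : ℕ → ℕ} {p : ∀ n, ZMod (N n) → ℤ × ℤ}
  {S : ℕ → Finset Final.Tri} {φn gn : ℕ → ℂ → ℂ}

/-- From a scale in the disc to lattice radii. -/
theorem scale (h : LD D φ δ N p S φn gn) {t ρ₀ : ℤ} (ht : 1 ≤ t) (hρ₀ : 1 ≤ ρ₀) {a : ℝ}
    (ha : 0 < a) : ∃ b : ℝ, 0 < b ∧ b < a ∧ ∀ᶠ n in atTop, ∀ q₀ ∈ inn (p n) (S n), ∀ x₀,
      Adj q₀ x₀ → dist (gn n (PP (δ n) q₀)) 1 < b → ∃ K R : ℤ, ρ₀ ≤ K ∧ t * (K + 2) ≤ R - 2 ∧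
        (∀ v ∈ inn (p n) (S n), dist (gn n (PP (δ n) v)) 1 < b → v ∈ bx x₀ K) ∧
        ∀ q, dist (gn n (PP (δ n) q)) 1 < b → ∀ v ∈ Co (inn (p n) (S n)) x₀ R q,
          dist (gn n (PP (δ n) v)) 1 < a := by
  have ht' : (1 : ℝ) ≤ t := by exact_mod_cast ht
  have hρ₀' : (1 : ℝ) ≤ ρ₀ := by exact_mod_cast hρ₀
  obtain ⟨η, hη, hco⟩ := h.co (half_pos ha)
  set s := η / (64 * t) with hs
  have hs0 : 0 < s := by positivity
  have hst : 32 * t * s = η / 2 := by rw [hs]; field_simp; ring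
  obtain ⟨b, hb, hmod⟩ := h.ds.modulus (half_pos hs0)
  have hb1 : min b (a / 2) ≤ b := min_le_left _ _
  have hb2 : min b (a / 2) ≤ a / 2 := min_le_right _ _
  refine ⟨min b (a / 2), lt_min hb (half_pos ha), by linarith, ?_⟩
  filter_upwards [hco, hmod, h.small (show 0 < min (s / 2)
    (min (η / 2 / (24 * (t + 1))) (4 * s / ρ₀)) by positivity)] with n g3 g4 g6 q₀ hq₀ x₀ hqx hq₀d
  obtain ⟨g6, g7⟩ := lt_min_iff.1 g6
  obtain ⟨g7, g8⟩ := lt_min_iff.1 g7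
  rw [lt_div_iff₀ (by positivity)] at g7 g8
  have hδ := h.pos n
  have hnear : ∀ v ∈ inn (p n) (S n), dist (gn n (PP (δ n) v)) 1 < min b (a / 2) →
      dist (PP (δ n) v) (φ 1) < s / 2 := fun v hv hd =>
    g4 _ (subset_closure (PP_DC hδ (h.poly n) (h.encl n) hv)) 1 norm_one.le (hd.trans_le hb1)
  obtain ⟨K, R, k1, k2, k3, k4⟩ := radC hδ (z := φ 1) (x₀ := x₀) (s := s) (a := η / 2) (by
    have e1 := hnear q₀ hq₀ hq₀d
    have e2 := dist_PP_adj hδ (adj_symm hqx)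
    linarith [dist_triangle (PP (δ n) x₀) (PP (δ n) q₀) (φ 1)]) (ρ₀ := ρ₀) ht hst.le
    (by linarith) (by linarith)
  refine ⟨K, R, k1, k2, fun v hv hd => k3 v (by linarith [hnear v hv hd]), fun q hq v hv => ?_⟩
  have e1 := g3 x₀ q R (φ 1) (fun u hu => by linarith [k4 u hu]) v hv
  linarith [dist_triangle_left (gn n (PP (δ n) v)) 1 (gn n (PP (δ n) q))]

/-- **The four crosscuts.** -/
theorem four_ev (h : LD D φ δ N p S φn gn) {t ρ₀ : ℤ} (ht : 1 ≤ t) (hρ₀ : 1 ≤ ρ₀) {r : ℝ}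
    (hr : 0 < r) : ∃ a₁ b₁ a₂ : ℝ, 0 < a₁ ∧ a₁ < b₁ ∧ b₁ < a₂ ∧ a₂ < r ∧ ∀ᶠ n in atTop,
      ∃ (x₀ p₁ p₂ : Pt) (Q₁ Q₁' Q₂' Q₂ : Set Pt) (ρ₁ R₁ ρ R ρ₂ R₂ : ℤ),
        Four (inn (p n) (S n)) x₀ p₁ p₂ Q₁ Q₁' Q₂' Q₂ ρ₁ R₁ ρ R ρ₂ R₂ ∧ ρ₀ ≤ ρ₁ ∧ t * ρ₁ ≤ R₁ ∧
        ρ₀ ≤ ρ ∧ t * ρ ≤ R ∧ ρ₀ ≤ ρ₂ ∧ t * ρ₂ ≤ R₂ ∧
        Crc (inn (p n) (S n)) (fun v => dist (gn n (PP (δ n) v)) 1) Q₁ a₁ b₁ ∧
        Crc (inn (p n) (S n)) (fun v => dist (gn n (PP (δ n) v)) 1) Q₂ a₂ r := by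
  obtain ⟨a₂, ha₂, hab₂, e₂⟩ := h.crc_one hr
  obtain ⟨b₂', hb₂', l₂', f₂'⟩ := scale h ht hρ₀ ha₂
  obtain ⟨a₂', ha₂', hab₂', e₂'⟩ := h.crc_one hb₂'
  obtain ⟨b₁', hb₁', l₁', f₁'⟩ := scale h ht hρ₀ ha₂'
  obtain ⟨a₁', ha₁', hab₁', e₁'⟩ := h.crc_one hb₁'
  obtain ⟨b₁, hb₁, l₁, f₁⟩ := scale h ht hρ₀ ha₁'
  obtain ⟨a₁, ha₁, hab₁, e₁⟩ := h.crc_one hb₁
  refine ⟨a₁, b₁, a₂, ha₁, hab₁, by linarith, hab₂, ?_⟩
  filter_upwards [e₁, e₁', e₂', e₂, f₁, f₁', f₂'] with n g₁ g₁' g₂' g₂ j₁ j₁' j₂'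
  obtain ⟨Q₁, k₁⟩ := g₁
  obtain ⟨Q₁', k₁'⟩ := g₁'
  obtain ⟨Q₂', k₂'⟩ := g₂'
  obtain ⟨Q₂, k₂⟩ := g₂
  obtain ⟨p₁, hp₁, hw₁⟩ := k₁.wall
  obtain ⟨p₂, hp₂, hw₂⟩ := k₂'.wall
  obtain ⟨hp₁V, x₀, hx₀, hx₀V⟩ := hw₁
  have hd₁ : dist (gn n (PP (δ n) p₁)) 1 < b₁ := k₁.near p₁ hp₁
  obtain ⟨K₁, κ₁, m1, m2, m3, m4⟩ := j₁ p₁ hp₁V x₀ hx₀ hd₁
  obtain ⟨K₁', κ₁', m1', m2', m3', m4'⟩ := j₁' p₁ hp₁V x₀ hx₀ (by linarith)
  obtain ⟨K₂', κ₂', n1', n2', n3', n4'⟩ := j₂' p₁ hp₁V x₀ hx₀ (by linarith)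
  refine ⟨x₀, p₁, p₂, Q₁, Q₁', Q₂', Q₂, K₁, κ₁, K₁' + 2, κ₁' - 2, K₂', κ₂', ?_, m1, by nlinarith,
    by omega, m2', n1', by nlinarith, k₁, k₂⟩
  exact
    { x0 := hx₀V
      s1 := k₁.sub
      s1' := k₁'.sub
      s2' := k₂'.sub
      s2 := k₂.sub
      c1 := k₁.cn
      c1' := k₁'.cn
      c2' := k₂'.cn
      c2 := k₂.cn
      m1 := hp₁
      w1 := ⟨hp₁V, x₀, hx₀, hx₀V⟩
      m2' := hp₂
      w2' := hw₂
      b1 := fun v hv => m3 v (k₁.sub hv) (k₁.near v hv)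
      d1 := Set.disjoint_left.2 fun v hv hv' => (m4 p₁ hd₁ v hv').not_ge (k₁'.far v hv)
      g1 := fun q hq v hqv => by
        have h1 : dist (gn n (PP (δ n) q)) 1 < b₁ := k₁.near q hq
        rw [show K₁' + 2 - 2 = K₁' by ring]
        refine m3' v hqv.right_mem.1 ?_
        by_contra hc
        exact k₁'.cut q v (k₁.sub hq) (h1.trans l₁) (not_lt.1 hc) hqv
      g2 := fun q hq v hqv hv => by
        rw [show κ₁' - 2 + 2 = κ₁' by ring] at hv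
        exact k₂'.cut v q hqv.right_mem.1 (m4' p₁ (by linarith) v hv)
          (l₂'.le.trans (k₂.far q hq)) hqv.symm
      b2' := fun v hv => n3' v (k₂'.sub hv) (k₂'.near v hv)
      d2 := Set.disjoint_left.2 fun v hv hv' =>
        (n4' p₂ (k₂'.near p₂ hp₂) v hv').not_ge (k₂.far v hv) }

/-- A point of the circle near the real line is near `1` or far from `1`. -/
theorem near_or {w : ℂ} (hw : ‖w‖ = 1) {a : ℝ} (ha : 0 < a) (h : |w.im| ≤ a / 2) :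
    dist w 1 < a ∨ 1 ≤ dist w 1 := by
  rcases le_or_gt w.re 0 with h1 | h1
  · exact Or.inr (by linarith [re_le_dist w])
  · left
    refine dist_one_lt hw.le ha ?_
    have e1 := norm_sq_eq w
    have e2 : w.re ≤ 1 := (le_abs_self _).trans ((Complex.abs_re_le_norm w).trans hw.le)
    have e3 : w.im ^ 2 ≤ (a / 2) ^ 2 := by
      rw [← sq_abs]
      exact pow_le_pow_left₀ (abs_nonneg _) h 2
    rw [hw] at e1
    nlinarith

/-- **No return from the end point**, from the landing statement. -/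
theorem t_end_of (hL : LOC.S_land 2) : T_end := by
  intro D φ δ N k p S φn gn h x hx r hr e he
  obtain ⟨t, ht, ρ₀, hρ₀, H⟩ := end_plus hL (e / 2) (half_pos he)
  have hr₂ : 0 < min (r / 2) (1 / 2) := lt_min (by positivity) (by positivity)
  obtain ⟨a₁, b₁, a₂, ha₁, hab₁, hba, har, hev⟩ := four_ev h.toLD ht hρ₀ hr₂
  set r₂ := min (r / 2) (1 / 2) with hr₂d
  have hr₂a : r₂ ≤ r / 2 := min_le_left _ _
  have hr₂b : r₂ ≤ 1 / 2 := min_le_right _ _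
  refine ⟨a₁ / 2, by positivity, ?_⟩
  set m := min (a₁ / 32) (min ((a₂ - b₁) / 8) (r₂ / 16)) with hm
  have hm0 : 0 < m := lt_min (by positivity) (lt_min (by linarith) (by positivity))
  have g4a : m ≤ a₁ / 32 := min_le_left _ _
  have g4b : m ≤ (a₂ - b₁) / 8 := (min_le_right _ _).trans (min_le_left _ _)
  have g4c : m ≤ r₂ / 16 := (min_le_right _ _).trans (min_le_right _ _)
  filter_upwards [hev, h.face hm0, h.start hm0] with n g1 g2 g3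
  have hδ := h.pos n
  have hp := h.poly n
  have hS := h.encl n
  have hk := h.kpos n
  have hkn := h.klt n
  obtain ⟨x₀, p₁, p₂, Q₁, Q₁', Q₂', Q₂, ρ₁, R₁, ρ, R, ρ₂, R₂, hF, k1, k2, k3, k4, k5, k6, C₁, C₂⟩ :=
    g1
  have hArcs := INTF.arcs_poly hp hS hk hkn
  have e1 := H _ _ _ x₀ p₁ p₂ Q₁ Q₁' Q₂' Q₂ ρ₁ R₁ ρ R ρ₂ R₂ hArcs hF k1 k2 k3 k4 k5 k6
  have e2 := H _ _ _ x₀ p₁ p₂ Q₁ Q₁' Q₂' Q₂ ρ₁ R₁ ρ R ρ₂ R₂ hArcs.symm hF k1 k2 k3 k4 k5 k6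
  rw [law_real_Cs hp hS]
  refine (Pr_mono (B := Ev (inn (p n) (S n)) (Pn (p n) (k n) (S n)) Q₁ Q₂ ∪
    {g | sw (inn (p n) (S n)) (Pn (p n) (k n) (S n)) g ∈
      Ev (inn (p n) (S n)) (Mn (p n) (k n) (S n)) Q₁ Q₂}) fun g hg hgA => ?_).trans
    ((Pr_union_le _ _ _).trans ?_)
  · obtain ⟨s, s', hss', hs1, hs2⟩ := hgA
    obtain ⟨σ, hσm, hσ⟩ := intf_pl hδ hp hS hk hkn hg (hx n _ (bk_mem hp hS hg))
    have huv : ⌊σ s⌋₊ ≤ ⌊σ s'⌋₊ := Nat.floor_mono (hσm hss')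
    have hvn : ⌊σ s'⌋₊ ≤ nu (p n) (S n) g := by
      have := Nat.floor_mono (hσ s').2.1
      rwa [Nat.floor_natCast] at this
    have near : ∀ s : unitInterval, dist (gn n (PP (δ n) (ru (p n) (S n) g ⌊σ s⌋₊).1))
        (gn n (x n (bk (p n) (S n) g) s)) ≤ m := by
      intro s
      obtain ⟨t, ht, h3, h4⟩ := pl_face hδ hp hS hk hkn hg (hσ s).1 (hσ s).2.1
      rw [(hσ s).2.2]
      exact g2 t ht _ (h4 _ (Or.inl rfl)) _ h3
    refine det_end (δ := m) (b' := 1) hδ hm0 hp hS hk hkn C₁ C₂ (by linarith) (by linarith)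
      (by linarith) (by linarith) (fun t ht u v hu hv => ?_) (fun t ht u hu v hv hu' hv' => ?_)
      ?_ hg huv hvn ?_ ?_
    · linarith [g2 t ht _ hv _ hu, dist_triangle (gn n (PP (δ n) v)) (gn n (PP (δ n) u)) 1]
    · obtain ⟨i, rfl⟩ := INTF.Pn_sub hu
      refine near_or (h.norm_poly n i) (half_pos ha₁) ?_
      have i1 := (h.side n).2 _ hu
      have i2 := (h.side n).1 _ hv
      have i3 : |(gn n (PP (δ n) (p n i))).im - (gn n (PP (δ n) v)).im| ≤ m := by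
        rw [← Complex.sub_im]
        exact (Complex.abs_im_le_norm _).trans ((dist_eq_norm _ _).ge.trans (g2 t ht _ hu' _ hv'))
      rw [abs_le] at i3 ⊢
      constructor <;> linarith [i3.2]
    · have i1 := g3 _ (Or.inl rfl)
      have i2 : dist (-1 : ℂ) 1 = 2 := by
        rw [dist_eq_norm, show (-1 : ℂ) - 1 = -2 by ring]
        simp
      show 1 ≤ dist (gn n (PP (δ n) (st (p n) (S n)).1)) 1
      linarith [dist_triangle_left (-1) 1 (gn n (PP (δ n) (st (p n) (S n)).1))]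
    · show dist (gn n (PP (δ n) (ru (p n) (S n) g ⌊σ s⌋₊).1)) 1 < 3 * a₁ / 4
      linarith [near s, dist_triangle (gn n (PP (δ n) (ru (p n) (S n) g ⌊σ s⌋₊).1))
        (gn n (x n (bk (p n) (S n) g) s)) 1]
    · show r₂ + 4 * m ≤ dist (gn n (PP (δ n) (ru (p n) (S n) g ⌊σ s'⌋₊).1)) 1
      linarith [near s', dist_triangle_left (gn n (x n (bk (p n) (S n) g) s')) 1
        (gn n (PP (δ n) (ru (p n) (S n) g ⌊σ s'⌋₊).1))]
  · have e3 : Pr (Cs (p n) (k n) (S n)) {g | sw (inn (p n) (S n)) (Pn (p n) (k n) (S n)) g ∈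
        Ev (inn (p n) (S n)) (Mn (p n) (k n) (S n)) Q₁ Q₂} ≤ e / 2 := by
      refine (sw_Pr hArcs _).le.trans e2
    have e4 : Pr (Cs (p n) (k n) (S n)) (Ev (inn (p n) (S n)) (Pn (p n) (k n) (S n)) Q₁ Q₂) ≤
        e / 2 := e1
    linarith

/-- **No return from the end point.** -/
theorem t_end (hL : LAND.S_land 2) : T_end := t_end_of (LOC.s_land_of (by norm_num) hL)

end Vale.Agent.N153.En
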