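import Vale.Agent.P153.R2.Final.Kap

/-!
N153: the moments of the field along approximations in the sense of Carathéodory.
-/

set_option autoImplicit false
set_option linter.unusedVariables false

namespace Vale.Agent.N153

open Filter Topology Set Metric MeasureTheory
open Vale.Agent.P145.PT Vale.Agent.P153.F.Top
open Vale.Agent.P153 Vale.Agent.P153.R2
open Vale.Agent.P153.R2.INTF (PP Arcs CA Fk Rk Lk CA_finite)
open Vale.Agent.P153.R2.Final (region IsPolygon Encloses)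
open Vale.Agent.P153.R2.FLDI (inn Bx)
open Vale.Agent.P153.R2.DRV
open Vale.Agent.P153.R2.OBSV (Os Fm slit_maps tp Slt PP_eq tc Wall Bas Dsc dm cay icay)
open Vale.Agent.P153.R2.KAPV (HP HP_open Lat2 Land2 ArcP DirP Unif hf mu L_mb L_l2 L_vb L_sd
  L_landP L_landM toC toR)

/-- The lattice inputs. -/
theorem lat_inputs : L_mb ∧ L_l2 ∧ L_vb ∧ L_sd (8 / Real.pi) ∧ L_landP ∧ L_landM := by
  obtain ⟨Q, κ', h⟩ := Final.exists_par
  have hκ := h.pos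
  have lvl := F.lvl_of h.isQ h.plane h.spec h.clt hκ
  have hem : F.X.S_emom (Q.map A.rc) := F.X.s_emom lvl.ext F.X.s_conf F.X.s_loc
  have hmb : KAPV.L_mb := KAPV.l_mb h.plane lvl.mom hem lvl.rsw F.X.s_loc F.X.s_conf
  have hl2 : KAPV.L_l2 := KAPV.l_l2 fun δ hδ hlim => F.X.s_l2 hδ hlim lvl.low (lvl.mm δ hδ hlim)
    lvl.rsw F.X.s_loc
  have hvb : KAPV.L_vb := KAPV.l_vb h.isQ h.plane h.spec h.clt hκ lvl.rsw lvl.mom hem
  have hv4 : KAPV.L_v4 := KAPV.l_v4 h.isQ h.plane h.spec h.clt hκ lvl.rsw lvl.mom hem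
  have hM : KAPV.L_landM := KAPV.l_landM (LOC.s_land_of (by norm_num) (h.land hκ 2)) hmb hv4
  have hsd := SDAR.l_sd (h.scen hκ)
  rw [h.kap] at hsd
  exact ⟨hmb, hl2, hvb, hsd, KAPV.l_landP hM, hM⟩

/-! ### The abstract core -/

theorem core_ultra {κ : ℝ} {F : ℕ → ℂ → ℂ} {δ : ℕ → ℝ} {B : ℕ → Finset (ℤ × ℤ)}
    {μ : ℕ → Measure Om} {w : ℕ → ℂ} {z₀ w₁ : ℂ} {R₀ c₀ : ℝ} (𝒰 : Ultrafilter ℕ)
    (h : ∀ i, Bas (F i) (w i) z₀ R₀ c₀ (fun _ => 0)) (hR : 0 < R₀) (hc : 0 < c₀)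
    (hw₁ : 0 < w₁.im) (hw : Tendsto w 𝒰 (𝓝 w₁)) (hm : ∀ i, Mom (μ i))
    (hL : Lat2 κ F δ B μ (𝒰 : Filter ℕ)) (hL1 : Land2 F δ B μ (𝒰 : Filter ℕ) Real.pi 1)
    (hL2 : Land2 F δ B μ (𝒰 : Filter ℕ) 0 (-1)) {ψ : ℂ → ℂ}
    (hψ : ∀ z ∈ HP, ∀ zn : ℕ → ℂ, Tendsto zn 𝒰 (𝓝 z) →
      Tendsto (fun i => F i (zn i)) 𝒰 (𝓝 (ψ z)))
    {u : ℝ × ℝ → ℝ} (hu : DirP (dm (ψ '' HP)) ψ (KAPV.sg 0) u) {f : ℝ × ℝ → ℝ}
    (hf : TestOn (dm (ψ '' HP)) f) :
    Tendsto (fun n => ∫ ω, hB (B n) (δ n) f ω ∂(μ n)) 𝒰 (𝓝 (∫ z, u z * f z)) ∧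
    ∀ j : ℕ, Tendsto (fun n => ∫ ω, (hB (B n) (δ n) f ω - ∫ z, u z * f z) ^ j ∂(μ n)) 𝒰
      (𝓝 (gm (κ * V (dm (ψ '' HP)) f) j)) := by
  have hD : ∀ i, Dsc (fun w' => F i (cay (w i) w')) z₀ R₀ c₀ := fun i => (h i).dsc
  obtain ⟨g, hg⟩ := OBSV.exists_dsc_limit 𝒰 hR hD
  have hgψ : ∀ w' ∈ ball (0 : ℂ) 1, g w' = ψ (cay w₁ w') := by
    intro w' hw'
    refine tendsto_nhds_unique (OBSV.lim_pt hg hw') (hψ _ (OBSV.cay_im hw₁ hw') _ ?_)
    have hc : Continuous fun a : ℂ => cay a w' := by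
      unfold cay
      fun_prop
    exact (hc.tendsto w₁).comp hw
  have himg : g '' ball 0 1 = ψ '' HP := by
    rw [show HP = cay w₁ '' ball 0 1 from (OBSV.cay_image hw₁).symm, image_image]
    exact image_congr hgψ
  have hFψ : ∀ z ∈ HP, g (icay w₁ z) = ψ z := fun z hz => by
    rw [hgψ _ (OBSV.icay_mem hw₁ hz), OBSV.cay_icay hw₁ hz]
  have hun := KAPV.lim_unif hD hc hg hw₁
  have hbase := KAPV.arcB_of (e := id) (j := id) (fun _ => rfl) h hc hg hL hm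
  have hA : ArcP κ δ B μ (dm (g '' ball 0 1)) (fun z => g (icay w₁ z))
      (fun z => cay w₁ (Function.invFunOn g (ball 0 1) z)) (KAPV.sg 0) 𝒰 := by
    refine ⟨by simpa only [Ultrafilter.map_id, id] using hbase, hun, ?_⟩
    have hae : ∀ᵐ y : ℝ, y ≠ 0 := by rw [ae_iff]; simp
    filter_upwards [hae] with y hy f hf k ε hε
    exact KAPV.bvp_of h hR hc hg hw₁ hw hL1 hL2 hy f hf k ε hε
  rw [himg] at hA
  have hu' : DirP (dm (ψ '' HP)) (fun z => g (icay w₁ z)) (KAPV.sg 0) u := by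
    refine ⟨hu.harm, hu.bdd, ?_⟩
    filter_upwards [hu.bv] with y hy
    refine hy.congr' ?_
    filter_upwards [self_mem_nhdsWithin] with η hη
    rw [hFψ _ (show (⟨y, η⟩ : ℂ) ∈ HP from hη)]
  exact ⟨hA.mean hu' hf, fun j => hA.gauss hu' hf j⟩

theorem core_fil {κ : ℝ} {F : ℕ → ℂ → ℂ} {δ : ℕ → ℝ} {B : ℕ → Finset (ℤ × ℤ)}
    {μ : ℕ → Measure Om} {w : ℕ → ℂ} {z₀ w₁ : ℂ} {R₀ c₀ : ℝ}
    (h : ∀ᶠ i in atTop, Bas (F i) (w i) z₀ R₀ c₀ (fun _ => 0)) (hR : 0 < R₀) (hc : 0 < c₀)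
    (hw₁ : 0 < w₁.im) (hw : Tendsto w atTop (𝓝 w₁))
    (hL : Lat2 κ F δ B μ atTop) (hL1 : Land2 F δ B μ atTop Real.pi 1)
    (hL2 : Land2 F δ B μ atTop 0 (-1)) {ψ : ℂ → ℂ} (hψc : ContinuousOn ψ HP)
    (hψ : TendstoLocallyUniformlyOn F ψ atTop HP)
    {u : ℝ × ℝ → ℝ} (hu : DirP (dm (ψ '' HP)) ψ (KAPV.sg 0) u) {f : ℝ × ℝ → ℝ}
    (hf : TestOn (dm (ψ '' HP)) f) :
    Tendsto (fun n => ∫ ω, hB (B n) (δ n) f ω ∂(μ n)) atTop (𝓝 (∫ z, u z * f z)) ∧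
    ∀ j : ℕ, Tendsto (fun n => ∫ ω, (hB (B n) (δ n) f ω - ∫ z, u z * f z) ^ j ∂(μ n)) atTop
      (𝓝 (gm (κ * V (dm (ψ '' HP)) f) j)) := by
  classical
  suffices hsuff : ∀ 𝒰 : Ultrafilter ℕ, (𝒰 : Filter ℕ) ≤ atTop →
      Tendsto (fun n => ∫ ω, hB (B n) (δ n) f ω ∂(μ n)) 𝒰 (𝓝 (∫ z, u z * f z)) ∧
      ∀ j : ℕ, Tendsto (fun n => ∫ ω, (hB (B n) (δ n) f ω - ∫ z, u z * f z) ^ j ∂(μ n)) 𝒰
        (𝓝 (gm (κ * V (dm (ψ '' HP)) f) j)) from
    ⟨tendsto_iff_ultrafilter _ _ _ |>.2 fun 𝒰 hU => (hsuff 𝒰 hU).1,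
      fun j => tendsto_iff_ultrafilter _ _ _ |>.2 fun 𝒰 hU => (hsuff 𝒰 hU).2 j⟩
  intro 𝒰 hU
  set P : ℕ → Prop := fun i => Bas (F i) (w i) z₀ R₀ c₀ (fun _ => 0) ∧ Mom (μ i) with hP
  have hPe : ∀ᶠ i in (𝒰 : Filter ℕ), P i := (h.and hL.mom).filter_mono hU
  obtain ⟨i₀, hi₀⟩ := hPe.exists
  set σ : ℕ → ℕ := fun i => if P i then i else i₀ with hσ
  have hσP : ∀ i, P (σ i) := by
    intro i
    by_cases hi : P i
    · simp only [hσ, if_pos hi]; exact hi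
    · simp only [hσ, if_neg hi]; exact hi₀
  have hσe : ∀ᶠ i in (𝒰 : Filter ℕ), σ i = i := by
    filter_upwards [hPe] with i hi
    simp only [hσ]
    exact if_pos hi
  have key := core_ultra 𝒰 (F := fun i => F (σ i)) (w := fun i => w (σ i))
    (δ := fun i => δ (σ i)) (B := fun i => B (σ i)) (μ := fun i => μ (σ i))
    (fun i => (hσP i).1) hR hc hw₁
    ((hw.mono_left hU).congr' (hσe.mono fun i hi => by simp only [hi]))
    (fun i => (hσP i).2) ((hL.mono hU).subst hσe) ((hL1.mono hU).subst hσe)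
    ((hL2.mono hU).subst hσe) (ψ := ψ) (fun z hz zn hzn => ?_) hu hf
  · refine ⟨key.1.congr' ?_, fun j => (key.2 j).congr' ?_⟩
    · filter_upwards [hσe] with i hi
      rw [hi]
    · filter_upwards [hσe] with i hi
      rw [hi]
  · have h1 : TendstoLocallyUniformlyOn F ψ (𝒰 : Filter ℕ) HP := fun V hV x hx => by
      obtain ⟨t, ht, h2⟩ := hψ V hV x hx
      exact ⟨t, ht, h2.filter_mono hU⟩
    have h2 := h1.tendsto_comp (hψc z hz) hz (g := zn)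
      (tendsto_nhdsWithin_iff.2 ⟨hzn, hzn.eventually (HP_open.mem_nhds hz)⟩)
    refine h2.congr' ?_
    filter_upwards [hσe] with i hi
    rw [hi]

/-! ### The lattice domains -/

section One

variable {n k : ℕ} {p : ZMod n → ℤ × ℤ} {S : Finset Final.Tri} {δ : ℝ} {ψ : ℂ → ℂ}

theorem wall_congr {F G : ℂ → ℂ} (h : EqOn F G HP) {θ : ℝ} {z : ℂ} {R : ℝ} (hw : Wall F θ z R) :
    Wall G θ z R := by
  intro ε hε
  obtain ⟨C, h1, h2, h3, h4, h5⟩ := hw ε hε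
  refine ⟨C, h1, h2, ?_, fun u hu => ?_, h5⟩
  · rw [← h (h2 0 ⟨le_rfl, zero_le_one⟩)]; exact h3
  · rw [← h (h2 u hu)]; exact h4 u hu

theorem cE_zero (hp : IsPolygon p) (hS : Encloses p S) (hk : 0 < k) (hkn : k < n) (hδ : 0 < δ)
    {h : Hg} (hh : h ∈ Cs p k S) (G : Hg → ℝ) : cE p k S h 0 G = Ex (Cs p k S) G := by
  rw [← KAPV.Ex_cE hp hS hk hkn (κ := fun _ => 0) (fun h hh h' hh' _ => rfl)
    (fun g hg => (can_of POLY.s_can hδ hk hkn hp hS hg).pos) G]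
  rw [← Ex_const (Cs_finite (p := p) (k := k) (S := S)) (Cs_nonempty hp hS) (cE p k S h 0 G)]
  refine Ex_congr fun g _ => ?_
  have e1 : Lk h S (st p S) 0 = Lk g S (st p S) 0 := by
    ext v
    simp only [Lk, Nat.le_zero, mem_setOf_eq, exists_eq_left, INTF.run]
  have e2 : Rk h S (st p S) 0 = Rk g S (st p S) 0 := by
    ext v
    simp only [Rk, Nat.le_zero, mem_setOf_eq, exists_eq_left, INTF.run]
  unfold cE Fk
  rw [e1, e2]

/-- The lattice domain at time zero. -/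
theorem slt_zero (hδ : 0 < δ) (hk : 0 < k) (hkn : k < n) (hp : IsPolygon p) (hS : Encloses p S)
    (hU : UNIQ.IsUnifD p k S δ ψ) {h : Hg} (hh : h ∈ Cs p k S) {w z₀ : ℂ} {R₀ c₀ : ℝ}
    (hb : ∀ z ∈ region δ S, ‖Final.toC z‖ ≤ R₀) (hw : 0 < w.im) (hz : ψ w = z₀)
    (hsub : ball z₀ c₀ ⊆ ψ '' HP) :
    Slt δ (Fk (inn p S) h S (st p S) 0) (Pn p k S ∪ Lk h S (st p S) 0)
      (Mn p k S ∪ Rk h S (st p S) 0) ψ w z₀ R₀ c₀ := by
  have hc := can_of POLY.s_can hδ hk hkn hp hS hh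
  have hj : 0 < nu p S h := hc.pos
  obtain ⟨hC, -⟩ := OBSV.s_crv _ _ _ _ _ _ hδ hk hkn hp hS hU h hh
  obtain ⟨m1, m2, m3, m4⟩ := slit_maps OBSV.s_crv hδ hk hkn hp hS hU hh hj
  obtain ⟨g1, g2, g3, g4⟩ := OBSV.s_geo _ _ _ _ _ hδ hk hkn hp hS h hh _ hj
  have hE : EqOn (Fm ψ δ p S h 0) ψ HP := by
    intro z hz
    have hz' : 0 < z.im := hz
    have h1 := (m4 z hz' ?_).2
    · rw [Nat.cast_zero, (KAPV.gc_zero (k := k) hC (et_zero hU hc) hz').1] at h1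
      exact h1
    · rintro ⟨t, ht, he⟩
      rw [Nat.cast_zero] at ht
      have ht0 : t = 0 := le_antisymm ht.2 ht.1
      rw [ht0, hc.start, ← hU.zero] at he
      have h2 := hU.injOn (show (0 : ℂ) ∈ {z : ℂ | 0 ≤ z.im} by simp)
        (show z ∈ {z : ℂ | 0 ≤ z.im} from hz'.le) he
      rw [← h2] at hz'
      simp at hz'
  have hO : Os δ p S h 0 = ψ '' HP := by
    rw [← m3]
    exact image_congr hE
  have hbn : ∀ y ∈ Final.toC '' interior (region δ S), ‖y‖ ≤ R₀ := by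
    rintro _ ⟨x, hx, rfl⟩
    exact hb x (interior_subset hx)
  refine ⟨hδ, g1, hU.diff, hU.injOn.mono fun z hz => le_of_lt (show 0 < z.im from hz),
    fun x hx => ?_, hw, hz, hsub, fun v hv => ?_, ?_, ?_, ?_, ?_⟩
  · refine hbn _ ?_
    rw [← hU.image]
    exact mem_image_of_mem _ hx
  · have h6 : ‖PP δ v‖ ≤ R₀ := by
      have h8 : closure (Final.toC '' interior (region δ S)) ⊆ closedBall (0 : ℂ) R₀ :=
        closure_minimal (fun y hy => by rw [mem_closedBall_zero_iff]; exact hbn y hy)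
          isClosed_closedBall
      have h9 := h8 (g4 v hv)
      rwa [mem_closedBall_zero_iff] at h9
    rw [PP_eq] at h6
    rw [Prod.norm_def, max_le_iff, Real.norm_eq_abs, Real.norm_eq_abs]
    exact ⟨(Complex.abs_re_le_norm (tc (dp δ v))).trans h6,
      (Complex.abs_im_le_norm (tc (dp δ v))).trans h6⟩
  · intro v hv
    have := g2 v hv
    rwa [hO] at this
  · intro y hy
    refine g3 y ?_
    rwa [hO]
  · intro v hv Rl v' m hc hvm hm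
    exact wall_congr hE
      ((INTF.s_side _ _ _ _ _ _ hδ hk hkn hp hS hU h hh _ hj v hv Rl v' m hc hvm).1 hm)
  · intro v hv Rl v' m hc hvm hm
    exact wall_congr hE
      ((INTF.s_side _ _ _ _ _ _ hδ hk hkn hp hS hU h hh _ hj v hv Rl v' m hc hvm).2 hm)

end One

/-- Convergence in the sense of Carathéodory. -/
structure CS (D : Set ℂ) (ψ : ℂ → ℂ) (δ : ℕ → ℝ) (N k : ℕ → ℕ) (p : ∀ n, ZMod (N n) → ℤ × ℤ)
    (S : ℕ → Finset Final.Tri) (ψn : ℕ → ℂ → ℂ) : Prop where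
  diff : DifferentiableOn ℂ ψ HP
  inj : InjOn ψ HP
  img : ψ '' HP = D
  poly : ∀ n, 0 < δ n ∧ 0 < k n ∧ k n < N n ∧ IsPolygon (p n) ∧ Encloses (p n) (S n)
  lim : Tendsto δ atTop (𝓝 0)
  ball : ∃ R : ℝ, 0 < R ∧ ∀ n, ∀ z ∈ region (δ n) (S n), ‖Final.toC z‖ ≤ R
  unifD : ∀ n, UNIQ.IsUnifD (p n) (k n) (S n) (δ n) (ψn n)
  conv : TendstoLocallyUniformlyOn ψn ψ atTop HP

/-- Hurwitz's theorem. -/
theorem hurw {ψ : ℂ → ℂ} {F : ℕ → ℂ → ℂ} (hd : DifferentiableOn ℂ ψ HP) (hi : InjOn ψ HP)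
    (hFd : ∀ n, DifferentiableOn ℂ (F n) HP) (hFi : ∀ n, InjOn (F n) HP)
    (hc : TendstoLocallyUniformlyOn F ψ atTop HP) {z : ℂ} (hz : z ∈ HP) {ε : ℝ} (hε : 0 < ε) :
    ∃ c : ℝ, 0 < c ∧ ∀ᶠ n in atTop, Metric.ball (ψ z) c ⊆ F n '' (closedBall z ε ∩ HP) := by
  obtain ⟨r0, hr0, hr0s⟩ := Metric.isOpen_iff.1 HP_open z hz
  set r := min (r0 / 2) ε with hr
  have hrp : 0 < r := lt_min (by positivity) hε
  have hcl : closedBall z r ⊆ HP :=
    (closedBall_subset_ball (lt_of_le_of_lt (min_le_left _ _) (by linarith))).trans hr0s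
  have hsp : sphere z r ⊆ HP := sphere_subset_closedBall.trans hcl
  obtain ⟨y, hy, hmin⟩ := (isCompact_sphere z r).exists_isMinOn
    (NormedSpace.sphere_nonempty.2 hrp.le)
    (((hd.continuousOn.mono hsp).sub (continuousOn_const (c := ψ z))).norm)
  set m := ‖ψ y - ψ z‖ with hm
  have hmp : 0 < m := by
    rw [hm, norm_pos_iff, sub_ne_zero]
    intro he
    have h1 := hi (hsp hy) hz he
    rw [h1, mem_sphere, dist_self] at hy
    exact hrp.ne hy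
  have hun : TendstoUniformlyOn F ψ atTop (closedBall z r) :=
    (tendstoLocallyUniformlyOn_iff_forall_isCompact HP_open).1 hc _ hcl (isCompact_closedBall _ _)
  refine ⟨m / 8, by positivity, ?_⟩
  filter_upwards [Metric.tendstoUniformlyOn_iff.1 hun (m / 8) (by positivity)] with n hn
  have h1 : DiffContOnCl ℂ (F n) (Metric.ball z r) :=
    ((hFd n).mono (by rw [closure_ball z hrp.ne']; exact hcl)).diffContOnCl
  have hz0 := hn z (mem_closedBall_self hrp.le)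
  have h2 := h1.ball_subset_image_closedBall hrp (ε := m / 2) (fun x hx => by
    have a1 : m ≤ ‖ψ x - ψ z‖ := hmin hx
    have a2 := hn x (sphere_subset_closedBall hx)
    rw [dist_eq_norm] at a2 hz0
    have e : ψ x - ψ z = (ψ x - F n x) + (F n x - F n z) - (ψ z - F n z) := by ring
    rw [e] at a1
    have a3 := norm_sub_le ((ψ x - F n x) + (F n x - F n z)) (ψ z - F n z)
    have a4 := norm_add_le (ψ x - F n x) (F n x - F n z)
    linarith) (by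
      have h3 : ∀ᶠ x in 𝓝[≠] z, F n x ≠ F n z := by
        filter_upwards [self_mem_nhdsWithin, mem_nhdsWithin_of_mem_nhds (HP_open.mem_nhds hz)]
          with x hx hx' he
        exact hx (hFi n hx' hz he)
      exact h3.frequently.filter_mono nhdsWithin_le_nhds)
  intro a ha
  obtain ⟨x, hx, hxa⟩ := h2 (show a ∈ Metric.ball (F n z) (m / 2 / 2) by
    rw [mem_ball] at ha ⊢
    linarith [dist_triangle a (ψ z) (F n z)])
  exact ⟨x, ⟨closedBall_subset_closedBall (min_le_right _ _) hx, hcl hx⟩, hxa⟩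

variable {D : Set ℂ} {ψ : ℂ → ℂ} {δ : ℕ → ℝ} {N k : ℕ → ℕ} {p : ∀ n, ZMod (N n) → ℤ × ℤ}
  {S : ℕ → Finset Final.Tri} {ψn : ℕ → ℂ → ℂ}

theorem CS.injn (h : CS D ψ δ N k p S ψn) (n : ℕ) : InjOn (ψn n) HP :=
  (h.unifD n).injOn.mono fun z hz => le_of_lt (show 0 < z.im from hz)

/-- Compact subsets of the limit domain are in the lattice domains. -/
theorem CS.cpt (h : CS D ψ δ N k p S ψn) {K : Set ℂ} (hK : IsCompact K) (hKD : K ⊆ D) :
    ∀ᶠ n in atTop, K ⊆ ψn n '' HP := by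
  refine hK.induction_on (p := fun A => ∀ᶠ n in atTop, A ⊆ ψn n '' HP)
    (Eventually.of_forall fun n => empty_subset _) (fun A B hAB hB => hB.mono fun n hn => hAB.trans hn)
    (fun A B hA hB => (hA.and hB).mono fun n hn => union_subset hn.1 hn.2) fun x hx => ?_
  obtain ⟨z, hz, rfl⟩ := h.img.symm ▸ hKD hx
  obtain ⟨c, hc, h1⟩ := hurw h.diff h.inj (fun n => (h.unifD n).diff) h.injn h.conv hz one_pos
  exact ⟨Metric.ball (ψ z) c, mem_nhdsWithin_of_mem_nhds (ball_mem_nhds _ hc),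
    h1.mono fun n hn => hn.trans (image_mono inter_subset_right)⟩

/-- **The moments of the signed heights.** -/
theorem CS.mom (h : CS D ψ δ N k p S ψn) {u : ℝ × ℝ → ℝ} (hu : DirP (dm D) ψ (KAPV.sg 0) u)
    {f : ℝ × ℝ → ℝ} (hf' : TestOn (dm D) f) :
    (∃ r : ℝ, 0 < r ∧ ∀ᶠ n in atTop, KAPV.InsF (δ n) (inn (p n) (S n)) f r) ∧
    Tendsto (fun n => Ex (Cs (p n) (k n) (S n)) fun g => - hf (δ n) f g) atTop
      (𝓝 (∫ z, u z * f z)) ∧
    ∀ j : ℕ, Tendsto (fun n => Ex (Cs (p n) (k n) (S n)) fun g =>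
      (- hf (δ n) f g - ∫ z, u z * f z) ^ j) atTop (𝓝 (gm (8 / Real.pi * V (dm D) f) j)) := by
  obtain ⟨R₀, hR₀, hb⟩ := h.ball
  have hI : Complex.I ∈ HP := by show 0 < Complex.I.im; simp
  obtain ⟨c₀, hc₀, hsub⟩ := hurw h.diff h.inj (fun n => (h.unifD n).diff) h.injn h.conv hI one_pos
  set w : ℕ → ℂ := fun n => Function.invFunOn (ψn n) HP (ψ Complex.I) with hwd
  have hw : Tendsto w atTop (𝓝 Complex.I) := by
    rw [Metric.tendsto_nhds]
    intro ε hε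
    obtain ⟨c, hc, h1⟩ := hurw h.diff h.inj (fun n => (h.unifD n).diff) h.injn h.conv hI
      (half_pos hε)
    filter_upwards [h1] with n hn
    obtain ⟨x, hx, hxe⟩ := hn (mem_ball_self hc)
    have h2 : w n = x := by
      rw [hwd]
      simp only
      rw [← hxe]
      exact OBSV.inv_f (h.injn n) hx.2
    rw [h2]
    exact lt_of_le_of_lt hx.1 (half_lt_self hε)
  choose g hg using fun n => Cs_nonempty (k := k n) (h.poly n).2.2.2.1 (h.poly n).2.2.2.2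
  have hS : ∀ᶠ n in atTop, Slt (δ n) (Fk (inn (p n) (S n)) (g n) (S n) (st (p n) (S n)) 0)
      (Pn (p n) (k n) (S n) ∪ Lk (g n) (S n) (st (p n) (S n)) 0)
      (Mn (p n) (k n) (S n) ∪ Rk (g n) (S n) (st (p n) (S n)) 0) (ψn n) (w n) (ψ Complex.I)
      R₀ c₀ := by
    filter_upwards [hsub] with n hn
    obtain ⟨a1, a2, a3, a4, a5⟩ := h.poly n
    have h1 : Metric.ball (ψ Complex.I) c₀ ⊆ ψn n '' HP := hn.trans (image_mono inter_subset_right)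
    exact slt_zero a1 a2 a3 a4 a5 (h.unifD n) (hg n) (hb n)
      (OBSV.inv_mem (h1 (mem_ball_self hc₀))) (OBSV.f_inv (h1 (mem_ball_self hc₀))) h1
  obtain ⟨l1, l2, l3, l4, l5, l6⟩ := lat_inputs
  have hκ : (0 : ℝ) < 8 / Real.pi := by positivity
  have key := core_fil (hS.mono fun i hi => KAPV.slt_bas hi) hR₀ hc₀ hI hw
    (KAPV.lat2_slt hS h.lim hκ l1 l2 l3 l4) (KAPV.land2_sltP hS h.lim l5)
    (KAPV.land2_sltM hS h.lim l6) h.diff.continuousOn h.conv (u := u) (f := f)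
    (by rw [h.img]; exact hu) (by rw [h.img]; exact hf')
  rw [h.img] at key
  -- the support
  have hDo : IsOpen D := h.img ▸ OBSV.isOpen_image HP_open h.diff h.inj
  have hK : IsCompact (tc '' tsupport f) := hf'.cs.isCompact.image OBSV.tc_cont
  have hKs : tc '' tsupport f ⊆ D := by
    rintro _ ⟨y, hy, rfl⟩
    exact hf'.2.2 hy
  obtain ⟨r, hr, hrs⟩ := hK.exists_cthickening_subset_open hDo hKs
  have hins : ∀ᶠ n in atTop, KAPV.Ins (ψn n) f r := by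
    filter_upwards [h.cpt hK.cthickening hrs] with n hn z hz
    refine Subset.trans ?_ hn
    intro y hy
    rw [mem_ball] at hy
    exact mem_cthickening_of_dist_le y (tc z) r _ (mem_image_of_mem _ hz) hy.le
  have hcv : ∀ᶠ n in atTop, ∀ A : ℝ → ℝ, ∫ ω, A (hB (Bx (δ n) (R₀ + 1)) (δ n) f ω)
      ∂(mu (Fk (inn (p n) (S n)) (g n) (S n) (st (p n) (S n)) 0)
        (Mn (p n) (k n) (S n) ∪ Rk (g n) (S n) (st (p n) (S n)) 0) (Bx (δ n) (R₀ + 1))) =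
      Ex (Cs (p n) (k n) (S n)) fun g => A (- hf (δ n) f g) := by
    filter_upwards [hS, hins] with n hn hi A
    obtain ⟨a1, a2, a3, a4, a5⟩ := h.poly n
    rw [KAPV.mu_hB hn.arcs.fin hn.dpos (KAPV.ins_supp hr hn hi) A]
    exact cE_zero a4 a5 a2 a3 a1 (hg n) _
  refine ⟨⟨r / 4, by positivity, ?_⟩, key.1.congr' ?_, fun j => (key.2 j).congr' ?_⟩
  · filter_upwards [hS, hins, h.lim.eventually (gt_mem_nhds (show (0 : ℝ) < r / 8 by positivity))]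
      with n h1 h2 h3 v hv
    exact (KAPV.slt_ins hr h1 h3 h2 v hv).1
  · filter_upwards [hcv] with n hn
    exact hn fun a => a
  · filter_upwards [hcv] with n hn
    exact hn fun a => (a - ∫ z, u z * f z) ^ j

end Vale.Agent.N153
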