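import Vale.Agent.N153.Fld1
import Vale.Agent.P153DM.Momh

/-!
N153: the limit law of the field along approximations in the sense of Carathéodory.
-/

set_option autoImplicit false
set_option linter.unusedVariables false

namespace Vale.Agent.N153

open Filter Topology Set MeasureTheory ProbabilityTheory
open Vale.Agent.P145.PT Vale.Agent.P153 Vale.Agent.P153.F.Top Vale.Agent.P153.R2
open Vale.Agent.P153.R2.FLDI
open Vale.Agent.P153.F.Dom.Arcs (HeightsB)
open Vale.Agent.P153.F.Dom (inner)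
open Vale.Agent.P153.R2.OBSV (dm tc)
open Vale.Agent.P153.R2.KAPV (HP DirP)

/-- The scalar bounds. -/
theorem scal {δ : ℕ → ℝ} {N : ℕ → ℕ} {p : ∀ n, ZMod (N n) → ℤ × ℤ}
    {S : ℕ → Finset ((ℤ × ℤ) × Bool)} (hpos : ∀ n, 0 < δ n) (hlim : Tendsto δ atTop (𝓝 0))
    {R₀ : ℝ} (hR₀ : 0 < R₀) (hb : ∀ n, ∀ v ∈ F.Dom.verts (S n), ‖dp (δ n) v‖ ≤ R₀) :
    ∃ C : ℝ, 0 ≤ C ∧ ∀ᶠ n in atTop, ∀ e : ℝ,
      ze (F.Dom.inner (p n) (S n))
        (fun ω => lf (F.Dom.inner (p n) (S n)) (fun _ => e * δ n ^ 2) ω ^ 2) ≤ C * e ^ 2 ∧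
      (∑ _v ∈ F.Dom.verts (S n), e * δ n ^ 2) ^ 2 ≤ C * e ^ 2 := by
  set R := R₀ + 1 with hRd
  have hR0 : 0 < R := by linarith
  have hR : ∀ᶠ n in atTop, F.Dom.inner (p n) (S n) ⊆ Vs (δ n) (Metric.ball 0 R) ∧
      ∀ v ∈ F.Dom.verts (S n), dp (δ n) v ∈ Metric.ball (0 : ℝ × ℝ) R := by
    filter_upwards [hlim.eventually (gt_mem_nhds (show (0 : ℝ) < 1 / 4 by norm_num))] with n hn
    refine ⟨fun v hv => (mem_Vs (hpos n) Metric.isBounded_ball).2 fun z hz => ?_, fun v hv => ?_⟩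
    · have h1 := hb n v (F.Dom.dl_inner.1 hv).1
      rw [Metric.mem_closedBall, dist_eq_norm] at hz
      rw [mem_ball_zero_iff]
      have h2 := norm_le_norm_add_norm_sub' z (dp (δ n) v)
      linarith
    · rw [mem_ball_zero_iff]
      linarith [hb n v hv]
  obtain ⟨χ, hχ, hχ0, hχ1⟩ := exists_one (D := Metric.ball (0 : ℝ × ℝ) (R + 1)) Metric.isOpen_ball
    Metric.isBounded_ball (isCompact_closedBall 0 R)
    (Metric.closedBall_subset_ball (by linarith))
  have hsupp : ∀ z, χ z ≠ 0 → z ∈ Metric.ball (0 : ℝ × ℝ) (R + 1) :=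
    fun z hz => hχ.2.2 (subset_tsupport _ hz)
  obtain ⟨C1, hC1⟩ := P153DM.mb hpos hlim (Metric.ball 0 R) Metric.isOpen_ball
    Metric.isBounded_ball χ (hχ.mono (subset_univ _)) hχ0 2
  have hab := riem_ab hχ.cont hχ.2.1 hsupp hpos hlim
  set A : ℝ := (∫ z, |χ z|) + 1 with hAd
  have hab' : ∀ᶠ n in atTop, ab (Bx (δ n) (R + 1)) (δ n) χ < A :=
    hab.eventually (gt_mem_nhds (by linarith))
  have h3 : (0 : ℝ) < √3 := by positivity
  refine ⟨(2 / √3) ^ 2 * (max C1 0 + A ^ 2), by positivity, ?_⟩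
  filter_upwards [hR, hC1, hab'] with n ⟨h1, h2⟩ h4 h5 e
  have hδ := hpos n
  set I := F.Dom.inner (p n) (S n) with hI
  have hIW : I ⊆ F.Dom.verts (S n) := fun v hv => (F.Dom.dl_inner.1 hv).1
  have htl : ∀ v ∈ F.Dom.verts (S n),
      e * δ n ^ 2 = (e * (2 / √3)) * (δ n ^ 2 * tl χ (δ n * v.1, δ n * v.2)) := by
    intro v hv
    rw [tl_dp, hχ1 _ (Metric.ball_subset_closedBall (h2 v hv))]
    field_simp
  have hm : 0 ≤ max C1 0 := le_max_right _ _
  constructor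
  · have e1 : ze I (fun ω => lf I (fun _ => e * δ n ^ 2) ω ^ 2) =
        ze I (fun ω => (e * (2 / √3)) ^ 2 * hB (Bx (δ n) (R + 1)) (δ n) χ ω ^ 2) := by
      refine ze_congr fun ω hω => ?_
      rw [← hv_Bx hδ hsupp, hv_eq_lf (δ n) χ hω, ← mul_pow]
      congr 1
      unfold lf
      rw [Finset.mul_sum]
      refine Finset.sum_congr rfl fun v hv => ?_
      rw [htl v (hIW hv)]
      ring
    rw [e1, ze_smul']
    have h6 := cone_ze_mono s_mono h1
      (cone_pow (B := Bx (δ n) (R + 1)) (δ := δ n) hχ0 2)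
    have h7 : ze (Vs (δ n) (Metric.ball (0 : ℝ × ℝ) R))
        (fun ω => hB (Bx (δ n) (R + 1)) (δ n) χ ω ^ 2) =
        EE (δ n) (Metric.ball 0 R) (fun ω => hv (δ n) χ ω ^ 2) := by
      unfold EE
      congr 1
      funext ω
      rw [hv_Bx hδ hsupp]
    rw [h7] at h6
    have h8 := (h6.trans h4).trans (le_max_left C1 0)
    have h9 := mul_le_mul_of_nonneg_left h8 (sq_nonneg (e * (2 / √3)))
    refine h9.trans ?_
    have : 0 ≤ (e * (2 / √3)) ^ 2 * A ^ 2 := by positivity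
    nlinarith
  · rw [Finset.sum_congr rfl htl, ← Finset.mul_sum, mul_pow]
    have hc0 : ∀ v : ℤ × ℤ, 0 ≤ δ n ^ 2 * tl χ (δ n * v.1, δ n * v.2) := fun v =>
      mul_nonneg (sq_nonneg _) (tl_nonneg hχ0 _)
    have h6 : ∑ v ∈ F.Dom.verts (S n), δ n ^ 2 * tl χ (δ n * v.1, δ n * v.2) ≤ A := by
      have h7 : ∑ v ∈ F.Dom.verts (S n), δ n ^ 2 * tl χ (δ n * v.1, δ n * v.2) ≤
          ∑ v ∈ Bx (δ n) (R + 1), δ n ^ 2 * tl χ (δ n * v.1, δ n * v.2) := by
        refine Finset.sum_le_sum_of_subset_of_nonneg (fun v hv => ?_) fun v _ _ => hc0 v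
        rw [mem_Bx hδ]
        exact Metric.ball_subset_ball (by linarith) (h2 v hv)
      refine h7.trans (le_trans (le_of_eq ?_) h5.le)
      unfold ab
      rw [Finset.mul_sum]
      refine Finset.sum_congr rfl fun v _ => ?_
      rw [abs_of_nonneg (tl_nonneg hχ0 _)]
    have h8 := pow_le_pow_left₀ (Finset.sum_nonneg fun v _ => hc0 v) h6 2
    have h9 := mul_le_mul_of_nonneg_left h8 (sq_nonneg (e * (2 / √3)))
    refine h9.trans ?_
    have : 0 ≤ (e * (2 / √3)) ^ 2 * max C1 0 := by positivity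
    nlinarith

/-- The field as a weighted sum. -/
theorem fld_w {f : ℝ × ℝ → ℝ} (hf : TestOn univ f) : ∃ C : ℝ, 0 ≤ C ∧ ∀ (δ : ℝ), 0 < δ →
    ∀ (n : ℕ) (p : ZMod n → ℤ × ℤ) (S : Finset ((ℤ × ℤ) × Bool)),
      tsupport f ⊆ F.Dom.region δ S →
      (∀ v, (∃ z ∈ tsupport f, dist (dp δ v) z ≤ 2 * δ) → v ∈ inner p S) →
      ∃ d : ℤ × ℤ → ℝ, (∀ v, |d v| ≤ C * δ * δ ^ 2) ∧ ∀ g : ℤ × ℤ → ℤ,
        F.Dom.fld S δ f g - hv δ f (vh (inner p S) g) = lf (inner p S) d (vh (inner p S) g) := by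
  obtain ⟨K, hK⟩ := F.Dom.fd930_csts hf
  refine ⟨2 * K, by linarith [hK.pos], fun δ hδ n p S h2 h1 => ?_⟩
  have hsup : ∀ v, GFF.wt δ f v ≠ 0 → v ∈ inner p S := fun v hv => h1 v (F.Dom.fd930_wt hδ hv)
  refine ⟨fun v => GFF.wt δ f v - δ ^ 2 * tl f (δ * v.1, δ * v.2), fun v => ?_, fun h => ?_⟩
  · have h5 := GFF.wt_close hK hδ v (dp δ v) 0 (by rw [F.Dom.fd930_dp, sub_self, norm_zero])
    rw [add_zero] at h5
    simp only
    rw [tl_dp]
    have h7 : GFF.wt δ f v - δ ^ 2 * (√3 / 2 * f (dp δ v)) =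
        δ ^ 2 * (GFF.wt δ f v / δ ^ 2 - √3 / 2 * f (dp δ v)) := by
      rw [mul_sub, mul_div_cancel₀ _ (by positivity)]
    rw [h7, abs_mul, abs_of_pos (by positivity : (0 : ℝ) < δ ^ 2)]
    refine (mul_le_mul_of_nonneg_left h5 (by positivity)).trans (le_of_eq ?_)
    ring
  · have h5 : F.Dom.fld S δ f h = GFF.smear h δ f := by
      unfold F.Dom.fld GFF.smear
      congr 1
      funext z
      by_cases hz : f z = 0
      · rw [hz, mul_zero, mul_zero]
      · rw [if_pos (h2 (subset_tsupport _ hz))]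
    have e0 : hv δ f (vh (inner p S) h) = lf (inner p S)
        (fun v => δ ^ 2 * tl f (δ * v.1, δ * v.2)) (vh (inner p S) h) :=
      hv_eq_lf δ f fun v hv => by
        unfold vh
        rw [if_neg hv]
    rw [h5, GFF.smear_eq_sum hδ hK.pos.le hK.cont hK.supp hK.zero h, e0]
    have e1 : ∑ v ∈ GFF.box δ K, (h v : ℝ) * GFF.wt δ f v =
        ∑ v ∈ GFF.box δ K ∪ inner p S, (h v : ℝ) * GFF.wt δ f v := by
      refine Finset.sum_subset Finset.subset_union_left fun v _ hv => ?_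
      rw [GFF.wt_zero_of_box hδ hK.pos.le hK.zero hv, mul_zero]
    have e2 : ∑ v ∈ inner p S, (h v : ℝ) * GFF.wt δ f v =
        ∑ v ∈ GFF.box δ K ∪ inner p S, (h v : ℝ) * GFF.wt δ f v := by
      refine Finset.sum_subset Finset.subset_union_right fun v _ hv => ?_
      have : GFF.wt δ f v = 0 := by
        by_contra hne
        exact hv (hsup v hne)
      rw [this, mul_zero]
    rw [e1, ← e2]
    unfold lf
    rw [← Finset.sum_sub_distrib]
    refine Finset.sum_congr rfl fun v hv => ?_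
    have e3 : vh (inner p S) h v = h v := by
      unfold vh
      rw [if_pos hv]
    rw [e3]
    ring

theorem hv_bk {n : ℕ} {p : ZMod n → ℤ × ℤ} {S : Finset ((ℤ × ℤ) × Bool)} {δ : ℝ}
    {f : ℝ × ℝ → ℝ} (h : ∀ v, f (dp δ v) ≠ 0 → v ∈ inner p S) (g : Hg) :
    hv δ f (vh (inner p S) (DRV.bk p S g)) = DRV.sg p S * KAPV.hf δ f g := by
  have e : ∀ v : ℤ × ℤ, vh (inner p S) (DRV.bk p S g) v * tl f (δ * v.1, δ * v.2) =
      DRV.sg p S * ((g v : ℝ) * tl f (δ * v.1, δ * v.2)) := by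
    intro v
    by_cases hv : v ∈ inner p S
    · have h1 : v ∈ Final.verts S := (F.Dom.dl_inner.1 hv).1
      unfold vh DRV.bk
      rw [if_pos hv, if_pos h1]
      push_cast
      ring
    · have h1 : f (dp δ v) = 0 := by
        by_contra hc
        exact hv (h v hc)
      rw [tl_dp, h1]
      ring
  unfold KAPV.hf hv
  simp only [e]
  rcases DRV.sg_cases p S with h1 | h1 <;> rw [h1]
  · simp
  · simp only [Int.cast_neg, Int.cast_one, neg_one_mul, finsum_neg_distrib, mul_neg]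

variable {D : Set ℂ} {ψ : ℂ → ℂ} {δ : ℕ → ℝ} {N k : ℕ → ℕ} {p : ∀ n, ZMod (N n) → ℤ × ℤ}
  {S : ℕ → Finset Final.Tri} {ψn : ℕ → ℂ → ℂ}

theorem vert_region {S : Finset Final.Tri} (δ : ℝ) {v : ℤ × ℤ} (hv : v ∈ F.Dom.verts S) :
    dp δ v ∈ Final.region δ S := by
  obtain ⟨t, ht, hvt⟩ := Finset.mem_biUnion.1 hv
  exact ⟨t, ht, subset_convexHull ℝ _ ⟨v, hvt, rfl⟩⟩

theorem CS.verts (h : CS D ψ δ N k p S ψn) :
    ∃ R : ℝ, 0 < R ∧ ∀ n, ∀ v ∈ F.Dom.verts (S n), ‖dp (δ n) v‖ ≤ R := by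
  obtain ⟨R, hR, hb⟩ := h.ball
  refine ⟨R, hR, fun n v hv => ?_⟩
  have h1 := hb n _ (vert_region (δ n) hv)
  rw [Prod.norm_def, max_le_iff, Real.norm_eq_abs, Real.norm_eq_abs]
  exact ⟨(Complex.abs_re_le_norm (Final.toC (dp (δ n) v))).trans h1,
    (Complex.abs_im_le_norm (Final.toC (dp (δ n) v))).trans h1⟩

theorem CS.law_int (h : CS D ψ δ N k p S ψn) (n : ℕ) (G : (ℤ × ℤ → ℤ) → ℝ) :
    ∫ g, G g ∂(Final.law (p n) (k n) (S n)) = Ex (HeightsB (p n) (S n) (xi (k n))) G :=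
  (lawF_spec (h.poly n).2.2.2.1 (h.poly n).2.2.2.2 (k n)).2.2 G

theorem CS.law_prob (h : CS D ψ δ N k p S ψn) (n : ℕ) :
    IsProbabilityMeasure (Final.law (p n) (k n) (S n)) :=
  (lawF_spec (h.poly n).2.2.2.1 (h.poly n).2.2.2.2 (k n)).1

theorem CS.law_integrable (h : CS D ψ δ N k p S ψn) (n : ℕ) (G : (ℤ × ℤ → ℤ) → ℝ) :
    Integrable G (Final.law (p n) (k n) (S n)) :=
  (lawF_spec (h.poly n).2.2.2.1 (h.poly n).2.2.2.2 (k n)).2.1 G

/-- The field and its Riemann sums. -/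
theorem CS.close (h : CS D ψ δ N k p S ψn) {f : ℝ × ℝ → ℝ} (hf : TestOn (dm D) f) {r : ℝ}
    (hr : 0 < r) (hins : ∀ᶠ n in atTop, KAPV.InsF (δ n) (inn (p n) (S n)) f r) :
    Tendsto (fun n => ∫ g, |Final.fld (S n) (δ n) f g - hv (δ n) f (vh (inner (p n) (S n)) g)|
      ∂(Final.law (p n) (k n) (S n))) atTop (𝓝 0) := by
  obtain ⟨R, hR, hb⟩ := h.verts
  obtain ⟨C, hC0, hC⟩ := scal (p := p) (fun n => (h.poly n).1) h.lim hR hb
  obtain ⟨C', hC'0, hC'⟩ := fld_w (hf.mono (subset_univ _))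
  have hK : IsCompact (tc '' tsupport f) := hf.cs.isCompact.image OBSV.tc_cont
  have hKs : tc '' tsupport f ⊆ D := by
    rintro _ ⟨y, hy, rfl⟩
    exact hf.2.2 hy
  have h0 : Tendsto (fun n => √(20 * C * (C' * δ n) ^ 2)) atTop (𝓝 0) := by
    have h1 := (((h.lim.const_mul C').pow 2).const_mul (20 * C)).sqrt
    simpa using h1
  refine squeeze_zero' (Eventually.of_forall fun n => integral_nonneg fun _ => abs_nonneg _) ?_ h0
  filter_upwards [hC, hins, h.cpt hK hKs,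
    h.lim.eventually (gt_mem_nhds (show (0 : ℝ) < r / 2 by positivity))] with n h1 h2 h3 h4
  obtain ⟨a1, a2, a3, a4, a5⟩ := h.poly n
  have hreg : tsupport f ⊆ F.Dom.region (δ n) (S n) := by
    intro z hz
    have h5 := h3 (mem_image_of_mem tc hz)
    rw [show ψn n '' HP = _ from (h.unifD n).image] at h5
    obtain ⟨y, hy, he⟩ := h5
    have h6 : y = z := congrArg OBSV.tp he
    rw [← h6]
    exact interior_subset hy
  obtain ⟨d, hd, hdg⟩ := hC' (δ n) a1 _ (p n) (S n) hreg fun v ⟨z, hz, hzv⟩ =>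
    h2 v ⟨z, hz, by linarith⟩
  rw [h.law_int]
  refine Real.le_sqrt_of_sq_le ((Ex_abs_sq (hB_fin (polyF a4) (enclF a5))
    (F.Dom.Arcs.heightsB_ne (polyF a4) (enclF a5) (xi_pm (k n))) _).trans ?_)
  simp only [fldF, hdg]
  refine (arcs_lf (polyF a4) (enclF a5) (xi_pm (k n)) (e := 1)
    (c := fun _ => C' * δ n * δ n ^ 2) (fun v _ => by rw [one_mul]; exact hd v)).trans ?_
  obtain ⟨b1, b2⟩ := h1 (C' * δ n)
  have hc0 : 0 ≤ C' * δ n * δ n ^ 2 := by positivity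
  have b3 : ∑ _v ∈ inner (p n) (S n), C' * δ n * δ n ^ 2 ≤
      ∑ _v ∈ F.Dom.verts (S n), C' * δ n * δ n ^ 2 :=
    Finset.sum_le_sum_of_subset_of_nonneg (fun v hv => (F.Dom.dl_inner.1 hv).1) fun _ _ _ => hc0
  have b4 := pow_le_pow_left₀ (Finset.sum_nonneg fun _ _ => hc0) b3 2
  rw [mul_one, mul_pow, one_pow, one_mul]
  nlinarith

/-- The sign. -/
theorem CS.sign (h : CS D ψ δ N k p S ψn) {s : ℝ} (hs : s = 1 ∨ s = -1) {n : ℕ} {x : ℝ}
    (hx : 0 < s * x) (he : ψn n x = INTF.PP (δ n) (p n 0)) : (DRV.sg (p n) (S n) : ℝ) = -s := by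
  obtain ⟨a1, a2, a3, a4, a5⟩ := h.poly n
  obtain ⟨-, -, h1, h2⟩ := INTF.side_pos a1 a4 a5 a2 a3 (h.unifD n)
  have h3 : (INTF.ph (ψn n) (INTF.PP (δ n) (p n 0))).re = x := by
    rw [← he, INTF.ph_eq (h.unifD n) (by simp)]
    simp
  have h0 : (0 : ZMod (N n)).val = 0 := ZMod.val_zero
  by_cases hP : DRV.Pos (p n) (S n)
  · have h4 : p n 0 ∈ DRV.Pn (p n) (k n) (S n) := by
      refine ⟨mem_range_self _, ?_⟩
      rw [DRV.Mn_pos hP]
      rintro ⟨i, hi, hk⟩
      rw [a4.2.1 hi, h0] at hk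
      omega
    have h5 := h2 _ h4
    rw [h3] at h5
    rw [DRV.sg_pos hP]
    rcases hs with rfl | rfl
    · linarith
    · norm_num
  · have h4 : p n 0 ∈ DRV.Mn (p n) (k n) (S n) := by
      rw [DRV.Mn_neg hP]
      exact ⟨0, rfl, by rw [h0]; exact a2⟩
    have h5 := h1 _ h4
    rw [h3] at h5
    rw [DRV.sg_neg hP]
    rcases hs with rfl | rfl
    · norm_num
    · linarith

/-- **The limit of the field.** -/
theorem CS.field (h : CS D ψ δ N k p S ψn) (hb : Bornology.IsBounded (dm D)) {s : ℝ}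
    (hs : s = 1 ∨ s = -1) (hsg : ∀ᶠ n in atTop, (DRV.sg (p n) (S n) : ℝ) = -s)
    {u : ℝ × ℝ → ℝ} (hu : DirP (dm D) ψ (KAPV.sg 0) u) {f : ℝ × ℝ → ℝ} (hf : TestOn (dm D) f) :
    Tendsto (fun n => ∫ g, Final.fld (S n) (δ n) f g ∂(Final.law (p n) (k n) (S n))) atTop
      (𝓝 (s * ∫ z, u z * f z)) ∧
    Final.ToGauss atTop (fun n => Final.law (p n) (k n) (S n)) h.law_prob
      (fun n => Final.fld (S n) (δ n) f) (s * ∫ z, u z * f z) (8 / Real.pi * V (dm D) f) := by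
  obtain ⟨⟨r, hr, hins⟩, m1, m2⟩ := h.mom hu hf
  have hcl := h.close hf hr hins
  set m0 : ℝ := ∫ z, u z * f z with hm0
  set v : ℝ := 8 / Real.pi * V (dm D) f with hv
  have hprob := h.law_prob
  set X : ℕ → (ℤ × ℤ → ℤ) → ℝ := fun n g => F.Top.hv (δ n) f (vh (inner (p n) (S n)) g) with hX
  have hXE : ∀ᶠ n in atTop, ∀ A : ℝ → ℝ, ∫ g, A (X n g) ∂(Final.law (p n) (k n) (S n)) =
      Ex (DRV.Cs (p n) (k n) (S n)) fun g => A (s * - KAPV.hf (δ n) f g) := by
    filter_upwards [hins, hsg] with n h1 h2 A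
    obtain ⟨a1, a2, a3, a4, a5⟩ := h.poly n
    refine (DRV.mean_law a4 a5 fun g => A (X n g)).trans (Ex_congr fun g _ => ?_)
    simp only [hX]
    rw [hv_bk (fun w hw => h1 w ⟨_, subset_tsupport _ hw, by rw [dist_self]; exact hr.le⟩), h2]
    congr 1
    ring
  have hs2 : s ^ 2 = 1 := by rcases hs with rfl | rfl <;> norm_num
  have hv0 : 0 ≤ v := mul_nonneg (by positivity) (V_nonneg hb hf)
  have hXm : ∀ n, AEMeasurable (Final.fld (S n) (δ n) f) (Final.law (p n) (k n) (S n)) := fun n =>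
    (h.law_integrable n _).aestronglyMeasurable.aemeasurable
  constructor
  · have h1 : Tendsto (fun n => ∫ g, X n g ∂(Final.law (p n) (k n) (S n))) atTop (𝓝 (s * m0)) := by
      refine (m1.const_mul s).congr' ?_
      filter_upwards [hXE] with n hn
      rw [hn fun a => a, Ex_const_mul]
    have h3 : Tendsto (fun n => ∫ g, (Final.fld (S n) (δ n) f g - X n g)
        ∂(Final.law (p n) (k n) (S n))) atTop (𝓝 0) :=
      squeeze_zero_norm (fun n => abs_integral_le_integral_abs) hcl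
    have h4 := h3.add h1
    rw [zero_add] at h4
    refine h4.congr fun n => ?_
    rw [integral_sub (h.law_integrable n _) (h.law_integrable n _)]
    ring
  refine ⟨hv0, hXm, by fun_prop, ?_⟩
  refine ProbabilityMeasure.tendsto_of_tendsto_charFun fun t => ?_
  simp only [ProbabilityMeasure.coe_mk, Measure.map_id]
  rw [charFun_gaussianReal]
  set m : ℝ := s * m0 with hm
  have hmom : ∀ j : ℕ, Tendsto (fun n => ∫ g, (t * (X n g - m)) ^ j
      ∂(Final.law (p n) (k n) (S n))) atTop (𝓝 (gm (t ^ 2 * v) j)) := by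
    intro j
    have h1 := (m2 j).const_mul ((t * s) ^ j)
    rw [← (gm_scale (t * s) v j).1, mul_pow t s 2, hs2, mul_one] at h1
    refine h1.congr' ?_
    filter_upwards [hXE] with n hn
    rw [hn fun a => (t * (a - m)) ^ j, ← Ex_const_mul]
    refine Ex_congr fun g _ => ?_
    rw [← mul_pow, hm]
    congr 1
    ring
  have h1 := charfun_of_moments (l := atTop) (fun n => Final.law (p n) (k n) (S n))
    (fun n g => t * (X n g - m)) (fun n j => h.law_integrable n _) hmom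
  have h2 : Tendsto (fun n => ∫ g, Complex.exp (Complex.I * ((t * X n g : ℝ) : ℂ))
      ∂(Final.law (p n) (k n) (S n))) atTop
      (𝓝 (Complex.exp (Complex.I * ((t * m : ℝ) : ℂ)) *
        Complex.exp ((-(t ^ 2 * v / 2) : ℝ) : ℂ))) := by
    refine (h1.const_mul (Complex.exp (Complex.I * ((t * m : ℝ) : ℂ)))).congr fun n => ?_
    rw [← integral_const_mul]
    congr 1
    funext g
    rw [← Complex.exp_add]
    congr 1
    push_cast
    ring
  have h3 : Tendsto (fun n => (∫ g, Complex.exp (Complex.I *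
      ((t * Final.fld (S n) (δ n) f g : ℝ) : ℂ)) ∂(Final.law (p n) (k n) (S n))) -
      ∫ g, Complex.exp (Complex.I * ((t * X n g : ℝ) : ℂ)) ∂(Final.law (p n) (k n) (S n)))
      atTop (𝓝 0) := by
    have h4 := hcl.const_mul |t|
    rw [mul_zero] at h4
    refine squeeze_zero_norm (fun n => ?_) h4
    have hi : ∀ Y : (ℤ × ℤ → ℤ) → ℝ, Integrable (fun g => Complex.exp (Complex.I * (Y g : ℂ)))
        (Final.law (p n) (k n) (S n)) := by
      intro Y
      have hYm : AEStronglyMeasurable Y (Final.law (p n) (k n) (S n)) :=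
        (h.law_integrable n Y).aestronglyMeasurable
      refine Integrable.of_bound (C := 1) ?_ (ae_of_all _ fun g => ?_)
      · exact Complex.continuous_exp.comp_aestronglyMeasurable
          ((Complex.continuous_ofReal.comp_aestronglyMeasurable hYm).const_mul _)
      · rw [Complex.norm_exp_I_mul_ofReal]
    rw [← integral_sub (hi _) (hi _)]
    refine (norm_integral_le_integral_norm _).trans ?_
    rw [← integral_const_mul]
    refine integral_mono ((hi _).sub (hi _)).norm (h.law_integrable n _) fun g => ?_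
    refine (exp_lip _ _).trans ?_
    rw [← mul_sub, abs_mul]
  have h5 := h3.add h2
  rw [zero_add, ← Complex.exp_add] at h5
  have e1 : Complex.I * ((t * m : ℝ) : ℂ) + ((-(t ^ 2 * v / 2) : ℝ) : ℂ) =
      (t : ℂ) * ((m : ℝ) : ℂ) * Complex.I - ((v.toNNReal : ℝ) : ℂ) * (t : ℂ) ^ 2 / 2 := by
    rw [Real.coe_toNNReal _ hv0]
    push_cast
    ring
  rw [e1] at h5
  refine h5.congr fun n => ?_
  rw [sub_add_cancel, charFun_apply_real, integral_map (hXm n) (by fun_prop)]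
  refine integral_congr_ae (ae_of_all _ fun g => ?_)
  simp only
  congr 1
  push_cast
  ring

end Vale.Agent.N153
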