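import Vale.Agent.N153.Fld2
import Vale.Agent.N153.Stmt
import Vale.Agent.P153E.Sob

/-!
N153: the field theorem for test functions, the mean and the Green function.
-/

set_option autoImplicit false
set_option linter.unusedVariables false

namespace Vale.Agent.N153

open MeasureTheory ProbabilityTheory Filter Topology Set TopologicalSpace InnerProductSpace
open Vale.Agent.P153 Vale.Agent.P153.H212 Vale.Agent.P153.R2
open Vale.Agent.P153E (IsGreen IsUnif)
open Vale.Agent.P153.R2.OBSV (dm)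
open Vale.Agent.P153.R2.KAPV (HP HP_open DirP Unif toC toR gk rk QQ)
open Vale.Agent.P153DG (mem_e)
open Vale.Agent.P153D (gD)

variable {D : Set ℂ} {ψ : ℂ → ℂ} {s : ℝ} {δ : ℕ → ℝ} {N k : ℕ → ℕ}
  {p : ∀ n, ZMod (N n) → ℤ × ℤ} {S : ℕ → Finset (Finset (ℤ × ℤ))}

theorem dm_eq (D : Set ℂ) : dm D = e '' D := Set.ext fun _ => mem_e.symm

theorem int_region {S : Finset (Finset (ℤ × ℤ))} (hS : Tris S) (δ : ℝ) :
    Final.toC '' interior (Final.region δ (old S)) = interior (region δ S) := by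
  have h1 : region δ S = e.symm.toHomeomorph '' Final.region δ (old S) := by
    ext z
    rw [mem_region hS]
    exact ⟨fun h => ⟨_, h, e.symm_apply_apply z⟩, fun ⟨w, hw, he⟩ => by
      rw [← he]
      exact (e.apply_symm_apply w).symm ▸ hw⟩
  rw [h1, ← Homeomorph.image_interior]
  rfl

theorem PP_pt (δ : ℝ) (v : ℤ × ℤ) : INTF.PP δ v = δ * pt v := by
  have h1 : INTF.PP δ v = e.symm (δ • Final.pt v) := rfl
  rw [h1, ← e_pt, map_smul, e.symm_apply_apply, Complex.real_smul]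

theorem unifD_iff {n k : ℕ} {p : ZMod n → ℤ × ℤ} {S : Finset (Finset (ℤ × ℤ))} {δ : ℝ}
    (hδ : 0 < δ) (hE : Encloses p S) {ψ : ℂ → ℂ} :
    UNIQ.IsUnifD p k (old S) δ ψ ↔
      IsUnif (interior (region δ S)) (δ * curve p (-1 / 2)) (δ * curve p (k - 1 / 2)) ψ := by
  have e1 : Final.mid δ (p (-1)) (p 0) = δ * curve p (-1 / 2) := by rw [curve_start, mid_eq]
  have e2 : UNIQ.bptD p k δ = δ * curve p (k - 1 / 2) := by rw [curve_end, UNIQ.bptD, mid_eq]
  have e3 := int_region (tris_of hE) δ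
  constructor
  · intro h
    have hi : InjOn ψ {z | 0 < z.im} := h.injOn.mono fun z hz => le_of_lt (show 0 < z.im from hz)
    refine ⟨h.diff, ?_, h.cont, h.zero.trans e1, e2 ▸ h.inf⟩
    rw [← e3, ← h.image]
    exact hi.bijOn_image
  · rintro ⟨h1, h2, h3, h4, h5⟩
    have hU : R1.IsU ψ (R1.DP (old S) δ) (Final.mid δ (p (-1)) (p 0)) (UNIQ.bptD p k δ) :=
      ⟨h1, h2.injOn, h2.image_eq.trans e3.symm, h3, h4.trans e1.symm, e2 ▸ h5⟩
    have hG := (UNIQ.polyFacts _ p (old S) δ hδ (isPolygon hE) (encl_old hE)).good hδ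
      (isPolygon hE)
    obtain ⟨i1, i2⟩ := hU.injOn hG.nocut
    exact ⟨h1, i1, hU.img, h3, hU.zero, hU.infty, i2⟩

theorem cs_of (hψ : IsConf D ψ) (hs : s = 1 ∨ s = -1) (h : Cara ψ s δ N k p S) :
    ∃ ψn, CS D ψ δ N k p (fun n => old (S n)) ψn ∧
      ∀ᶠ n in atTop, (DRV.sg (p n) (old (S n)) : ℝ) = -s := by
  obtain ⟨h1, h2, ⟨R, hR⟩, ψn, h3, h4, h5⟩ := h
  have hC : CS D ψ δ N k p (fun n => old (S n)) ψn := by
    refine ⟨hψ.1, hψ.2.injOn, hψ.2.image_eq, fun n => ⟨(h1 n).1, (h1 n).2.1, (h1 n).2.2.1,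
      isPolygon (h1 n).2.2.2, encl_old (h1 n).2.2.2⟩, h2, ⟨max R 1, by positivity, ?_⟩,
      fun n => (unifD_iff (h1 n).1 (h1 n).2.2.2).2 (h3 n), h5⟩
    intro n z hz
    have h6 : e.symm z ∈ region (δ n) (S n) := by
      rw [mem_region (tris_of (h1 n).2.2.2), e.apply_symm_apply]
      exact hz
    exact (mem_closedBall_zero_iff.1 (hR n h6)).trans (le_max_left _ _)
  refine ⟨ψn, hC, ?_⟩
  filter_upwards [h4] with n ⟨x, hx, he⟩
  exact hC.sign hs hx (he.trans (PP_pt _ _).symm)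

theorem IsConf.opn (h : IsConf D ψ) : IsOpen D :=
  h.2.image_eq ▸ OBSV.isOpen_image HP_open h.1 h.2.injOn

theorem IsConf.unif (h : IsConf D ψ) : Unif (e '' D) ψ (Function.invFunOn ψ HP) := by
  have i : ψ '' HP = D := h.2.image_eq
  rw [← i]
  exact ⟨h.1, fun w hw => mem_e.2 (mem_image_of_mem ψ hw),
    fun z hz => (OBSV.inv_diff HP_open h.1 h.2.injOn).differentiableAt
      ((OBSV.isOpen_image HP_open h.1 h.2.injOn).mem_nhds (mem_e.1 hz)),
    fun z hz => OBSV.inv_mem (mem_e.1 hz), fun z hz => OBSV.f_inv (mem_e.1 hz),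
    fun w hw => OBSV.inv_f h.2.injOn hw⟩

theorem bdd_e (hb : Bornology.IsBounded D) : Bornology.IsBounded (e '' D) :=
  (hb.isCompact_closure.image e.continuous).isBounded.subset (image_mono subset_closure)

theorem open_e (hD : IsOpen D) : IsOpen (e '' D) := e.toHomeomorph.isOpenMap _ hD

/-! ### The mean -/

theorem vert_tendsto (y : ℝ) :
    Tendsto (fun η : ℝ => (⟨y, η⟩ : ℂ)) (𝓝[>] 0) (𝓝[{z : ℂ | 0 < z.im}] (y : ℂ)) := by
  refine tendsto_nhdsWithin_iff.2 ⟨?_, eventually_mem_nhdsWithin.mono fun η hη => hη⟩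
  have h2 : Continuous fun η : ℝ => (⟨y, η⟩ : ℂ) := by
    have : (fun η : ℝ => (⟨y, η⟩ : ℂ)) = fun η : ℝ => (y : ℂ) + η * Complex.I := by
      funext η
      apply Complex.ext <;> simp
    rw [this]
    fun_prop
  exact (h2.tendsto 0).mono_left nhdsWithin_le_nhds

theorem IsMean.dirP (hψ : IsConf D ψ) (hs : s = 1 ∨ s = -1) {u : ℂ → ℝ} (hu : IsMean D ψ s u) :
    DirP (dm D) ψ (KAPV.sg 0) fun z => s * u (toC z) := by
  obtain ⟨h1, h2, h3, h4⟩ := hu
  refine ⟨?_, ⟨1, fun z hz => ?_⟩, ?_⟩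
  · rw [KAPV.harm_iff (OBSV.dm_open hψ.opn)]
    intro z hz
    exact (h1 _ hz).const_smul (c := s)
  · rw [abs_mul]
    have : |s| = 1 := by rcases hs with rfl | rfl <;> norm_num
    rw [this, one_mul]
    exact h2 _ hz
  · have hae : ∀ᵐ y : ℝ, y ≠ 0 := by rw [ae_iff]; simp
    filter_upwards [hae] with y hy
    unfold KAPV.sg
    rcases hs with rfl | rfl
    · simp only [one_mul] at h3 h4 ⊢
      rcases lt_or_gt_of_ne hy with hlt | hgt
      · rw [if_neg (not_lt.2 hlt.le)]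
        exact (h4 y hlt).comp (vert_tendsto y)
      · rw [if_pos hgt]
        exact (h3 y hgt).comp (vert_tendsto y)
    · simp only [neg_one_mul] at h3 h4 ⊢
      rcases lt_or_gt_of_ne hy with hlt | hgt
      · rw [if_neg (not_lt.2 hlt.le)]
        exact ((h3 y (by linarith)).comp (vert_tendsto y)).neg
      · rw [if_pos hgt]
        have := ((h4 y (by linarith)).comp (vert_tendsto y)).neg
        rwa [neg_neg] at this

theorem arg_lim {x : ℝ} (hx : x ≠ 0) : Tendsto (fun z : ℂ => 1 - 2 / Real.pi * z.arg)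
    (𝓝[{z : ℂ | 0 < z.im}] (x : ℂ)) (𝓝 (if 0 < x then 1 else -1)) := by
  rcases lt_or_gt_of_ne hx with hlt | hgt
  · rw [if_neg (not_lt.2 hlt.le)]
    have h1 := (Complex.tendsto_arg_nhdsWithin_im_nonneg_of_re_neg_of_im_zero (z := (x : ℂ))
      (by simpa using hlt) (by simp)).mono_left
      (nhdsWithin_mono _ fun z (hz : 0 < z.im) => le_of_lt hz)
    have h2 := (h1.const_mul (2 / Real.pi)).const_sub 1
    have e : 1 - 2 / Real.pi * Real.pi = -1 := by field_simp; norm_num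
    rwa [e] at h2
  · rw [if_pos hgt]
    have h1 := ((Complex.continuousAt_arg (x := (x : ℂ)) (Or.inl (by simpa using hgt))).tendsto
      ).mono_left (nhdsWithin_le_nhds (s := {z : ℂ | 0 < z.im}))
    have h2 := (h1.const_mul (2 / Real.pi)).const_sub 1
    rwa [Complex.arg_ofReal_of_nonneg hgt.le, mul_zero, sub_zero] at h2

theorem exists_mean (hψ : IsConf D ψ) (hs : s = 1 ∨ s = -1) : ∃ u, IsMean D ψ s u := by
  have hU := hψ.unif
  have hP := hU.uarg_dirP (open_e hψ.opn) 0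
  have hv : ∀ z : ℂ, 0 < z.im → KAPV.uarg (Function.invFunOn ψ HP) 0 (toR (ψ z)) =
      1 - 2 / Real.pi * z.arg := fun z hz => by
    unfold KAPV.uarg
    rw [KAPV.toC_toR, hU.GF z hz]
    simp
  have hl : ∀ x : ℝ, x ≠ 0 → Tendsto
      (fun z => s * KAPV.uarg (Function.invFunOn ψ HP) 0 (toR (ψ z)))
      (𝓝[{z : ℂ | 0 < z.im}] (x : ℂ)) (𝓝 (s * if 0 < x then 1 else -1)) := fun x hx =>
    ((arg_lim hx).const_mul s).congr' (eventually_mem_nhdsWithin.mono fun z hz => by
      simp only [hv z hz])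
  refine ⟨fun z => s * KAPV.uarg (Function.invFunOn ψ HP) 0 (toR z), fun z hz => ?_,
    fun z hz => ?_, fun x hx => ?_, fun x hx => ?_⟩
  · exact ((KAPV.harm_iff (open_e hψ.opn)).1 hP.harm (toR z) (mem_e.2 hz)).const_smul (c := s)
  · rw [abs_mul]
    have : |s| = 1 := by rcases hs with rfl | rfl <;> norm_num
    rw [this, one_mul]
    exact KAPV.uarg_abs (KAPV.HP_sub (hU.Gm (toR z) (mem_e.2 hz)) 0)
  · have h1 := hl x (by rintro rfl; simp at hx)
    rcases hs with rfl | rfl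
    · rwa [if_pos (by linarith), mul_one] at h1
    · rwa [if_neg (by linarith), neg_mul_neg, mul_one] at h1
  · have h1 := hl x (by rintro rfl; simp at hx)
    rcases hs with rfl | rfl
    · rwa [if_neg (by linarith), one_mul] at h1
    · rwa [if_pos (by linarith), mul_one] at h1

/-! ### The field theorem -/

theorem fieldT (hψ : IsConf D ψ) (hb : Bornology.IsBounded D) (hs : s = 1 ∨ s = -1) {u : ℂ → ℝ}
    (hu : IsMean D ψ s u) (h : Cara ψ s δ N k p S) {φ : ℂ → ℝ} (hφ : TestOn D φ) :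
    Tendsto (fun n => ∫ h, fld (S n) (δ n) φ h ∂law (p n) (S n) (arcs (k n))) atTop
      (𝓝 (∫ z, u z * φ z)) ∧
    ToGauss atTop (fun n => law (p n) (S n) (arcs (k n)))
      (fun n h => fld (S n) (δ n) φ h - ∫ g, fld (S n) (δ n) φ g ∂law (p n) (S n) (arcs (k n)))
      0 (8 / Real.pi * V D φ) ∧
    ToGauss atTop (fun n => law (p n) (S n) (arcs (k n))) (fun n => fld (S n) (δ n) φ)
      (∫ z, u z * φ z) (8 / Real.pi * V D φ) := by
  obtain ⟨ψn, hC, hsg⟩ := cs_of hψ hs h
  have hφ' : P145.PT.TestOn (dm D) (φ ∘ e.symm) := by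
    rw [dm_eq]
    exact (testOn_iff _ _).1 hφ
  obtain ⟨l1, l2⟩ := hC.field (by rw [dm_eq]; exact bdd_e hb) hs hsg (hu.dirP hψ hs) hφ'
  have hm : s * ∫ z, s * u (toC z) * (φ ∘ e.symm) z = ∫ z, u z * φ z := by
    rw [← integral_e, ← integral_const_mul]
    refine congrArg _ (funext fun z => ?_)
    have h1 : toC (e z) = z := rfl
    have h2 : s * s = 1 := by rcases hs with rfl | rfl <;> norm_num
    rw [h1, Function.comp_apply, e.symm_apply_apply, ← mul_assoc, ← mul_assoc, h2, one_mul]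
  have hV : P145.PT.V (dm D) (φ ∘ e.symm) = V D φ := by
    rw [dm_eq]
    exact V_eq D φ
  rw [hm] at l1 l2
  rw [hV] at l2
  have hS : ∀ n, Tris (S n) := fun n => tris_of (h.1 n).2.2.2
  have hlaw : ∀ n, law (p n) (S n) (arcs (k n)) = Final.law (p n) (k n) (old (S n)) :=
    fun n => law_arcs (hS n) (k n)
  have hfld : ∀ n, fld (S n) (δ n) φ = Final.fld (old (S n)) (δ n) (φ ∘ e.symm) :=
    fun n => fld_fun (hS n) (δ n) φ
  simp only [hlaw, hfld]
  exact ⟨l1, center_of l2 l1, toGauss_of l2⟩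

theorem mean_uniq (hE : EXC) (hψ : IsConf D ψ) (hb : Bornology.IsBounded D)
    (hs : s = 1 ∨ s = -1) {u u' : ℂ → ℝ} (hu : IsMean D ψ s u) (hu' : IsMean D ψ s u') :
    EqOn u' u D := by
  obtain ⟨N, k, p, S, hA⟩ := hE D ψ hψ hb s hs (fun n => 1 / ((n : ℝ) + 1))
    (fun n => by positivity) tendsto_one_div_add_atTop_nhds_zero_nat
  have hD := hψ.opn
  have hc : ContinuousOn (fun z => u' z - u z) D := hu'.1.continuousOn.sub hu.1.continuousOn
  have h1 := hD.ae_eq_zero_of_integral_contDiff_smul_eq_zero (μ := volume)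
    (f := fun z => u' z - u z) (hc.locallyIntegrableOn hD.measurableSet) fun g g1 g2 g3 => by
      have hφ : TestOn D g := ⟨g1, g2, g3⟩
      have h2 := tendsto_nhds_unique (fieldT hψ hb hs hu hA hφ).1 (fieldT hψ hb hs hu' hA hφ).1
      have hi : ∀ {v : ℂ → ℝ}, ContinuousOn v D → Integrable fun z => v z * g z := by
        intro v hv
        have h3 : Continuous fun z => v z * g z := by
          refine continuous_of_tsupport fun z hz => ?_
          have hz' : z ∈ D := g3 (tsupport_mul_subset_right hz)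
          exact (hv.continuousAt (hD.mem_nhds hz')).mul g1.continuous.continuousAt
        exact h3.integrable_of_hasCompactSupport g2.mul_left
      have h4 : (fun z => g z • (u' z - u z)) = fun z => u' z * g z - u z * g z := by
        funext z
        rw [smul_eq_mul]
        ring
      rw [h4, integral_sub (hi hu'.1.continuousOn) (hi hu.1.continuousOn), h2, sub_self]
  have h5 : EqOn (fun z => u' z - u z) (fun _ => 0) D :=
    Measure.eqOn_open_of_ae_eq (μ := volume) ((ae_restrict_iff' hD.measurableSet).2 h1) hD hc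
      continuousOn_const
  exact fun z hz => sub_eq_zero.1 (h5 hz)

/-! ### The Green function and the variance -/

theorem isGreen_gD (h : IsConf D ψ) : IsGreen D (gD ψ) := by
  have hU := h.unif
  have hD := h.opn
  have hD' : IsOpen (e '' D) := open_e hD
  have hm : ∀ z ∈ D, toR z ∈ e '' D := fun z hz => mem_e.2 hz
  intro w hw
  refine ⟨⟨fun z => rk (Function.invFunOn ψ HP) (toR w) (toR z), fun z hz =>
    (KAPV.harm_iff hD').1 (hU.rk_harm hD' (hm w hw)) _ (hm z hz), fun z hz hzw => ?_⟩,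
    fun x hx => ?_⟩
  · have h1 := hU.gk_eq (hm z hz) (hm w hw) fun k => hzw (congrArg toC k)
    rw [KAPV.green_eq] at h1
    refine Eq.trans h1 ?_
    rw [one_div, Real.log_inv, KAPV.toC_toR, KAPV.toC_toR]
    ring
  · rw [Metric.tendsto_nhds]
    intro ε hε
    have hw' := hU.Gm _ (hm w hw)
    obtain ⟨s, R, hs, hQ⟩ := P153D.gk_small hw' (half_pos hε)
    have hK : IsCompact (ψ '' QQ s R) :=
      (KAPV.QQ_compact s R).image_of_continuousOn (hU.Fd.continuousOn.mono (KAPV.QQ_sub hs))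
    have hx' : x ∉ ψ '' QQ s R := by
      rintro ⟨a, ha, rfl⟩
      rw [hD.frontier_eq] at hx
      exact hx.2 (h.2.mapsTo (KAPV.QQ_sub hs ha))
    filter_upwards [self_mem_nhdsWithin,
      mem_nhdsWithin_of_mem_nhds (hK.isClosed.isOpen_compl.mem_nhds hx')] with z hz hzK
    have hz' := hU.Gm _ (hm z hz)
    have h1 := hQ _ hz' fun k => hzK ⟨_, k, hU.FG _ (hm z hz)⟩
    have h2 := KAPV.gk_nonneg hz' hw'
    rw [Real.dist_eq, sub_zero]
    exact (abs_of_nonneg h2).trans_lt (h1.trans_lt (half_lt_self hε))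

theorem green_V (h : IsConf D ψ) (hb : Bornology.IsBounded D) {G : ℂ → ℂ → ℝ} (hG : IsGreen D G)
    {f g : ℂ → ℝ} (hf : TestOn D f) (hg : TestOn D g) :
    (∫ z in D, ∫ w in D, f z * G z w * f w) = V D f ∧
    (∫ z in D, ∫ w in D, f z * G z w * g w) =
      (V D (fun z => f z + g z) - V D (fun z => f z - g z)) / 4 := by
  have hm : MeasurableSet D := h.opn.measurableSet
  have key : ∀ a b : ℂ → ℝ, (∫ z in D, ∫ w in D, a z * G z w * b w) =
      ∫ z in D, ∫ w in D, a z * gD ψ z w * b w := by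
    intro a b
    refine setIntegral_congr_fun hm fun z hz => ?_
    refine setIntegral_congr_ae hm ?_
    have h3 : ∀ᵐ w : ℂ, w ≠ z := Measure.ae_ne volume z
    filter_upwards [h3] with w hw hw'
    rw [le_antisymm (P153D.green_le h.opn hb hG (isGreen_gD h) hz hw' hw.symm)
      (P153D.green_le h.opn hb (isGreen_gD h) hG hz hw' hw.symm)]
  have hD := open_e h.opn
  have hb' := bdd_e hb
  have hf' := (testOn_iff _ _).1 hf
  have hg' := (testOn_iff _ _).1 hg
  rw [key, key, P153DG.dbl ψ hf hf, P153DG.dbl ψ hf hg, ← V_eq, ← V_eq, ← V_eq]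
  exact ⟨(P153DG.sol_pot h.unif hD hb' hf').eq_V hD hb' hf', P153DG.pot_V h.unif hD hb' hf' hg'⟩

theorem le_V' (hb : Bornology.IsBounded D) {φ χ : ℂ → ℝ} (hφ : TestOn D φ) (hχ : TestOn D χ) :
    (2 * ∫ z, φ z * χ z) - ∫ z, ‖fderiv ℝ χ z‖ ^ 2 ≤ V D φ := by
  have h1 := Vale.Agent.P145.PT.le_V (D := e '' D) (D' := e '' D) (bdd_e hb)
    (φ := φ ∘ e.symm) (ψ := χ ∘ e.symm) ((testOn_iff _ _).1 hφ) ((testOn_iff _ _).1 hχ)
  have h2 : Vale.Agent.P145.PT.V (e '' D) (φ ∘ e.symm) = V D φ := V_eq D φ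
  have h3 : Vale.Agent.P145.PT.energy (χ ∘ e.symm) = ∫ z, ‖fderiv ℝ χ z‖ ^ 2 := energy_eq χ
  have h4 : ∫ z, (φ ∘ e.symm) z * (χ ∘ e.symm) z = ∫ z, φ z * χ z := by
    rw [← integral_e]
    simp only [Function.comp, e.symm_apply_apply]
  rw [h2, h3, h4] at h1
  exact h1

theorem V_nn (hb : Bornology.IsBounded D) {φ : ℂ → ℝ} (hφ : TestOn D φ) : 0 ≤ V D φ := by
  have h := le_V' hb hφ (P153DK.test_zero D)
  simpa using h

theorem V_pos' (hb : Bornology.IsBounded D) {φ : ℂ → ℝ} (hφ : TestOn D φ) (h0 : φ ≠ 0) :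
    0 < V D φ := by
  have hc : Continuous φ := hφ.1.continuous
  have ha : 0 < ∫ z, φ z * φ z := by
    have h1 : Continuous fun z => φ z * φ z := hc.mul hc
    obtain ⟨z, hz⟩ : ∃ z, φ z ≠ 0 := by
      by_contra h
      push Not at h
      exact h0 (funext h)
    refine h1.integral_pos_of_hasCompactSupport_nonneg_nonzero (x := z) ?_ ?_ ?_
    · exact hφ.2.1.mul_left
    · exact fun z => mul_self_nonneg _
    · exact mul_ne_zero hz hz
  have hb' : 0 ≤ ∫ z, ‖fderiv ℝ φ z‖ ^ 2 := integral_nonneg fun z => by positivity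
  set a := ∫ z, φ z * φ z with ha'
  set b := ∫ z, ‖fderiv ℝ φ z‖ ^ 2 with hb''
  have key : ∀ t : ℝ, t * (2 * a) - t ^ 2 * b ≤ V D φ := by
    intro t
    have hψ : TestOn D (fun z => t * φ z) := by
      refine ⟨contDiff_const.mul hφ.1, hφ.2.1.mul_left, ?_⟩
      refine (closure_mono ?_).trans hφ.2.2
      intro z hz
      rw [Function.mem_support] at hz ⊢
      exact right_ne_zero_of_mul hz
    have h1 := le_V' hb hφ hψ
    have h2 : ∫ z, φ z * (t * φ z) = t * a := by
      rw [ha', ← integral_const_mul]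
      refine integral_congr_ae (ae_of_all _ fun z => ?_)
      simp only
      ring
    have h3 : ∫ z, ‖fderiv ℝ (fun z => t * φ z) z‖ ^ 2 = t ^ 2 * b := by
      rw [hb'', ← integral_const_mul]
      refine integral_congr_ae (ae_of_all _ fun z => ?_)
      simp only
      have : fderiv ℝ (fun z => t * φ z) z = t • fderiv ℝ φ z := by
        have hd : DifferentiableAt ℝ φ z := (hφ.1.differentiable (by simp)) z
        exact fderiv_const_mul hd t
      rw [this, norm_smul, mul_pow, Real.norm_eq_abs, sq_abs]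
    rw [h2, h3] at h1
    linarith
  have h := key (a / (b + 1))
  have hb1 : 0 < b + 1 := by linarith
  have h5 : 0 < a / (b + 1) * (2 * a) - (a / (b + 1)) ^ 2 * b := by
    have e1 : a / (b + 1) * (2 * a) - (a / (b + 1)) ^ 2 * b =
        a ^ 2 * (b + 2) / (b + 1) ^ 2 := by
      field_simp
      ring
    rw [e1]
    positivity
  linarith

end Vale.Agent.N153
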