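import Vale.Agent.N153.Fld3

/-!
N153: the field theorem in the space of distributions and in the negative Sobolev spaces.
-/

set_option autoImplicit false
set_option linter.unusedVariables false

namespace Vale.Agent.N153

open MeasureTheory ProbabilityTheory Filter Topology Set TopologicalSpace Metric
open Vale.Agent.P153 Vale.Agent.P153.H212 Vale.Agent.P153.R2
open Vale.Agent.P153E (IsGreen IsUnif IsField InLaw IsH0 field_iff sq_gau meas_dual)
open Vale.Agent.P153D (Te Di test_on)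
open Vale.Agent.P153DH (Rep H0 Hm IsGFF)
open _root_.P153DK

variable {D : Opens ℂ} {ψ : ℂ → ℂ} {s : ℝ}

/-- The limit theorem from its probabilistic parts. -/
theorem lim_gen (hE : EXC) (hψ : IsConf D ψ) (hb : Bornology.IsBounded (D : Set ℂ))
    (hs : s = 1 ∨ s = -1) {E : Type} [AddCommGroup E] [Module ℝ E] [TopologicalSpace E]
    [MeasurableSpace E] {ev : E → Te D → ℝ}
    (hm : ∀ f, Measurable fun T => ev T f) (ha : ∀ T f g, ev T (f + g) = ev T f + ev T g)
    (hsub : ∀ T f g, ev T (f - g) = ev T f - ev T g) {ν : Measure E} (h1 : IsProbabilityMeasure ν)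
    (h2 : ∀ f, ν.map (fun T => ev T f) = gaussianReal 0 (V D f).toNNReal)
    (h3 : ∀ ν' : Measure E, IsProbabilityMeasure ν' →
      (∀ f, ν'.map (fun T => ev T f) = gaussianReal 0 (V D f).toNNReal) → ν' = ν)
    {u : ℂ → ℝ} {U : E} (hu : IsMean D ψ s u) (hU : ∀ f, ev U f = ∫ z, u z * f z)
    (hL : ∀ (δ : ℕ → ℝ) (N k : ℕ → ℕ) (p : ∀ n, ZMod (N n) → ℤ × ℤ)
      (S : ℕ → Finset (Finset (ℤ × ℤ))), Cara ψ s δ N k p S →
      ∃ (X : ℕ → (ℤ × ℤ → ℤ) → E) (M : ℕ → E),
        (∀ n h f, ev (X n h) f = fld (S n) (δ n) f h) ∧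
        (∀ n f, ev (M n) f = ∫ h, fld (S n) (δ n) f h ∂law (p n) (S n) (arcs (k n))) ∧
        InLaw (fun n => law (p n) (S n) (arcs (k n))) (fun n h => X n h - M n) ν
          (fun T => √(8 / Real.pi) • T) ∧
        InLaw (fun n => law (p n) (S n) (arcs (k n))) X ν (fun T => U + √(8 / Real.pi) • T)) :
    FieldLimit ψ s ev := by
  intro G hG
  have hV : ∀ f : Te D, 0 ≤ V D f := fun f => V_nn hb (test_on f)
  have hiff := field_iff (ev := ev) (G := G) (v := fun f => V D f) hm ha hsub hV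
    (fun f => (green_V hψ hb hG (test_on f) (test_on f)).1)
    (fun f g => (green_V hψ hb hG (test_on f) (test_on g)).2)
  refine ⟨ν, (hiff ν).2 ⟨h1, h2⟩, fun P' hP' => h3 P' ((hiff P').1 hP').1 ((hiff P').1 hP').2,
    fun f hf => ?_, u, U, hu, fun u' hu' => mean_uniq hE hψ hb hs hu hu', hU,
    fun δ N k p S hA => ?_⟩
  · rw [(sq_gau (hm f) (h2 f)).2, Real.coe_toNNReal _ (hV f)]
    exact V_pos' hb (test_on f) fun h => hf (DFunLike.coe_injective h)
  obtain ⟨X, M, x1, x2, x3, x4⟩ := hL δ N k p S hA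
  refine ⟨X, M, x1, x2, fun f => ?_, x3, x4⟩
  simp only [x2, hU]
  exact (fieldT hψ hb hs hu hA (test_on f)).1

theorem distLimit (hE : EXC) : DistLimit := by
  intro D ψ hψ hb
  refine ⟨⟨_, isGreen_gD hψ⟩, fun s hs inst hB => ?_⟩
  obtain rfl : inst = P153D.ms D := hB.measurable_eq
  have hV : ∀ f : Te D, 0 ≤ V D f := fun f => V_nn hb (test_on f)
  obtain ⟨u, hu⟩ := exists_mean hψ hs
  have hc : (0 : ℝ) < 8 / Real.pi := by positivity
  have hloc : LocallyIntegrableOn u D :=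
    hu.1.continuousOn.locallyIntegrableOn D.isOpen.measurableSet
  obtain ⟨U, hU⟩ := P153D.distr_of hloc
  have step : ∀ (δ : ℕ → ℝ) (N k : ℕ → ℕ) (p : ∀ n, ZMod (N n) → ℤ × ℤ)
      (S : ℕ → Finset (Finset (ℤ × ℤ))), Cara ψ s δ N k p S →
      ∃ (X : ℕ → (ℤ × ℤ → ℤ) → Di D) (M : ℕ → Di D),
        (∀ n, IsProbabilityMeasure (law (p n) (S n) (arcs (k n)))) ∧
        (∀ n h f, X n h f = fld (S n) (δ n) f h) ∧
        (∀ n f, M n f = ∫ h, fld (S n) (δ n) f h ∂law (p n) (S n) (arcs (k n))) ∧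
        (∀ f : Te D, ToGauss atTop (fun n => law (p n) (S n) (arcs (k n)))
          (fun n g => (X n g - M n) f) ((0 : Di D) f) (8 / Real.pi * V D f)) ∧
        ∀ f : Te D, ToGauss atTop (fun n => law (p n) (S n) (arcs (k n)))
          (fun n g => X n g f) (U f) (8 / Real.pi * V D f) := by
    intro δ N k p S hA
    choose X hX using fun (n : ℕ) h => P153D.exists_X D (S n) (δ n) h
    have hp : ∀ n, IsProbabilityMeasure (law (p n) (S n) (arcs (k n))) :=
      (fieldT hψ hb hs hu hA (test_zero _)).2.1.1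
    choose M hM using fun n => P153D.unif_mean (hp n) (X n)
    simp only [hX] at hM
    refine ⟨X, M, hp, hX, hM, fun f => ?_, fun f => ?_⟩
    · have e : (fun n g => (X n g - M n) f) = fun n g => fld (S n) (δ n) f g -
          ∫ g, fld (S n) (δ n) f g ∂law (p n) (S n) (arcs (k n)) := by
        funext n g
        show X n g f - M n f = _
        rw [hX, hM]
        rfl
      rw [e]
      exact (fieldT hψ hb hs hu hA (test_on f)).2.1
    · simp only [hX, hU]
      exact (fieldT hψ hb hs hu hA (test_on f)).2.2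
  have hP : ∃ P : Measure (Di D), IsProbabilityMeasure P ∧
      ∀ f : Te D, P.map (fun T => T f) = gaussianReal 0 (V D f).toNNReal := by
    obtain ⟨N, k, p, S, hA⟩ := hE D ψ hψ hb s hs (fun n => 1 / ((n : ℝ) + 1))
      (fun n => by positivity) tendsto_one_div_add_atTop_nhds_zero_nat
    obtain ⟨X, M, hp, -, -, h1, -⟩ := step _ N k p S hA
    obtain ⟨Q, q1, q2, -⟩ := P153D.exists_lim P153D.fer (X := fun n g => X n g - M n)
      (fun n => P153D.unif_aem (hp n) _) h1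
    have h2 : Continuous fun T : Di D => 0 + √(8 / Real.pi)⁻¹ • T := by fun_prop
    refine ⟨Q.map fun T => 0 + √(8 / Real.pi)⁻¹ • T,
      Measure.isProbabilityMeasure_map h2.measurable.aemeasurable, fun f => ?_⟩
    rw [P153D.map_aff (fun f => mul_nonneg hc.le (hV f)) q2 0 (inv_pos.2 hc).le f,
      inv_mul_cancel_left₀ hc.ne']
    rfl
  obtain ⟨P, p1, p2⟩ := hP
  refine lim_gen hE hψ hb hs (fun f => P153D.meas_ev f) (fun T f g => map_add T f g)
    (fun T f g => map_sub T f g) p1 p2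
    (fun P' q1 q2 => P153D.uni _ _ _ q1 p1 fun f => by rw [q2, p2]) hu hU fun δ N k p S hA => ?_
  obtain ⟨X, M, hp, x1, x2, x3, x4⟩ := step δ N k p S hA
  refine ⟨X, M, x1, x2, ?_,
    P153D.inLaw_of P153D.fer P153D.uni (fun n => P153D.unif_aem (hp n) _) p1 hV p2 U hc.le x4⟩
  have h := P153D.inLaw_of P153D.fer P153D.uni (μ := fun n => law (p n) (S n) (arcs (k n)))
    (X := fun n h => X n h - M n) (fun n => P153D.unif_aem (hp n) _) p1 hV p2 0 hc.le x3
  simp only [zero_add] at h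
  exact h

/-! ### Sobolev spaces -/

section

variable {δ : ℕ → ℝ} {N k : ℕ → ℕ} {p : ∀ n, ZMod (N n) → ℤ × ℤ}
  {S : ℕ → Finset (Finset (ℤ × ℤ))}

theorem momh {D : Set ℂ} (hψ : IsConf D ψ) (hs : s = 1 ∨ s = -1) (hA : Cara ψ s δ N k p S) :
    ∃ C : ℝ, 0 ≤ C ∧ ∀ n, ∀ (E : Type) [NormedAddCommGroup E] [InnerProductSpace ℝ E] (b : ℂ → E)
      (M : ℝ), Continuous b → (∀ z ∈ region (δ n) (S n), ‖b z‖ ≤ M) →
        ∫ g, ‖∫ z in region (δ n) (S n), ext g (z / δ n) • b z‖ ^ 2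
          ∂law (p n) (S n) (arcs (k n)) ≤ C * M ^ 2 := by
  obtain ⟨ψn, hC, -⟩ := cs_of hψ hs hA
  obtain ⟨R, hR, hb⟩ := hC.verts
  obtain ⟨C, hC0, hC'⟩ := scal (p := p) (fun n => (hA.1 n).1) hA.2.1 hR hb
  have hev : ∀ᶠ n in atTop, ∀ (E : Type) [NormedAddCommGroup E] [InnerProductSpace ℝ E]
      (b : ℂ → E) (M : ℝ), Continuous b → (∀ z ∈ region (δ n) (S n), ‖b z‖ ≤ M) →
        ∫ g, ‖∫ z in region (δ n) (S n), ext g (z / δ n) • b z‖ ^ 2
          ∂law (p n) (S n) (arcs (k n)) ≤ 16 * C * (∫ z, hat z) ^ 2 * M ^ 2 := by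
    filter_upwards [hC'] with n hn E _ _ b M hb hM
    have hE := (hA.1 n).2.2.2
    have hδ := (hA.1 n).1
    obtain ⟨h1, h2⟩ := hn (|M| * ∫ z, hat z)
    have e1 : C * (|M| * ∫ z, hat z) ^ 2 = C * (∫ z, hat z) ^ 2 * M ^ 2 := by
      rw [mul_pow, sq_abs]
      ring
    rw [e1] at h1 h2
    rw [P153DM.law_sum hE (Or.inl rfl) (δ n) hb, ← P153DM.vts hE, P153DM.hts_arcs hE]
    refine (P153DM.arcs_vec (FLDI.polyF (isPolygon hE)) (FLDI.enclF (encl_old hE))
      (FLDI.xi_pm (k n)) (c := fun _ => (|M| * ∫ z, hat z) * δ n ^ 2)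
      fun v _ => P153DM.wt_le hδ (S n) hM _).trans ?_
    linarith
  obtain ⟨n0, hn0⟩ := eventually_atTop.1 hev
  choose c hc0 hc using fun n => P153DM.mom_one (hA.1 n).2.2.2 (k n) (hA.1 n).1
  have hs : 0 ≤ ∑ i ∈ Finset.range n0, c i := Finset.sum_nonneg fun i _ => hc0 i
  have h0 : 0 ≤ 16 * C * (∫ z, hat z) ^ 2 := by positivity
  refine ⟨16 * C * (∫ z, hat z) ^ 2 + ∑ i ∈ Finset.range n0, c i, by positivity, ?_⟩
  intro n E _ _ b M hb hM
  rcases le_or_gt n0 n with h | h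
  · refine (hn0 n h E b M hb hM).trans ?_
    exact mul_le_mul_of_nonneg_right (by linarith) (sq_nonneg M)
  · refine (hc n _ (Or.inl rfl) E b M hb hM).trans ?_
    have h1 : c n ≤ ∑ i ∈ Finset.range n0, c i :=
      Finset.single_le_sum (fun i _ => hc0 i) (Finset.mem_range.2 h)
    exact mul_le_mul_of_nonneg_right (by linarith) (sq_nonneg M)

end

theorem harm_rep' {H : Type} [NormedAddCommGroup H] [InnerProductSpace ℝ H] [CompleteSpace H]
    {D : Set ℂ} (ho : IsOpen D) (hb : Bornology.IsBounded D) {u : ℂ → ℝ} (hu : IsMean D ψ s u)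
    {a : ℂ → H} (ha : Continuous a) {M : ℝ}
    (hM : ∀ x, ‖a x‖ ≤ M) {φ : ℂ → ℝ} (hφ : TestOn D φ) {f : H}
    (hf : ∀ x, inner ℝ (a x) f = φ x) :
    rz (∫ z in D, u z • a z) f = ∫ z, u z * φ z := by
  have hc : ContinuousOn u D := hu.1.continuousOn
  have hi : IntegrableOn (fun z => u z • a z) D := by
    have : IsFiniteMeasure (volume.restrict D) := isFiniteMeasure_restrict.2 hb.measure_lt_top.ne
    refine Integrable.of_bound ((hc.smul ha.continuousOn).aestronglyMeasurable ho.measurableSet) M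
      ((ae_restrict_iff' ho.measurableSet).2 (ae_of_all _ fun z hz => ?_))
    rw [norm_smul, Real.norm_eq_abs]
    have h1 := mul_le_mul (hu.2.1 z hz) (hM z) (norm_nonneg _) zero_le_one
    rwa [one_mul] at h1
  rw [rz_apply, real_inner_comm, ← rz_apply, ← (rz f).integral_comp_comm hi]
  simp only [map_smul, rz_apply, hf, smul_eq_mul]
  refine setIntegral_eq_integral_of_forall_compl_eq_zero fun z hz => ?_
  rw [image_eq_zero_of_notMem_tsupport fun h => hz (hφ.2.2 h), mul_zero]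

theorem int_ev {H : Type} [NormedAddCommGroup H] [NormedSpace ℝ H] {s : Set (ℤ × ℤ → ℤ)}
    (hp : IsProbabilityMeasure (uniformOn s)) (X : (ℤ × ℤ → ℤ) → StrongDual ℝ H) (v : H) :
    (∫ g, X g ∂uniformOn s) v = ∫ g, X g v ∂uniformOn s := by
  have i1 : Integrable X (uniformOn s) := int_unif hp _
  rw [ContinuousLinearMap.integral_apply i1]

theorem lim_R (hE : EXC) (hψ : IsConf D ψ) (hb : Bornology.IsBounded (D : Set ℂ))
    (hs : s = 1 ∨ s = -1) {r : ℝ} (hr : 1 < r) (R : Te D →ₗ[ℝ] H0 r D)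
    (hR : ∀ f : Te D, Rep r f (R f)) (hd : DenseRange R) :
    FieldLimit ψ s fun (T : StrongDual ℝ (H0 r D)) f => T (R f) := by
  obtain ⟨-, -, a, M, ha, haM, hrep⟩ := P153DH.kit_thm r D hr
  have : CompleteSpace (H0 r D) := (Submodule.isClosed_topologicalClosure _).completeSpace_coe
  have : Fact ((2 : ENNReal) ≠ ⊤) := ⟨by simp⟩
  obtain ⟨u, hu⟩ := exists_mean hψ hs
  have hrp : ∀ (f : Te D) x, inner ℝ (a x) (R f) = f x := fun f x =>
    hrep x _ _ (test_on f) (hR f)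
  have hc0 : (0 : ℝ) < √(8 / Real.pi) := Real.sqrt_pos.2 (by positivity)
  have hc2 : √(8 / Real.pi) ^ 2 = 8 / Real.pi := Real.sq_sqrt (by positivity)
  have step : ∀ (δ : ℕ → ℝ) (N k : ℕ → ℕ) (p : ∀ n, ZMod (N n) → ℤ × ℤ)
      (S : ℕ → Finset (Finset (ℤ × ℤ))), Cara ψ s δ N k p S → ∀ t : ℝ, (t = 0 ∨ t = 1) →
      ∀ m : Te D → ℝ, (∀ (q : Te D) (F : ℝ → ℝ), Continuous F → (∃ M, ∀ x, |F x| ≤ M) →
        Tendsto (fun n => ∫ h, F (fld (S n) (δ n) q h -
          t * ∫ g, fld (S n) (δ n) q g ∂law (p n) (S n) (arcs (k n)))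
            ∂law (p n) (S n) (arcs (k n))) atTop
          (𝓝 (∫ x, F x ∂gaussianReal (m q) (8 / Real.pi * V D q).toNNReal))) →
      (∃ ν : Measure (Hm r D), IsProbabilityMeasure ν ∧ ∀ q : Te D, ν.map (fun T => T (R q)) =
        gaussianReal (m q) (8 / Real.pi * V D q).toNNReal) ∧
      ∀ (ν : Measure (Hm r D)) (U : Hm r D), IsProbabilityMeasure ν →
        (∀ q : Te D, ν.map (fun T => T (R q)) = gaussianReal 0 (V D q).toNNReal) →
        (∀ q, U (R q) = m q) →
        ∀ F : Hm r D → ℝ, Continuous F → (∃ M, ∀ x, |F x| ≤ M) →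
        Tendsto (fun n => ∫ h, F (rz (wf (S n) (δ n) a h -
          t • ∫ g, wf (S n) (δ n) a g ∂law (p n) (S n) (arcs (k n))))
            ∂law (p n) (S n) (arcs (k n))) atTop
          (𝓝 (∫ T, F (U + √(8 / Real.pi) • T) ∂ν)) := by
    intro δ N k p S hA t ht m hm
    have hP := (fieldT hψ hb hs hu hA (test_zero _)).2.1.1
    obtain ⟨R', hR'⟩ := hA.2.2.1
    obtain ⟨C, hC, hmom⟩ := momh hψ hs hA
    have i1 : ∀ n (G : (ℤ × ℤ → ℤ) → ℝ), Integrable G (law (p n) (S n) (arcs (k n))) :=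
      fun n G => int_unif (hP n) G
    have i2 : ∀ n (G : (ℤ × ℤ → ℤ) → H0 r D), Integrable G (law (p n) (S n) (arcs (k n))) :=
      fun n G => int_unif (hP n) G
    obtain ⟨m1, m2⟩ := moms (fun n => law (p n) (S n) (arcs (k n))) hP i1 i2 hC hR'
      (fun n b M hb hbM => hmom n _ b M hb hbM) ha haM t ht
    obtain ⟨c1, c2⟩ := conv_dual (fun n => law (p n) (S n) (arcs (k n))) hP i1 _
      (fun n => i2 n _) m1 m2 R hd (fun q => gaussianReal (m q) (8 / Real.pi * V D q).toNNReal)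
      (fun q => inferInstance) (fun q F a1 a2 => by
        refine (hm q F a1 a2).congr fun n => ?_
        have e := fun h => inner_wf (S n) (δ n) ha h (hrp q)
        simp only [inner_sub_right, inner_smul_right, ← integral_inner (i2 n _), e])
    refine ⟨c1, fun ν U hν hν' hU => c2 ν (fun T => U + √(8 / Real.pi) • T) hν (by fun_prop)
      fun q => ?_⟩
    rw [marg (hν' q), hc2, hU]
  obtain ⟨N0, k0, p0, S0, hA0⟩ := hE D ψ hψ hb s hs (fun n => 1 / ((n : ℝ) + 1))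
    (fun n => by positivity) tendsto_one_div_add_atTop_nhds_zero_nat
  obtain ⟨⟨ν1, n1, n2⟩, -⟩ := step _ N0 k0 p0 S0 hA0 1 (Or.inr rfl) (fun _ => 0)
    (fun q F a1 a2 => by
      simpa only [one_mul] using (fieldT hψ hb hs hu hA0 (test_on q)).2.1.2.2 F a1 a2)
  have cs : Continuous fun T : Hm r D => (0 : Hm r D) + (√(8 / Real.pi))⁻¹ • T := by fun_prop
  have g1 : IsProbabilityMeasure (ν1.map fun T => (0 : Hm r D) + (√(8 / Real.pi))⁻¹ • T) :=
    Measure.isProbabilityMeasure_map cs.measurable.aemeasurable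
  have g2 : ∀ q : Te D, (ν1.map fun T => (0 : Hm r D) + (√(8 / Real.pi))⁻¹ • T).map
      (fun T => T (R q)) = gaussianReal 0 (V D q).toNNReal := by
    intro q
    rw [Measure.map_map (meas_dual _) cs.measurable]
    have h3 := marg (n2 q) 0 (√(8 / Real.pi))⁻¹
    have h4 : (√(8 / Real.pi))⁻¹ ^ 2 * (8 / Real.pi * V D q) = V D q := by
      rw [inv_pow, hc2]
      field_simp
    rw [h4] at h3
    exact h3
  have hU : ∀ q : Te D, rz (∫ z in (D : Set ℂ), u z • a z) (R q) = ∫ z, u z * q z := fun q =>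
    harm_rep' D.isOpen hb hu ha haM (test_on q) (hrp q)
  refine lim_gen hE hψ hb hs (fun f => meas_dual _) (fun T f g => by simp only [map_add])
    (fun T f g => by simp only [map_sub]) g1 g2
    (fun ν' a1 a2 => uniq_dual R hd fun q => (a2 q).trans (g2 q).symm) hu hU
    fun δ N k p S hA => ?_
  have P1 := (fieldT hψ hb hs hu hA (test_zero _)).2.1.1
  have x1 : ∀ n h (f : Te D), rz (wf (S n) (δ n) a h) (R f) = fld (S n) (δ n) f h := fun n h f => by
    rw [rz_apply]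
    exact inner_wf (S n) (δ n) ha h (hrp f)
  refine ⟨fun n h => rz (wf (S n) (δ n) a h),
    fun n => ∫ g, rz (wf (S n) (δ n) a g) ∂law (p n) (S n) (arcs (k n)), x1, fun n f => ?_,
    ⟨fun n => ⟨P1 n, aem (P1 n) _⟩, fun F a1 a2 => ?_⟩,
    ⟨fun n => ⟨P1 n, aem (P1 n) _⟩, fun F a1 a2 => ?_⟩⟩
  · refine (int_ev (P1 n) _ _).trans ?_
    simp only [x1]
    rfl
  · have h1 := (step δ N k p S hA 1 (Or.inr rfl) (fun _ => 0) (fun q F a1 a2 => by
        simpa only [one_mul] using (fieldT hψ hb hs hu hA (test_on q)).2.1.2.2 F a1 a2)).2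
      _ 0 g1 g2 (fun _ => rfl) F a1 a2
    simp only [zero_add (√(8 / Real.pi) • _)] at h1
    refine h1.congr fun n => ?_
    refine integral_congr_ae (ae_of_all _ fun h => ?_)
    exact congrArg F (rz_sub' (P1 n) _ _)
  · have h1 := (step δ N k p S hA 0 (Or.inl rfl) (fun q => ∫ z, u z * q z) (fun q F a1 a2 => by
        simpa only [zero_mul, sub_zero] using
          (fieldT hψ hb hs hu hA (test_on q)).2.2.2.2 F a1 a2)).2
      _ (rz (∫ z in (D : Set ℂ), u z • a z)) g1 g2 hU F a1 a2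
    simpa only [zero_smul, sub_zero] using h1

theorem FieldLimit.map {E E' : Type} [AddCommGroup E] [Module ℝ E] [TopologicalSpace E]
    [MeasurableSpace E] [BorelSpace E] [AddCommGroup E'] [Module ℝ E'] [TopologicalSpace E']
    [MeasurableSpace E'] [BorelSpace E'] (Ψ : E ≃L[ℝ] E') {ev : E → Te D → ℝ}
    {ev' : E' → Te D → ℝ} (h : ∀ T, ev' (Ψ T) = ev T) (hm : ∀ f, Measurable fun T => ev T f)
    (hm' : ∀ f, Measurable fun T => ev' T f) (hF : FieldLimit ψ s ev) : FieldLimit ψ s ev' := by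
  intro G hG
  obtain ⟨P, p1, p2, p3, u, U, hu, hun, hU, H⟩ := hF G hG
  let m : E ≃ᵐ E' := Ψ.toHomeomorph.toMeasurableEquiv
  have hmΨ : ∀ T, m T = Ψ T := fun T => rfl
  have h' : ∀ T, ev' (m T) = ev T := h
  refine ⟨P.map m, p1.map m h' hm', fun P' hP' => ?_, fun f hf => ?_, u, Ψ U, hu, hun,
    fun f => by rw [h, hU], fun δ N k p S hA => ?_⟩
  · rw [← p2 _ (hP'.map m.symm (fun T => by rw [← h', m.apply_symm_apply]) hm), m.map_map_symm]
  · rw [integral_map_equiv]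
    simp only [h']
    exact p3 f hf
  · obtain ⟨X, M, x1, x2, x3, x4, x5⟩ := H δ N k p S hA
    refine ⟨fun n g => Ψ (X n g), fun n => Ψ (M n), fun n g f => by rw [h, x1],
      fun n f => by rw [h, x2], fun f => by simpa only [h] using x3 f,
      x4.map m Ψ.continuous (fun n g => ?_) fun T => ?_,
      x5.map m Ψ.continuous (fun n g => rfl) fun T => ?_⟩
    · rw [hmΨ, map_sub]
    · rw [hmΨ, hmΨ, map_smul]
    · rw [hmΨ, hmΨ, map_add, map_smul]

theorem lim_iso {r : ℝ} {H H' : Type} [NormedAddCommGroup H]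
    [NormedSpace ℝ H] [NormedAddCommGroup H'] [NormedSpace ℝ H'] {J : Te D →ₗ[ℝ] H}
    {J' : Te D →ₗ[ℝ] H'} (h : IsH0 r J) (h' : IsH0 r J') [MeasurableSpace (StrongDual ℝ H)]
    [BorelSpace (StrongDual ℝ H)] [MeasurableSpace (StrongDual ℝ H')]
    [BorelSpace (StrongDual ℝ H')] (hF : FieldLimit ψ s fun (T : StrongDual ℝ H) f => T (J f)) :
    FieldLimit ψ s fun (T : StrongDual ℝ H') f => T (J' f) := by
  have := h.1
  have := h'.1
  have hn : ∀ f, ‖J' (LinearEquiv.refl ℝ (Te D) f)‖ = ‖J f‖ := fun f =>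
    (pow_left_inj₀ (norm_nonneg _) (norm_nonneg _) two_ne_zero).1
      ((h'.2.2 f).trans (h.2.2 f).symm)
  let ι : H ≃ₗᵢ[ℝ] H' := (LinearEquiv.refl ℝ (Te D)).extendOfIsometry J J' h.2.1 h'.2.1 hn
  have hι : ∀ f, ι.symm (J' f) = J f := fun f =>
    LinearEquiv.extendOfIsometry_symm_eq _ J J' h.2.1 h'.2.1 hn f
  refine hF.map (ι.toContinuousLinearEquiv.arrowCongr (ContinuousLinearEquiv.refl ℝ ℝ))
    (fun T => funext fun f => ?_) (fun f => meas_dual _) fun f => meas_dual _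
  exact congrArg T (hι f)

theorem sobLimit (hE : EXC) : SobLimit := by
  intro D ψ hψ hb s hs r hr
  obtain ⟨R, h1, h2⟩ := P153E.exists_R D hr
  exact ⟨⟨_, _, _, R, h2⟩, fun H _ _ J hJ _ _ => lim_iso h2 hJ (lim_R hE hψ hb hs hr R h1 h2.2.1)⟩

end Vale.Agent.N153
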