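import Vale.Agent.N153.Cut
import Vale.Agent.P153.R2.SLEX.Uni

/-!
N153, the curve: tightness of the number of crossings.
-/

set_option autoImplicit false
set_option linter.unusedVariables false

namespace Vale.Agent.N153

open Filter Topology Set Metric MeasureTheory
open Vale.Agent.P145.PT Vale.Agent.P153 Vale.Agent.P153.F.Top Vale.Agent.P153.R2
open Vale.Agent.P153.R2.FLDI hiding toC_dp
open Vale.Agent.P153.R2.SLEX hiding Crc
open Vale.Agent.P153.R2.Final (Heights law)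
open Vale.Agent.P153.R2.C1 (Cross)
open Vale.Agent.P153.F.X (S_int S_pos S_rsw)
open Vale.Agent.P153.R2.NH (Big)
open Vale.Agent.P153.R2.LOC (An aff Pr_aff ds mem_bx_iff)

variable {D : Set ℂ} {φ : ℂ → ℂ} {δ : ℕ → ℝ} {N k : ℕ → ℕ} {p : ∀ n, ZMod (N n) → ℤ × ℤ}
  {S : ℕ → Finset Final.Tri} {φn gn : ℕ → ℂ → ℂ}

/-- Crossings of an annulus inside the domain by the interface give crossing components of a
lattice annulus. -/
theorem LS.cross_ev (h : LS D φ δ N k p S φn gn) {x : ℕ → UNIQ.Hg → C(unitInterval, ℂ)}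
    (hx : Itf δ N k p S x) (K : ℕ) (hK : 1 ≤ K) {w : ℂ} {ρ : ℝ}
    (hρ : 0 < ρ) (hball : closedBall w (ratio K * ρ) ⊆ D) :
    ∀ᶠ n in atTop, ∃ (y : Pt) (r : ℕ) (R : ℤ), R = K * (2 * r) + 2 * r ∧ 2 * ρ / δ n ≤ r ∧
      (r : ℝ) ≤ 3 * ρ / δ n ∧ dist (Final.toC (dp (δ n) y)) w ≤ 4 * δ n ∧
      bx y (R + 1) ⊆ inn (p n) (S n) ∧
      ∀ g ∈ FLDI.CA (p n) (k n) (S n), ∀ m M : ℕ, M ^ 2 + 3 ≤ m →
        C1.Cross (x n (cut0 (S n) g)) w ρ (ratio K * ρ) m →
        Crs (An y r R) (bx y r) (bx y R)ᶜ (up g 1) (M + 1) ∨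
          Crs (An y r R) (bx y r) (bx y R)ᶜ (dn g (-1)) (M + 1) := by
  have hK' : (1 : ℝ) ≤ K := by exact_mod_cast hK
  set W : ℝ × ℝ := (w.re, w.im) with hW
  have hWw : Final.toC W = w := rfl
  filter_upwards [h.inner (isCompact_closedBall _ _) hball,
    h.small (show 0 < ρ / 100 by positivity)] with n g1 g2
  have hδ := h.pos n
  -- the centre
  obtain ⟨y, hy⟩ := ng_nonempty (lc (δ n) W)
  have hyW : dist (dp (δ n) y) W ≤ 2 * δ n := ng_near hδ hy
  have hyw : dist (Final.toC (dp (δ n) y)) w ≤ 4 * δ n := by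
    rw [← hWw]
    exact (toC_le_dist _ _).trans (by linarith)
  set r : ℕ := ⌈2 * ρ / δ n + 12⌉₊ with hr
  set R : ℤ := K * (2 * r) + 2 * r with hR
  have hr1 : 2 * ρ / δ n + 12 ≤ r := Nat.le_ceil _
  have hr2 : (r : ℝ) < 2 * ρ / δ n + 12 + 1 := Nat.ceil_lt_add_one (by positivity)
  have hrδ : (r : ℝ) * δ n ≤ 2 * ρ + 13 * δ n := by
    have h3 : (r : ℝ) * δ n ≤ (2 * ρ / δ n + 12 + 1) * δ n :=
      mul_le_mul_of_nonneg_right hr2.le hδ.le
    have h4 : (2 * ρ / δ n + 12 + 1) * δ n = 2 * ρ + 13 * δ n := by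
      field_simp
      ring
    linarith
  have hrρ : (r : ℝ) * δ n ≤ 3 * ρ := by linarith
  have hRr : ((r : ℤ)) < R := by
    have : (0 : ℤ) < r := by
      have h3 : (0 : ℝ) < r := by
        have : 0 < 2 * ρ / δ n := by positivity
        linarith
      exact_mod_cast h3
    have hK0 : (0 : ℤ) ≤ K := by positivity
    rw [hR]
    nlinarith
  -- the points of the outer box
  have hbox : ∀ v ∈ bx y (R + 1), dist (Final.toC (dp (δ n) v)) w < ratio K * ρ - 2 * δ n := by
    intro v hv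
    rw [mem_bx_iff] at hv
    have h3 := dist_le_ds hδ hv
    have h4 := toC_le_dist (dp (δ n) v) (dp (δ n) y)
    have h5 := dist_triangle (Final.toC (dp (δ n) v)) (Final.toC (dp (δ n) y)) w
    have h6 : ((R + 1 : ℤ) : ℝ) = 2 * (K + 1) * r + 1 := by
      rw [hR]
      push_cast
      ring
    rw [h6] at h3
    have h7 : 3 / 2 * δ n * (2 * (K + 1) * r + 1) = 3 * (K + 1) * (r * δ n) + 3 / 2 * δ n := by
      ring
    rw [h7] at h3
    have h8 : 3 * (K + 1) * (r * δ n) ≤ 3 * (K + 1) * (3 * ρ) :=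
      mul_le_mul_of_nonneg_left hrρ (by positivity)
    have h9 : ratio K * ρ = 40 * (K + 1) * ρ := rfl
    rw [h9]
    nlinarith
  have hinn : bx y (R + 1) ⊆ inn (p n) (S n) := by
    intro v hv
    refine g1 v ?_
    rw [← FLDI.toC_dp, mem_closedBall]
    linarith [hbox v hv]
  refine ⟨y, r, R, rfl, by linarith, ?_, hyw, hinn, ?_⟩
  · rw [le_div_iff₀ hδ]
    exact hrρ
  · intro g hg m M hm hc
    have hgH : cut0 (S n) g ∈ Final.Heights (p n) (k n) (S n) := by
      rw [heightsF]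
      exact (ca_bij (polyF (h.poly n)) (enclF (h.encl n)) (k n)).mapsTo hg
    have hb1 : bx y R ⊆ bx y (R + 1) := PLAN.bx_mono (by omega)
    refine cross_crs hδ (h.poly n) (h.encl n) (h.kpos n) (h.klt n) hg
      (hx n _ hgH) hRr (hb1.trans hinn) ?_ (fun v hv => hbox v (hb1 hv)) hm hc
    intro v hv
    rw [mem_bx_iff]
    refine ds_le_of_dist hδ ?_
    have h3 : dist (dp (δ n) v) (dp (δ n) y) ≤ ρ + 6 * δ n := by
      refine (dist_le_toC _ _).trans ?_
      have h4 := dist_triangle_right (Final.toC (dp (δ n) v)) (Final.toC (dp (δ n) y)) w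
      linarith
    have h5 : 2 * dist (dp (δ n) v) (dp (δ n) y) / δ n ≤ 2 * ρ / δ n + 12 := by
      rw [div_add' _ _ _ hδ.ne']
      refine div_le_div_of_nonneg_right ?_ hδ.le
      linarith
    have h6 := h5.trans hr1
    exact_mod_cast h6

/-- Crossings of interior annuli, from the uniform block property and the plane measure. -/
theorem t_int_of {P : Measure (Pt → ℤ)} (hP : GFF.Plane P) (hint : S_int P) (hpos : S_pos P)
    (hrsw : S_rsw P) (hU : S_uni) : T_int := by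
  obtain ⟨K, hK, hU⟩ := hU
  have hK' : (1 : ℝ) ≤ K := by exact_mod_cast hK
  refine ⟨ratio K, by unfold ratio; linarith, ?_⟩
  intro D φ δ N k p S φn gn h x hx w ρ hρ hball e he
  obtain ⟨Rb, hRb0, hRb⟩ := h.ds.bdd
  obtain ⟨M₀, δ₀, hδ₀, hT⟩ := NH.tigh hP hint hpos hrsw hRb0 hρ
    (show (0 : ℝ) < e / 8 by positivity)
  obtain ⟨α, r₀, hα0, hα1, hHB⟩ := hU (M₀ + 1)
  obtain ⟨M, hM⟩ := exists_nat_ge (48 / (α * e))
  refine ⟨M ^ 2 + 3, ?_⟩
  have h2 : ∀ᶠ n in atTop, δ n < min δ₀ (min (ρ / 4) (ρ / (|(r₀ : ℝ)| + 1))) :=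
    h.small (lt_min hδ₀ (lt_min (by positivity) (by positivity)))
  filter_upwards [h.cross_ev hx K hK hρ hball, h2, hRb] with n g1 g2 g0
  obtain ⟨y, r, R, hR, hr1, hr2, -, hinn, hcr⟩ := g1
  obtain ⟨g2a, g2b⟩ := lt_min_iff.1 g2
  obtain ⟨g2b, g2c⟩ := lt_min_iff.1 g2b
  have hδ := h.pos n
  have hp := h.poly n
  have hS := h.encl n
  have g3 : ∀ v ∈ inn (p n) (S n), dp (δ n) v ∈ ball (0 : ℝ × ℝ) Rb := by
    intro v hv
    have e1 := g0 _ (subset_closure (PP_DC hδ hp hS hv))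
    have e2 := dist_le_toC (dp (δ n) v) 0
    have e3 : Final.toC 0 = 0 := rfl
    rw [FLDI.toC_dp, e3, dist_zero_right (INTF.PP (δ n) v)] at e2
    exact e2.trans_lt e1
  rw [law_real hp hS]
  -- the radii
  have hrδ : 2 * ρ ≤ r * δ n := by rwa [div_le_iff₀ hδ] at hr1
  have hr1' : 1 ≤ r := by
    by_contra hcon
    have : r = 0 := by omega
    rw [this] at hrδ
    simp at hrδ
    linarith
  have hr₀ : r₀ ≤ 2 * (r : ℤ) := by
    have h3 : (r₀ : ℝ) ≤ 2 * r := by
      have h4 : δ n * (|(r₀ : ℝ)| + 1) < ρ := by rwa [lt_div_iff₀ (by positivity)] at g2c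
      have h5 : (r₀ : ℝ) ≤ |(r₀ : ℝ)| := le_abs_self _
      by_contra hcon
      push Not at hcon
      nlinarith
    exact_mod_cast h3
  have hM1 : (0 : ℝ) < ((M + 1 : ℕ) : ℝ) := by positivity
  have h6 : 6 / (α * ((M + 1 : ℕ) : ℝ)) ≤ e / 8 := by
    rw [div_le_iff₀ (by positivity)]
    rw [div_le_iff₀ (by positivity)] at hM
    push_cast
    nlinarith [mul_pos hα0 he]
  have hd : ρ ≤ δ n * (((r : ℤ) - 2 : ℤ) : ℝ) := by
    push_cast
    nlinarith
  have hfin : (inn (p n) (S n)).Finite := Finset.finite_toSet _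
  have hCC : CC (inn (p n) (S n)) := PLAN.CC_inner (polyF hp) (enclF hS)
  have hη : ∀ x, |dat (p n) (k n) x| = 1 := by
    intro x
    rcases dat_pm (p := p n) (k n) x with h3 | h3 <;> rw [h3] <;> norm_num
  have hη' : ∀ x, |aff (-1) 0 (dat (p n) (k n)) x| = 1 := by
    intro x
    unfold aff
    rcases dat_pm (p := p n) (k n) x with h3 | h3 <;> rw [h3] <;> norm_num
  have hlev : ∀ h : UNIQ.Hg, {x | 2 * ((M₀ + 1 : ℕ) : ℤ) + 1 ≤ |h x|} =
      {x | 2 * (M₀ : ℤ) + 3 ≤ |h x|} := by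
    intro h
    ext x
    simp only [mem_ofPred_eq]
    push_cast
    constructor <;> intro h3 <;> linarith
  have t1 := hT M₀ le_rfl (δ n) hδ g2a (inn (p n) (S n)) hfin hCC g3 (dat (p n) (k n)) hη
    ((r : ℤ) - 2) hd
  have t2 := hT M₀ le_rfl (δ n) hδ g2a (inn (p n) (S n)) hfin hCC g3
    (aff (-1) 0 (dat (p n) (k n))) hη' ((r : ℤ) - 2) hd
  have u1 := x1 (η := dat (p n) (k n)) (y := y) hHB hα0 hα1 hr1' hr₀ (by exact_mod_cast hK) hR hfin
    hinn (k := M + 1) (by omega)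
  have u2 := x1_up (η := dat (p n) (k n)) (y := y) hHB hα0 hα1 hr1' hr₀ (by exact_mod_cast hK) hR
    hfin hinn (k := M + 1) (by omega)
  simp only [hlev] at u1 u2
  have hsub : Pr (FLDI.CA (p n) (k n) (S n))
      {g | cut0 (S n) g ∈ {h | C1.Cross (x n h) w ρ (ratio K * ρ) (M ^ 2 + 3)}} ≤
      Pr (FLDI.CA (p n) (k n) (S n))
        ({g | Crs (An y r R) (bx y r) (bx y R)ᶜ (up g 1) (M + 1)} ∪
        {g | Crs (An y r R) (bx y r) (bx y R)ᶜ (dn g (-1)) (M + 1)}) :=
    Pr_mono fun g hg hc => hcr g hg _ M le_rfl hc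
  have hun := Pr_union_le (FLDI.CA (p n) (k n) (S n))
    {g | Crs (An y r R) (bx y r) (bx y R)ᶜ (up g 1) (M + 1)}
    {g | Crs (An y r R) (bx y r) (bx y R)ᶜ (dn g (-1)) (M + 1)}
  have u1' : Pr (FLDI.CA (p n) (k n) (S n))
      {g | Crs (An y r R) (bx y r) (bx y R)ᶜ (dn g (-1)) (M + 1)} ≤ _ := u1
  have u2' : Pr (FLDI.CA (p n) (k n) (S n))
      {g | Crs (An y r R) (bx y r) (bx y R)ᶜ (up g 1) (M + 1)} ≤ _ := u2
  linarith

/-- Strands near the circle which avoid the marked points are small. -/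
theorem small_strand {r : ℝ} (hr : 0 < r) : ∃ M : ℕ, 3 ≤ M ∧
    ∀ ε > 0, ∃ η > 0, ∀ C : Set ℂ, IsPreconnected C → (∀ w ∈ C, |‖w‖ - 1| < η) →
      (∀ i : ℕ, i < 2 * M → ∀ z ∈ C, ε ≤ dist z (Complex.exp (ang M i * Complex.I))) →
      ∀ z ∈ C, ∀ z' ∈ C, dist z z' < 2 * r := by
  obtain ⟨M, hM3, hMr⟩ : ∃ M : ℕ, 3 ≤ M ∧ 9 / 2 * (Real.pi / M) < r / 2 := by
    obtain ⟨M, hM⟩ := exists_nat_gt (9 * Real.pi / r)
    refine ⟨max M 3, le_max_right _ _, ?_⟩
    have h1 : (9 * Real.pi / r) < ((max M 3 : ℕ) : ℝ) :=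
      hM.trans_le (by exact_mod_cast le_max_left _ _)
    have h2 : (0 : ℝ) < ((max M 3 : ℕ) : ℝ) := by
      have : 0 < max M 3 := by omega
      exact_mod_cast this
    rw [div_lt_iff₀ hr] at h1
    rw [← mul_div_assoc, div_lt_iff₀ h2]
    nlinarith
  refine ⟨M, hM3, fun ε hε => ?_⟩
  obtain ⟨η, hη, k1, k2, k3⟩ : ∃ η > 0, η ≤ 1 / 2 ∧ η ≤ ε ∧ η ≤ r / 2 :=
    ⟨min (1 / 2) (min ε (r / 2)), by positivity, min_le_left _ _,
      (min_le_right _ _).trans (min_le_left _ _), (min_le_right _ _).trans (min_le_right _ _)⟩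
  refine ⟨η, hη, fun C hC hann hCε z hz z' hz' => ?_⟩
  obtain ⟨j, hj⟩ := one_sector hM3 hC hann (fun j w hw => by
    obtain ⟨i, hi, he⟩ := exp_ang (N := M) (by omega) j
    rw [he]
    exact k2.trans (hCε i hi w hw)) hz
  have hM' : (3 : ℝ) ≤ M := by exact_mod_cast hM3
  have hβ : 0 < Real.pi / M := div_pos Real.pi_pos (by linarith)
  have hβ3 : Real.pi / M ≤ Real.pi / 3 :=
    div_le_div_of_nonneg_left Real.pi_pos.le (by norm_num) hM'
  have key : ∀ u ∈ C, dist u (Complex.exp (ang M j * Complex.I)) < r := by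
    intro u hu
    have h1 := hann u hu
    have h2 := sec_dist hβ hβ3 (hj hu)
    have h3 : ‖u‖ ≤ 3 / 2 := by linarith [(abs_lt.1 h1).2]
    have h5 : 3 * ‖u‖ * (Real.pi / M) ≤ 9 / 2 * (Real.pi / M) := by nlinarith
    linarith
  linarith [key z hz, key z' hz', dist_triangle_right z z' (Complex.exp (ang M j * Complex.I))]

/-- **Tightness of the number of crossings** of all annuli by the curves in the disc. -/
theorem t_cross_of (hI : T_int) (hB : T_bdp) : T_cross := by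
  classical
  obtain ⟨L, hL, hI⟩ := hI
  intro D φ δ N k p S φn gn hA x y hx hy c r hr e he
  obtain ⟨N₀, hN3, hsm⟩ := small_strand hr
  have hN0 : (0 : ℝ) < N₀ := by
    have : 0 < N₀ := by omega
    exact_mod_cast this
  have hB' : ∀ i : ℕ, ∃ ε > 0, i < 2 * N₀ → ∀ᶠ n in atTop, (law (p n) (k n) (S n)).real
      {h | ∃ s : unitInterval, dist (gn n (x n h s)) (Complex.exp (ang N₀ i * Complex.I)) < ε} ≤
        e / (4 * N₀) := by
    intro i
    by_cases hi : i < 2 * N₀
    · obtain ⟨ε, hε, h⟩ := hB D φ δ N k p S φn gn hA x hx _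
        (Complex.norm_exp_ofReal_mul_I (ang N₀ i)) (by
          rw [Complex.exp_ofReal_mul_I_im]
          rcases ang_mem hi with h1 | h1
          · exact (Real.sin_pos_of_pos_of_lt_pi h1.1 h1.2).ne'
          · have h2 := Real.sin_pos_of_pos_of_lt_pi (x := ang N₀ i - Real.pi) (by linarith [h1.1])
              (by linarith [h1.2])
            rw [Real.sin_sub_pi] at h2
            exact (neg_pos.1 h2).ne) (e / (4 * N₀)) (by positivity)
      exact ⟨ε, hε, fun _ => h⟩
    · exact ⟨1, one_pos, fun h => absurd h hi⟩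
  choose ε hε hεp using hB'
  obtain ⟨ε₀, hε₀, hε₀'⟩ : ∃ ε₀ > 0, ∀ i < 2 * N₀, ε₀ ≤ ε i := by
    have hne : (Finset.range (2 * N₀)).Nonempty := ⟨0, by rw [Finset.mem_range]; omega⟩
    refine ⟨(Finset.range (2 * N₀)).inf' hne ε, ?_, ?_⟩
    · rw [gt_iff_lt, Finset.lt_inf'_iff]
      exact fun i _ => hε i
    · exact fun i hi => Finset.inf'_le _ (Finset.mem_range.2 hi)
  obtain ⟨η, hη, hst⟩ := hsm ε₀ hε₀
  have hsub1 : closedBall (0 : ℂ) (1 - η) ⊆ ball 0 1 := closedBall_subset_ball (by linarith)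
  have hK : IsCompact (φ '' closedBall 0 (1 - η)) :=
    (isCompact_closedBall 0 (1 - η)).image_of_continuousOn
      (hA.ds.conf.cont.mono (hsub1.trans ball_subset_closedBall))
  have hKD : φ '' closedBall 0 (1 - η) ⊆ D := by
    rintro _ ⟨w, hw, rfl⟩
    exact hA.ds.conf.mem (hsub1 hw)
  obtain ⟨τ, hτ, hτK⟩ := hK.exists_cthickening_subset_open hA.ds.conf.isOpen hKD
  obtain ⟨κ, hκ, hlight⟩ := hA.ds.light hr
  have hL0 : 0 < L := by linarith
  obtain ⟨ρ, hρ, hρτ, hρr⟩ : ∃ ρ > 0, L * ρ ≤ τ ∧ L * ρ ≤ κ / 2 := by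
    refine ⟨min τ (κ / 2) / L, by positivity, ?_, ?_⟩
    · rw [mul_div_cancel₀ _ hL0.ne']; exact min_le_left _ _
    · rw [mul_div_cancel₀ _ hL0.ne']; exact min_le_right _ _
  obtain ⟨W', hW'K, hW'f, hW'c⟩ := hK.finite_cover_balls (half_pos hρ)
  obtain ⟨W, hWK, hWc⟩ : ∃ W : Finset ℂ, (∀ w ∈ W, w ∈ φ '' closedBall 0 (1 - η)) ∧
      ∀ z ∈ φ '' closedBall 0 (1 - η), ∃ w ∈ W, dist z w ≤ ρ / 2 := by
    refine ⟨hW'f.toFinset, fun w hw => hW'K (hW'f.mem_toFinset.1 hw), fun z hz => ?_⟩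
    obtain ⟨w, hw, hzw⟩ := mem_iUnion₂.1 (hW'c hz)
    exact ⟨w, hW'f.mem_toFinset.2 hw, (mem_ball.1 hzw).le⟩
  have hm : ∀ w : ℂ, ∃ m : ℕ, w ∈ W → ∀ᶠ n in atTop,
      (law (p n) (k n) (S n)).real {h | Cross (x n h) w ρ (L * ρ) m} ≤ e / (2 * (W.card + 1)) := by
    intro w
    by_cases hw : w ∈ W
    · obtain ⟨m, h⟩ := hI D φ δ N k p S φn gn hA x hx w ρ hρ (by
        refine Subset.trans ?_ hτK
        exact (closedBall_subset_closedBall hρτ).trans (closedBall_subset_cthickening (hWK w hw) τ))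
        (e / (2 * (W.card + 1))) (by positivity)
      exact ⟨m, fun _ => h⟩
    · exact ⟨0, fun h => absurd h hw⟩
  choose m hmp using hm
  refine ⟨∑ w ∈ W, 2 * m w + 1, ?_⟩
  have ev1 : ∀ᶠ n in atTop, ∀ w ∈ W, (law (p n) (k n) (S n)).real
      {h | Cross (x n h) w ρ (L * ρ) (m w)} ≤ e / (2 * (W.card + 1)) :=
    (Filter.eventually_all_finset W).2 fun w hw => hmp w hw
  have ev2 : ∀ᶠ n in atTop, ∀ i ∈ Finset.range (2 * N₀), (law (p n) (k n) (S n)).real
      {h | ∃ s : unitInterval, dist (gn n (x n h s)) (Complex.exp (ang N₀ i * Complex.I)) < ε i} ≤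
        e / (4 * N₀) :=
    (Filter.eventually_all_finset _).2 fun i hi => hεp i (Finset.mem_range.1 hi)
  filter_upwards [hlight, hA.ds.near (half_pos hρ), ev1, ev2] with n hli hnear hn1 hn2
  have hδ0 := hA.pos n
  have hp := hA.poly n
  have hS := hA.encl n
  obtain ⟨μ, hμ⟩ : ∃ μ, μ = law (p n) (k n) (S n) := ⟨_, rfl⟩
  have hprob : IsProbabilityMeasure μ := by rw [hμ]; exact hA.prob n
  rw [← hμ] at hn1 hn2 ⊢
  have hcompl : μ (Heights (p n) (k n) (S n))ᶜ = 0 := by rw [hμ]; exact law_compl hp hS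
  have hsub : {h | Cross (y n h) c r (3 * r) (∑ w ∈ W, 2 * m w + 1)} ⊆
      ((⋃ w ∈ W, {h | Cross (x n h) w ρ (L * ρ) (m w)}) ∪
        ⋃ i ∈ Finset.range (2 * N₀), {h | ∃ s : unitInterval,
          dist (gn n (x n h s)) (Complex.exp (ang N₀ i * Complex.I)) < ε i}) ∪
        (Heights (p n) (k n) (S n))ᶜ := by
    intro h hh
    by_cases hH : h ∈ Heights (p n) (k n) (S n)
    · left
      by_cases hb : ∃ i < 2 * N₀, ∃ s : unitInterval,
          dist (gn n (x n h s)) (Complex.exp (ang N₀ i * Complex.I)) < ε i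
      · right
        obtain ⟨i, hi, hs⟩ := hb
        exact mem_iUnion₂.2 ⟨i, Finset.mem_range.2 hi, hs⟩
      · left
        push Not at hb
        obtain ⟨t, ht, htc⟩ := hh
        have hcl := intf_clos hδ0 (hx n h hH)
        have hyx := hy n h hH
        obtain ⟨w, hw, hc⟩ := count_small (g := x n h) ht (W := W) (ρ := ρ) (ρ' := L * ρ) (m := m)
          (M := ∑ w ∈ W, 2 * m w + 1) (Nat.lt_succ_self _) (by
            intro i hi
            have huv : t (2 * i) ≤ t (2 * i + 1) := ht (by omega)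
            have hd : 2 * r ≤ dist (y n h (t (2 * i))) (y n h (t (2 * i + 1))) := by
              linarith [(htc i hi).1, (htc i hi).2,
                dist_triangle_left (y n h (t (2 * i + 1))) c (y n h (t (2 * i)))]
            by_cases h1 : ∃ s ∈ Icc (t (2 * i)) (t (2 * i + 1)), ‖y n h s‖ ≤ 1 - η
            · obtain ⟨s, hs, hys⟩ := h1
              obtain ⟨w, hw, hsw⟩ := hWc _ (mem_image_of_mem φ (mem_closedBall_zero_iff.2 hys))
              have e1 := hnear _ (hcl s)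
              rw [← hyx] at e1
              refine ⟨w, hw, s, hs, ?_⟩
              by_contra hcon
              push Not at hcon
              have e2 : dist (x n h s) w ≤ ρ := by
                linarith [dist_triangle (x n h s) (φ (y n h s)) w]
              have e3 := hli (x n h '' Icc (t (2 * i)) (t (2 * i + 1)))
                (by rintro _ ⟨a, -, rfl⟩; exact hcl a)
                (isPreconnected_Icc.image _ (x n h).continuous.continuousOn) (by
                  rintro _ ⟨a, ha, rfl⟩ _ ⟨b, hb, rfl⟩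
                  linarith [hcon a ha e2, hcon b hb e2,
                    dist_triangle_right (x n h a) (x n h b) w])
                _ (mem_image_of_mem _ (left_mem_Icc.2 huv)) _
                (mem_image_of_mem _ (right_mem_Icc.2 huv))
              rw [← hyx, ← hyx] at e3
              linarith
            · exfalso
              push Not at h1
              have e3 := hst (y n h '' Icc (t (2 * i)) (t (2 * i + 1)))
                (isPreconnected_Icc.image _ (y n h).continuous.continuousOn) (by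
                  rintro _ ⟨a, ha, rfl⟩
                  have e4 := hA.ds.norm_le n (hcl a)
                  rw [← hyx] at e4
                  rw [abs_lt]
                  constructor <;> linarith [h1 a ha]) (by
                  rintro j hj _ ⟨a, -, rfl⟩
                  rw [hyx]
                  exact (hε₀' j hj).trans (hb j hj a))
                _ (mem_image_of_mem _ (left_mem_Icc.2 huv)) _
                (mem_image_of_mem _ (right_mem_Icc.2 huv))
              linarith)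
        exact mem_iUnion₂.2 ⟨w, hw, hc⟩
    · right
      exact hH
  have h1 : μ.real (⋃ w ∈ W, {h | Cross (x n h) w ρ (L * ρ) (m w)}) ≤ e / 2 := by
    refine (measureReal_biUnion_finset_le _ _).trans ((Finset.sum_le_sum hn1).trans ?_)
    rw [Finset.sum_const, nsmul_eq_mul, ← mul_div_assoc, div_le_div_iff₀ (by positivity) two_pos]
    nlinarith
  have h2 : μ.real (⋃ i ∈ Finset.range (2 * N₀), {h | ∃ s : unitInterval,
      dist (gn n (x n h s)) (Complex.exp (ang N₀ i * Complex.I)) < ε i}) ≤ e / 2 := by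
    refine (measureReal_biUnion_finset_le _ _).trans ((Finset.sum_le_sum hn2).trans ?_)
    rw [Finset.sum_const, nsmul_eq_mul, Finset.card_range]
    push_cast
    rw [← mul_div_assoc, div_le_div_iff₀ (by positivity) two_pos]
    nlinarith
  have h3 : μ.real (Heights (p n) (k n) (S n))ᶜ = 0 := by
    rw [measureReal_def, hcompl, ENNReal.toReal_zero]
  refine (measureReal_mono hsub).trans ?_
  refine (measureReal_union_le _ _).trans ?_
  rw [h3, add_zero]
  refine (measureReal_union_le _ _).trans ?_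
  linarith

/-- The crossings, from the plane hypotheses. -/
theorem t_cross {Q : Measure A.Om} {κ : ℝ} (hQ : A.IsQ Q) (hP : GFF.Plane (Q.map A.rc))
    (hS : GFF.SpecOut (Q.map A.rc) κ) (hC : GFF.RowCLT (Q.map A.rc) κ) (hκ : 0 < κ) : T_cross := by
  have lvl := F.lvl_of hQ hP hS hC hκ
  exact t_cross_of (t_int_of hP (F.X.s_int hP) lvl.pos lvl.rsw (s_uni hQ hP hS hC hκ))
    (t_bdp (LOC.s_land_of (by norm_num) (RD.s_land hQ hP hS hC hκ 2)))

end Vale.Agent.N153
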