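import Vale.Agent.N153.Obs

/-!
N153, the curve: the lattice steps are small, and the drivers converge.
-/

set_option autoImplicit false
set_option linter.unusedVariables false

namespace Vale.Agent.N153.Stp

open MeasureTheory ProbabilityTheory Filter Topology Set
open scoped NNReal ENNReal
open Vale.Agent.P153 Vale.Agent.P153.R2
open Vale.Agent.P153.R2.Final (mid toC region Heights IsInterface law mean IsPolygon Encloses)
open Vale.Agent.P153.R2.UNIQ (IsUnifD bptD Disc)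
open Vale.Agent.P153.R2.DRV
open Vale.Agent.P153.R2.STEP (StepBy steps_seq dist_run st_adj dist_pl)
open Vale.Agent.P153.R2.INTF (St run fa fb StopIx StopMeas Fk Rk len eta mem_CA Good)
open Vale.Agent.P153.R2.L2 (Crv gg cc ww drv tau)
open Vale.Agent.P153.R2.POLY (DC)
open Vale.Agent.P164 (loewnerDomain flow flow_eq IsLoewnerSol)

/-- The uniformizers from the half-plane. -/
noncomputable def hp (φn : ℕ → ℂ → ℂ) (n : ℕ) : ℂ → ℂ := fun z => φn n (cay z)

variable {D : Set ℂ} {φ : ℂ → ℂ} {δ : ℕ → ℝ} {N k : ℕ → ℕ} {p : ∀ n, ZMod (N n) → ℤ × ℤ}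
  {S : ℕ → Finset Final.Tri} {φn gn : ℕ → ℂ → ℂ}

theorem unifD (hs : LS D φ δ N k p S φn gn) (n : ℕ) :
    IsUnifD (p n) (k n) (S n) (δ n) (hp φn n) := hs.unifD n

theorem can_n (hs : LS D φ δ N k p S φn gn) (n : ℕ) {g : UNIQ.Hg}
    (hg : g ∈ Cs (p n) (k n) (S n)) : Can (p n) (k n) (S n) (δ n) g :=
  can_of POLY.s_can (hs.pos n) (hs.kpos n) (hs.klt n) (hs.poly n) (hs.encl n) hg

theorem crv_n (hs : LS D φ δ N k p S φn gn) (n : ℕ) {g : UNIQ.Hg}
    (hg : g ∈ Cs (p n) (k n) (S n)) :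
    Crv (et (hp φn n) (δ n) (p n) (S n) g) (nu (p n) (S n) g) :=
  crv (unifD hs n) (can_n hs n hg)

theorem pl_clos (hs : LS D φ δ N k p S φn gn) (n : ℕ) {g : UNIQ.Hg}
    (hg : g ∈ Cs (p n) (k n) (S n)) {t : ℝ} (h0 : 0 ≤ t) (h1 : t ≤ nu (p n) (S n) g) :
    pl (δ n) (ru (p n) (S n) g) t ∈ closure (DC (δ n) (S n)) := by
  rcases h1.lt_or_eq with h2 | h2
  · rw [← psi_et (unifD hs n) (can_n hs n hg) h0 h2]
    exact hs.ds.mem_closure n (norm_cay_le (et_mem (unifD hs n) (can_n hs n hg) h0 h2))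
  · rw [h2, (can_n hs n hg).fin, ← hs.one]
    exact hs.ds.mem_closure n norm_one.le

theorem cay_et (hs : LS D φ δ N k p S φn gn) (n : ℕ) {g : UNIQ.Hg}
    (hg : g ∈ Cs (p n) (k n) (S n)) {t : ℝ} (h0 : 0 ≤ t) (h1 : t < nu (p n) (S n) g) :
    cay (et (hp φn n) (δ n) (p n) (S n) g t) = gn n (pl (δ n) (ru (p n) (S n) g) t) := by
  rw [← psi_et (unifD hs n) (can_n hs n hg) h0 h1]
  exact (hs.gn_cay n (et_mem (unifD hs n) (can_n hs n hg) h0 h1)).symm

/-- The steps are small in the disc. -/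
theorem step_small (hs : LS D φ δ N k p S φn gn) {ε : ℝ} (hε : 0 < ε) : ∀ᶠ n in atTop,
    ∀ g ∈ Cs (p n) (k n) (S n), ∀ i : ℕ, i < nu (p n) (S n) g → ∀ r ∈ Icc (i : ℝ) (i + 1),
      ∀ r' ∈ Icc (i : ℝ) (i + 1), dist (gn n (pl (δ n) (ru (p n) (S n) g) r))
        (gn n (pl (δ n) (ru (p n) (S n) g) r')) ≤ ε := by
  obtain ⟨η, hη, hl⟩ := hs.ds.light hε
  filter_upwards [hl, hs.small hη] with n h1 h2 g hg i hi r hr r' hr'
  have hi' : (i : ℝ) + 1 ≤ nu (p n) (S n) g := by exact_mod_cast hi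
  have hi0 : (0 : ℝ) ≤ i := Nat.cast_nonneg i
  refine h1 (pl (δ n) (ru (p n) (S n) g) '' Icc (i : ℝ) (i + 1)) ?_ ?_ ?_ _
    (mem_image_of_mem _ hr) _ (mem_image_of_mem _ hr')
  · rintro _ ⟨t, ht, rfl⟩
    exact pl_clos hs n hg (hi0.trans ht.1) (ht.2.trans hi')
  · exact isPreconnected_Icc.image _ ((pl_cont _ _).mono fun t ht => hi0.trans ht.1)
  · rintro _ ⟨t, ht, rfl⟩ _ ⟨t', ht', rfl⟩
    have hmid : dist (mid (δ n) (ru (p n) (S n) g i).1 (ru (p n) (S n) g i).2)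
        (mid (δ n) (ru (p n) (S n) g (i + 1)).1 (ru (p n) (S n) g (i + 1)).2) ≤ δ n / 2 :=
      dist_run (st_adj (hs.poly n)) (hs.pos n) i
    have a1 := dist_pl (δ n) (ru (p n) (S n) g) i ht.1 ht.2 hmid
    have a2 := dist_pl (δ n) (ru (p n) (S n) g) i ht'.1 ht'.2 hmid
    linarith [dist_triangle_right (pl (δ n) (ru (p n) (S n) g) t) (pl (δ n) (ru (p n) (S n) g) t')
      (pl (δ n) (ru (p n) (S n) g) i)]

theorem cay_diff : DifferentiableOn ℂ cay {z : ℂ | 0 < z.im} := by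
  unfold cay R1.mb
  refine DifferentiableOn.mul (differentiableOn_const _)
    (DifferentiableOn.div (by fun_prop) (by fun_prop) fun z hz he => ?_)
  have := congrArg Complex.im he
  have hz' : 0 < z.im := hz
  simp at this
  linarith

theorem stepBy (hS : LS D φ δ N k p S φn gn) (T R : ℝ) {ε : ℝ} (hε : 0 < ε) :
    ∀ᶠ n in atTop, StepBy (hp φn n) (δ n) (p n) (k n) (S n) T R ε := by
  obtain ⟨δ₀, hδ₀, hst⟩ := steps_seq (b := 1) (ψn := fun _ => cay) cay_cont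
    (fun z hz => cay_ne hz) cay_uni.inf (fun _ => cay_diff)
    (fun _ => cay_inj.mono fun z (hz : 0 < z.im) => hz.le)
    (fun ε hε => Eventually.of_forall fun n z _ => by rwa [dist_self]) T R hε
  filter_upwards [hst, step_small hS (half_pos hδ₀)] with n hn hsm
  intro h hh j hj hbef
  have hδ0 := hS.pos n
  have hpoly := hS.poly n
  have hC := canCs (N n) (k n) (p n) (S n) (δ n) hδ0 (hS.kpos n) (hS.klt n) hpoly (hS.encl n) h hh
  have hU := unifD hS n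
  have hcrv := hC.crv hU
  obtain ⟨m, hm⟩ : ∃ m, nu (p n) (S n) h = m + 1 := ⟨nu (p n) (S n) h - 1, by
    have := hC.pos
    omega⟩
  obtain ⟨L, hL⟩ : ∃ L : ℝ, L = (nu (p n) (S n) h : ℝ) := ⟨_, rfl⟩
  have hLm : L = m + 1 := by rw [hL, hm]; push_cast; ring
  have hT₁ : L - 1 / 2 ∈ Ioo 0 L := by
    have : (0 : ℝ) ≤ m := Nat.cast_nonneg m
    constructor <;> linarith
  rw [← hL] at hcrv
  obtain ⟨hWc, hsg⟩ := hcrv.sgen_local hT₁
  have h0L : (0 : ℝ) ∈ Ico 0 L := ⟨le_rfl, by linarith [hT₁.2, hT₁.1]⟩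
  have het0 : et (hp φn n) (δ n) (p n) (S n) h 0 = 0 :=
    (hC.et_eq hU ⟨le_rfl, by rw [← hL]; exact h0L.2⟩).2.2 rfl
  have hW0 : L2.Crv.drvT (et (hp φn n) (δ n) (p n) (S n) h) L (L - 1 / 2) 0 = 0 := by
    have := hsg.start
    rw [het0] at this
    exact_mod_cast this.symm
  have hWcp : ∀ t, 0 ≤ t → t ≤ L - 1 / 2 →
      L2.Crv.drvT (et (hp φn n) (δ n) (p n) (S n) h) L (L - 1 / 2) (DRV.cp (hp φn n) (δ n) (p n) (S n) h t) =
        wd (hp φn n) (δ n) (p n) (S n) h t := by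
    intro t h0 h1
    have htI : t ∈ Ico 0 L := ⟨h0, h1.trans_lt hT₁.2⟩
    unfold DRV.cp wd
    rw [L2.Crv.drvT_eq (hcrv.cap_nonneg htI)
      (hcrv.strictMono.monotoneOn htI ⟨hT₁.1.le, hT₁.2⟩ h1), hcrv.drv_cc htI]
  have key := hn _ _ _ _ m (fun i => (i : ℝ)) hWc hW0 hsg (by simp) (fun i _ => by simp)
    (by linarith) ?_ ?_ j (by omega) ?_
  · obtain ⟨h1, h2, h3⟩ := key
    have hj1 : (j : ℝ) + 1 ≤ m := by exact_mod_cast h1
    refine ⟨by omega, ?_, ?_⟩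
    · simp only [Nat.cast_add, Nat.cast_one] at h2
      exact h2
    · intro t ht
      have h0t : 0 ≤ t := (Nat.cast_nonneg j).trans ht.1
      have htL : t ≤ L - 1 / 2 := by linarith [ht.2]
      have h4 := h3 (DRV.cp (hp φn n) (δ n) (p n) (S n) h t) ?_
      · rw [hWcp t h0t htL] at h4
        have h5 := hWcp j (Nat.cast_nonneg j) (by linarith)
        unfold DRV.cp at h5
        rwa [h5] at h4
      · simp only [Nat.cast_add, Nat.cast_one]
        have htI : t ∈ Ico 0 L := ⟨h0t, by linarith⟩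
        constructor
        · exact hcrv.strictMono.monotoneOn ⟨Nat.cast_nonneg j, by linarith⟩ htI ht.1
        · exact hcrv.strictMono.monotoneOn htI ⟨by positivity, by linarith⟩ ht.2
  · intro i hi r hr
    have hi' : (i : ℝ) + 1 ≤ m := by exact_mod_cast hi
    simp only [Nat.cast_add, Nat.cast_one] at hr
    have hi0 : (0 : ℝ) ≤ i := Nat.cast_nonneg i
    rw [cay_et hS n hh (hi0.trans hr.1) (by linarith [hr.2]), cay_et hS n hh hi0 (by linarith)]
    exact (hsm h hh i (by omega) r hr i ⟨le_rfl, by linarith⟩).trans_lt (half_lt_self hδ₀)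
  · have hm0 : (0 : ℝ) ≤ m := Nat.cast_nonneg m
    rw [cay_et hS n hh hm0 (by linarith)]
    have h1 := hsm h hh m (by omega) m ⟨le_rfl, by linarith⟩ (m + 1) ⟨by linarith, le_rfl⟩
    rw [← hLm, hL, hC.last, hS.gn_one] at h1
    exact h1.trans_lt (half_lt_self hδ₀)
  · intro i hi
    have hi1 : (i : ℝ) ≤ L - 1 / 2 := by
      have : i ≤ m := by omega
      have : (i : ℝ) ≤ m := by exact_mod_cast this
      linarith
    obtain ⟨h1, h2⟩ := hbef i hi
    refine ⟨h1, ?_⟩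
    have h3 := hWcp i (Nat.cast_nonneg i) hi1
    unfold DRV.cp at h3
    rw [h3]
    exact h2

/-- Small steps; the last step is not reached before the exit. -/
theorem s_step (hS : LS D φ δ N k p S φn gn) (T R : ℝ) : ∃ e : ℕ → ℝ, Tendsto e atTop (𝓝 0) ∧
      ∀ᶠ n in atTop, StepBy (hp φn n) (δ n) (p n) (k n) (S n) T R (e n) := by
  refine ⟨fun n => sInf {ε | 0 ≤ ε ∧ StepBy (hp φn n) (δ n) (p n) (k n) (S n) T R ε}, ?_, ?_⟩
  · rw [Metric.tendsto_nhds]
    intro ε hε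
    filter_upwards [stepBy hS T R (half_pos hε)] with n hn
    have h1 : sInf {ε | 0 ≤ ε ∧ StepBy (hp φn n) (δ n) (p n) (k n) (S n) T R ε} ≤ ε / 2 :=
      csInf_le ⟨0, fun x hx => hx.1⟩ ⟨by positivity, hn⟩
    have h2 : 0 ≤ sInf {ε | 0 ≤ ε ∧ StepBy (hp φn n) (δ n) (p n) (k n) (S n) T R ε} :=
      le_csInf ⟨ε / 2, by positivity, hn⟩ fun x hx => hx.1
    rw [Real.dist_eq, sub_zero, abs_of_nonneg h2]
    linarith
  · filter_upwards [stepBy hS T R one_pos] with n hn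
    intro h hh j hj hb
    have hne : {ε | 0 ≤ ε ∧ StepBy (hp φn n) (δ n) (p n) (k n) (S n) T R ε}.Nonempty :=
      ⟨1, zero_le_one, hn⟩
    exact ⟨(hn h hh j hj hb).1, le_csInf hne fun ε hε => (hε.2 h hh j hj hb).2.1,
      fun t ht => le_csInf hne fun ε hε => (hε.2 h hh j hj hb).2.2 t ht⟩

theorem exn_V (hs : LS D φ δ N k p S φn gn) (n : ℕ) {g : UNIQ.Hg}
    (hg : g ∈ Cs (p n) (k n) (S n)) {j : ℕ} (hj : j < nu (p n) (S n) g) :
    (exn δ N k p S (hp φn) n).V g j = wd (hp φn n) (δ n) (p n) (S n) g j := by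
  have h1 := V_eq (k := k n) (crv_n hs n hg) (can_n hs n hg).pos j
  rw [sj_lt hj] at h1
  exact h1

/-- Small steps. -/
theorem exn_small (hs : LS D φ δ N k p S φn gn) (T R : ℝ) :
    ∃ e : ℕ → ℝ, Tendsto e atTop (𝓝 0) ∧ ∀ᶠ n in atTop, ∀ g ∈ (exn δ N k p S (hp φn) n).C,
    ∀ j, j + 1 < (exn δ N k p S (hp φn) n).K g →
    (∀ i ≤ j, (exn δ N k p S (hp φn) n).c g i ≤ T ∧ |(exn δ N k p S (hp φn) n).V g i| ≤ R) →
    (exn δ N k p S (hp φn) n).c g (j + 1) - (exn δ N k p S (hp φn) n).c g j ≤ e n ∧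
    ∀ u : ℝ≥0, (exn δ N k p S (hp φn) n).c g j ≤ u → (u : ℝ) ≤ (exn δ N k p S (hp φn) n).c g (j + 1) →
      |(exn δ N k p S (hp φn) n).w g u - (exn δ N k p S (hp φn) n).V g j| ≤ e n := by
  obtain ⟨e, he, h⟩ := s_step hs T R
  refine ⟨e, he, ?_⟩
  filter_upwards [h] with n hn g hg j hj hb
  have hj' : j + 1 < nu (p n) (S n) g := hj
  have hcr := crv_n hs n hg
  have hpos := (can_n hs n hg).pos
  obtain ⟨-, h1, h2⟩ := hn g hg j (by omega) fun i hi => by
    have h3 := hb i hi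
    rwa [exn_c n (by omega), exn_V hs n hg (by omega)] at h3
  rw [exn_c n hj', exn_c n (by omega), exn_V hs n hg (by omega)]
  push_cast
  refine ⟨h1, fun u hu0 hu1 => ?_⟩
  have hj1 : ((j : ℝ) + 1) + 1 ≤ nu (p n) (S n) g := by exact_mod_cast hj'
  have hivt := intermediate_value_Icc (show (j : ℝ) ≤ j + 1 by linarith)
    (hcr.cap_cont.mono (fun t ht => ⟨(Nat.cast_nonneg j).trans ht.1,
      ht.2.trans_lt (by linarith)⟩ : Icc (j : ℝ) (j + 1) ⊆ Ico 0 (nu (p n) (S n) g : ℝ)))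
  obtain ⟨t, ht, htu⟩ := hivt ⟨hu0, hu1⟩
  have h3 := wf_cc hcr hpos ((Nat.cast_nonneg j).trans ht.1) (by linarith [ht.2])
  have h4 : DRV.cp (hp φn n) (δ n) (p n) (S n) g t = u := htu
  rw [h4, Real.toNNReal_coe] at h3
  change |wf (hp φn n) (δ n) (p n) (S n) g u - _| ≤ _
  rw [h3]
  exact h2 t ht

/-- **The exit from the compact sets is before the last step.** -/
theorem exn_far (hs : LS D φ δ N k p S φn gn) (T R : ℝ) :
    ∀ᶠ n in atTop, ∀ g ∈ (exn δ N k p S (hp φn) n).C, ∃ j < (exn δ N k p S (hp φn) n).K g,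
      T < (exn δ N k p S (hp φn) n).c g j ∨ R < |(exn δ N k p S (hp φn) n).V g j| := by
  filter_upwards [stepBy hs T R one_pos] with n hn g hg
  by_contra hc
  push Not at hc
  have hpos := (can_n hs n hg).pos
  have h1 := (hn g hg (nu (p n) (S n) g - 1) (by omega) fun i hi => by
    have hi' : i < nu (p n) (S n) g := by omega
    have h1 := hc i hi'
    rwa [exn_c n hi', exn_V hs n hg hi'] at h1).1
  omega

/-- At stops before the exit, capacity and driver are bounded. -/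
theorem stop_bd (hs : LS D φ δ N k p S φn gn) {T R : ℝ} (hT : 0 ≤ T)
    (hR : 0 < R) : ∀ᶠ n in atTop, ∀ h ∈ Cs (p n) (k n) (S n), ∀ m < nu (p n) (S n) h,
      (∀ j < m, DRV.cp (hp φn n) (δ n) (p n) (S n) h j ≤ T ∧ |wd (hp φn n) (δ n) (p n) (S n) h j| ≤ R) →
      DRV.cp (hp φn n) (δ n) (p n) (S n) h m ≤ T + 1 ∧ |wd (hp φn n) (δ n) (p n) (S n) h m| ≤ R + 1 := by
  obtain ⟨e, he, h⟩ := s_step hs T R
  filter_upwards [h, he.eventually (gt_mem_nhds (show (0 : ℝ) < 1 by norm_num))] with n hn hen g hg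
    m hm hb
  have hcr := crv_n hs n hg
  rcases Nat.eq_zero_or_pos m with h0 | h0
  · subst h0
    have h1 : DRV.cp (hp φn n) (δ n) (p n) (S n) g ((0 : ℕ) : ℝ) = 0 := by
      rw [Nat.cast_zero]; exact hcr.cap_zero
    have h2 : wd (hp φn n) (δ n) (p n) (S n) g ((0 : ℕ) : ℝ) = 0 := by
      rw [Nat.cast_zero]
      have h3 := ww_zero hcr
      rw [et_zero (unifD hs n) (can_n hs n hg)] at h3
      exact_mod_cast h3
    rw [h1, h2, abs_zero]
    constructor <;> linarith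
  · obtain ⟨j, rfl⟩ : ∃ j, m = j + 1 := ⟨m - 1, by omega⟩
    obtain ⟨-, h1, h2⟩ := hn g hg j (by omega) fun i hi => hb i (by omega)
    obtain ⟨h3, h4⟩ := hb j (by omega)
    have h5 := h2 (j + 1) ⟨by linarith, le_rfl⟩
    have h6 := abs_add_le (wd (hp φn n) (δ n) (p n) (S n) g ((j : ℝ) + 1) -
      wd (hp φn n) (δ n) (p n) (S n) g j) (wd (hp φn n) (δ n) (p n) (S n) g j)
    rw [sub_add_cancel] at h6
    push_cast
    constructor <;> linarith

/-- **The approximate martingale property.** -/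
theorem exn_mart (hs : LS D φ δ N k p S φn gn) (hob : T_obs)
    (z : ℂ) (T R : ℝ) (hT : 0 ≤ T) (hR : 0 < R) (hz : 0 < z.im) (hzT : 16 * (T + 1) ≤ z.im ^ 2) :
    ∃ zn : ℕ → ℂ, Tendsto zn atTop (𝓝 z) ∧ ∀ (κ κ' : ℕ → UNIQ.Hg → ℕ) (Y : ℕ → UNIQ.Hg → ℝ),
      (∀ n, (exn δ N k p S (hp φn) n).StopIx (κ n)) → (∀ n, (exn δ N k p S (hp φn) n).StopIx (κ' n)) →
      (∀ n, ∀ h ∈ (exn δ N k p S (hp φn) n).C, κ n h ≤ κ' n h) →
      (∀ n, ∀ h ∈ (exn δ N k p S (hp φn) n).C, κ' n h < (exn δ N k p S (hp φn) n).K h) →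
      (∀ n, ∀ h ∈ (exn δ N k p S (hp φn) n).C, ∀ j < κ' n h,
        (exn δ N k p S (hp φn) n).c h j ≤ T ∧ |(exn δ N k p S (hp φn) n).V h j| ≤ R) →
      (∀ n, (exn δ N k p S (hp φn) n).StopMeas (κ n) (Y n)) →
      (∀ n, ∀ h ∈ (exn δ N k p S (hp φn) n).C, |Y n h| ≤ 1) →
      Tendsto (fun n => Ex (exn δ N k p S (hp φn) n).C fun h =>
        (Complex.arg (flow ((exn δ N k p S (hp φn) n).W h) ((exn δ N k p S (hp φn) n).c h (κ' n h)) (zn n)) -
          Complex.arg (flow ((exn δ N k p S (hp φn) n).W h) ((exn δ N k p S (hp φn) n).c h (κ n h)) (zn n)))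
          * Y n h) atTop (𝓝 0) := by
  obtain ⟨zn, G, hzn, hG⟩ := hob D φ δ N k p S φn gn hs z T R hz hT hR hzT
  refine ⟨zn, hzn, fun κ κ' Y hκ hκ' hle hlt hb hY hY1 => ?_⟩
  have hlt' : ∀ n, ∀ h ∈ Cs (p n) (k n) (S n), κ' n h < nu (p n) (S n) h := hlt
  have hltk : ∀ n, ∀ h ∈ Cs (p n) (k n) (S n), κ n h < nu (p n) (S n) h := fun n h hh =>
    lt_of_le_of_lt (hle n h hh) (hlt' n h hh)
  have hb' : ∀ n, ∀ h ∈ Cs (p n) (k n) (S n), ∀ j < κ' n h,
      DRV.cp (hp φn n) (δ n) (p n) (S n) h j ≤ T ∧ |wd (hp φn n) (δ n) (p n) (S n) h j| ≤ R := by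
    intro n h hh j hj
    have h1 := hb n h hh j hj
    have h2 : j < nu (p n) (S n) h := hj.trans (hlt' n h hh)
    rwa [exn_c n h2, exn_V hs n hh h2] at h1
  have hbd := stop_bd hs hT hR
  have hA' := hG κ' hκ' hlt' (by
    filter_upwards [hbd] with n hn h hh
    exact hn h hh _ (hlt' n h hh) (hb' n h hh))
  have hA := hG κ hκ hltk (by
    filter_upwards [hbd] with n hn h hh
    exact hn h hh _ (hltk n h hh) fun j hj => hb' n h hh j (lt_of_lt_of_le hj (hle n h hh)))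
  -- the point is alive for large `n`
  have hzn1 : ∀ᶠ n in atTop, 0 < (zn n).im :=
    ((Complex.continuous_im.tendsto z).comp hzn).eventually (lt_mem_nhds hz)
  have hzn2 : ∀ᶠ n in atTop, 4 * (T + 1) < (zn n).im ^ 2 := by
    have h1 : Tendsto (fun n => (zn n).im ^ 2) atTop (𝓝 (z.im ^ 2)) :=
      ((Complex.continuous_im.tendsto z).comp hzn).pow 2
    exact h1.eventually (lt_mem_nhds (by nlinarith))
  have hsum := hA'.add hA
  rw [add_zero] at hsum
  refine squeeze_zero_norm' ?_ hsum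
  filter_upwards [hbd, hzn1, hzn2] with n hn hz1 hz2
  have a2 := hs.kpos n
  have a3 := hs.klt n
  have a4 := hs.poly n
  have a5 := hs.encl n
  set C := Cs (p n) (k n) (S n) with hCdef
  set A' : UNIQ.Hg → ℝ := fun h => (gc (hp φn n) (δ n) (p n) (S n) h (κ' n h) (zn n)).arg with hA'def
  set A : UNIQ.Hg → ℝ := fun h => (gc (hp φn n) (δ n) (p n) (S n) h (κ n h) (zn n)).arg with hAdef
  set E' : UNIQ.Hg → ℝ := fun h => cE (p n) (k n) (S n) h (κ' n h) (G n) with hE'def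
  set E : UNIQ.Hg → ℝ := fun h => cE (p n) (k n) (S n) h (κ n h) (G n) with hEdef
  have hfl : ∀ h ∈ C, ∀ m < nu (p n) (S n) h,
      (∀ j < m, DRV.cp (hp φn n) (δ n) (p n) (S n) h j ≤ T ∧ |wd (hp φn n) (δ n) (p n) (S n) h j| ≤ R) →
      flow ((exn δ N k p S (hp φn) n).W h) ((exn δ N k p S (hp φn) n).c h m) (zn n) =
        gc (hp φn n) (δ n) (p n) (S n) h m (zn n) := by
    intro h hh m hm hbm
    refine flow_gc (crv_n hs n hh) (can_n hs n hh).pos hm hz1 ?_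
    have := (hn h hh m hm hbm).1
    linarith
  have htow : Ex C (fun h => Y n h * E' h) = Ex C fun h => Y n h * E h := by
    rw [← tower_cE a4 a5 a2 a3 (hκ n) (hltk n) (Y n) (G n) (hY n),
      ← tower_cE a4 a5 a2 a3 (hκ' n) (hlt' n) (Y n) (G n) ?_]
    intro h hh h' hh' ha
    exact hY n h hh h' hh' fun j hj => ha j (hj.trans (hle n h hh))
  have key : (Ex (exn δ N k p S (hp φn) n).C fun h =>
        (Complex.arg (flow ((exn δ N k p S (hp φn) n).W h) ((exn δ N k p S (hp φn) n).c h (κ' n h)) (zn n)) -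
          Complex.arg (flow ((exn δ N k p S (hp φn) n).W h) ((exn δ N k p S (hp φn) n).c h (κ n h)) (zn n)))
          * Y n h) = Ex C (fun h => (A' h - E' h) * Y n h) - Ex C (fun h => (A h - E h) * Y n h) := by
    have h1 : (Ex (exn δ N k p S (hp φn) n).C fun h =>
        (Complex.arg (flow ((exn δ N k p S (hp φn) n).W h) ((exn δ N k p S (hp φn) n).c h (κ' n h)) (zn n)) -
          Complex.arg (flow ((exn δ N k p S (hp φn) n).W h) ((exn δ N k p S (hp φn) n).c h (κ n h)) (zn n)))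
          * Y n h) = Ex C fun h => (((A' h - E' h) * Y n h) - ((A h - E h) * Y n h)) +
            (Y n h * E' h - Y n h * E h) := by
      refine Ex_congr fun h hh => ?_
      rw [hfl h hh (κ' n h) (hlt' n h hh) (hb' n h hh),
        hfl h hh (κ n h) (hltk n h hh) fun j hj => hb' n h hh j (lt_of_lt_of_le hj (hle n h hh))]
      simp only [hA'def, hAdef]
      ring
    rw [h1, Ex_add, Ex_sub, Ex_sub, htow, sub_self, add_zero]
  rw [key, Real.norm_eq_abs]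
  refine (abs_sub _ _).trans (add_le_add ?_ ?_)
  · refine (abs_Ex_le _).trans (Ex_mono fun h hh => ?_)
    rw [abs_mul]
    exact mul_le_of_le_one_right (abs_nonneg _) (hY1 n h hh)
  · refine (abs_Ex_le _).trans (Ex_mono fun h hh => ?_)
    rw [abs_mul]
    exact mul_le_of_le_one_right (abs_nonneg _) (hY1 n h hh)

/-- **The interfaces form an asymptotic system.** -/
theorem exn_asym (hs : LS D φ δ N k p S φn gn) (hob : T_obs) :
    M1.Asym (exn δ N k p S (hp φn)) where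
  wf := fun n => ex_wf POLY.s_can (unifD hs n) (hs.pos n) (hs.kpos n) (hs.klt n) (hs.poly n)
    (hs.encl n)
  small := exn_small hs
  far := exn_far hs
  mart := exn_mart hs hob

/-- The last quarter steps, in the disc. -/
theorem disc_cay (hs : LS D φ δ N k p S φn gn) (n : ℕ) {x y : C(unitInterval, ℂ)}
    (hx : ∀ t, x t ∈ closure (DC (δ n) (S n))) (hy : ∀ t, y t = gn n (x t))
    (h1 : x 1 = bptD (p n) (k n) (δ n)) {η : ℝ → ℂ} {c : ℝ → ℝ} {w : C(ℝ≥0, ℝ)} {T₀ T ε : ℝ}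
    (hd : Disc (hp φn n) (bptD (p n) (k n) (δ n)) x η c w T₀ T (δ n))
    (hε : ∀ X ⊆ closure (DC (δ n) (S n)), IsPreconnected X →
      (∀ a ∈ X, ∀ b ∈ X, dist a b ≤ 2 * δ n) → ∀ a ∈ X, ∀ b ∈ X, dist (gn n a) (gn n b) ≤ ε) :
    Disc cay 1 y η c w T₀ T ε := by
  refine ⟨hd.pos, hd.lt, hd.le, hd.im_nonneg, fun t ht => ?_, hd.sgen, fun t ht => ?_⟩
  · rw [hy, ← hd.map t ht]
    exact (hs.gn_cay n (hd.im_nonneg t ⟨t.2.1, ht⟩)).symm
  · rw [hy, ← hs.gn_one n, ← h1]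
    refine hε (x '' Ici t) ?_ (isPreconnected_Ici.image _ x.continuous.continuousOn) ?_ _
      (mem_image_of_mem _ self_mem_Ici) _ (mem_image_of_mem _ (show t ≤ 1 from t.2.2))
    · rintro _ ⟨s, -, rfl⟩
      exact hx s
    · rintro _ ⟨s, hs1, rfl⟩ _ ⟨s', hs2, rfl⟩
      have a1 := hd.near s (ht.trans hs1)
      have a2 := hd.near s' (ht.trans hs2)
      linarith [dist_triangle_right (x s) (x s') (bptD (p n) (k n) (δ n))]

/-- A null sequence of bounds for the images of small connected sets. -/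
theorem exists_eps (hs : LS D φ δ N k p S φn gn) : ∃ ε : ℕ → ℝ, Tendsto ε atTop (𝓝 0) ∧
    ∀ n, ∀ X ⊆ closure (DC (δ n) (S n)), IsPreconnected X →
      (∀ a ∈ X, ∀ b ∈ X, dist a b ≤ 2 * δ n) → ∀ a ∈ X, ∀ b ∈ X, dist (gn n a) (gn n b) ≤ ε n := by
  let A : ℕ → Set ℝ := fun n => {e | 0 ≤ e ∧ ∀ X ⊆ closure (DC (δ n) (S n)), IsPreconnected X →
    (∀ a ∈ X, ∀ b ∈ X, dist a b ≤ 2 * δ n) → ∀ a ∈ X, ∀ b ∈ X, dist (gn n a) (gn n b) ≤ e}
  have hne : ∀ n, (A n).Nonempty := fun n => ⟨2, zero_le_two, fun X hX _ _ a ha b hb => by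
    have a1 := hs.ds.norm_le n (hX ha)
    have a2 := hs.ds.norm_le n (hX hb)
    rw [dist_eq_norm]
    linarith [norm_sub_le (gn n a) (gn n b)]⟩
  refine ⟨fun n => sInf (A n), ?_, fun n X h1 h2 h3 a ha b hb =>
    le_csInf (hne n) fun e he => he.2 X h1 h2 h3 a ha b hb⟩
  rw [Metric.tendsto_nhds]
  intro ε hε
  obtain ⟨η, hη, hl⟩ := hs.ds.light (half_pos hε)
  filter_upwards [hl, hs.small (half_pos hη)] with n h1 h2
  have h3 : sInf (A n) ≤ ε / 2 := csInf_le ⟨0, fun x hx => hx.1⟩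
    ⟨by positivity, fun X a1 a2 a3 => h1 X a1 a2 fun a ha b hb => (a3 a ha b hb).trans (by linarith)⟩
  have h4 : 0 ≤ sInf (A n) := le_csInf (hne n) fun x hx => hx.1
  rw [Real.dist_eq, sub_zero, abs_of_nonneg h4]
  linarith

/-- **The drivers converge in law to `2 B`.** -/
theorem t_drv (hob : T_obs) : T_drv := by
  intro D φ δ N k p S φn gn hs x y hx hy
  obtain ⟨ε, hε, hεp⟩ := exists_eps hs
  classical
  have hdisc : ∀ n h, ∃ (η : ℝ → ℂ) (c : ℝ → ℝ) (T₀ T : ℝ), h ∈ Heights (p n) (k n) (S n) →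
      Disc cay 1 (y n h) η c (wf (hp φn n) (δ n) (p n) (S n) (sh (p n) (S n) h)) T₀ T (ε n) := by
    intro n h
    by_cases hh : h ∈ Heights (p n) (k n) (S n)
    · obtain ⟨η, c, T₀, T, h1⟩ := disc_exists POLY.s_can (unifD hs n) (hs.pos n) (hs.kpos n)
        (hs.klt n) (hs.poly n) (hs.encl n) hh (hx n h hh)
      exact ⟨η, c, T₀, T, fun _ => disc_cay hs n (intf_clos (hs.pos n) (hx n h hh)) (hy n h hh)
        (hx n h hh).2.2.1 h1 (hεp n)⟩
    · exact ⟨fun _ => 0, fun _ => 0, 0, 0, fun hc => absurd hc hh⟩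
  choose η c T₀ T hd using hdisc
  refine ⟨η, c, fun n h => wf (hp φn n) (δ n) (p n) (S n) (sh (p n) (S n) h), T₀, T, ε, hε,
    fun n h hh => hd n h hh, ?_⟩
  intro _ _
  obtain ⟨lam, -, hB, hlim⟩ := (exn_asym hs hob).weak
  refine ⟨lam, hB, fun f hf hM => (hlim f hf hM).congr fun n => ?_⟩
  rw [mean_law (hs.poly n) (hs.encl n)]
  refine Ex_congr fun g hg => ?_
  dsimp only
  rw [sh_bk (hs.poly n) (hs.encl n) hg]
  rfl

end Vale.Agent.N153.Stp
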