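import Vale.Agent.N153.Fld4
import Vale.Agent.N153.Dom2
import Vale.Agent.N153.Step
import Vale.Agent.N153.Int
import Vale.Agent.N153.EndA
import Vale.Agent.N153.Curve

/-!
N153: the assembly.
-/

set_option autoImplicit false

namespace Vale.Agent.N153

open Vale.Agent.P153.R2

theorem domains : Domains := Dom2.domains P153E.hasApprox rado

theorem exc : EXC := Dom2.exc P153E.hasApprox rado

theorem curveLimit : CurveLimit := by
  obtain ⟨Q, κ, h⟩ := Final.exists_par
  have hκ := h.pos
  exact curveLimit_of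
    (Stp.t_drv (t_obs (h.land hκ 2) (KAPV.slitsd_of (SDAR.l_sd (h.scen hκ)))))
    (t_cross h.isQ h.plane h.spec h.clt hκ) (En.t_end (h.land hκ 2))

/-- A boundary which is a curve is locally connected. -/
theorem lc_of_curve (D : Set ℂ) (β : ℝ → ℂ) (hβ : ContinuousOn β (Set.Icc 0 1))
    (hD : frontier D = β '' Set.Icc 0 1) : LocallyConnectedSpace (frontier D) := by
  have := (convex_Icc (0 : ℝ) 1).locallyPathConnectedSpace
  let f : Set.Icc (0 : ℝ) 1 → frontier D := fun t => ⟨β t, hD ▸ Set.mem_image_of_mem β t.2⟩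
  have hf : Continuous f := hβ.restrict.subtype_mk _
  have hs : Function.Surjective f := by
    rintro ⟨z, hz⟩
    obtain ⟨t, ht, rfl⟩ := hD ▸ hz
    exact ⟨⟨t, ht⟩, rfl⟩
  exact (Topology.IsQuotientMap.of_surjective_continuous hs hf).isCoinducing.locallyConnectedSpace

theorem everything : Domains ∧ DistLimit ∧ SobLimit ∧ CurveLimit :=
  ⟨domains, distLimit exc, sobLimit exc, curveLimit⟩

end Vale.Agent.N153
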