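import Vale.Agent.N153.Base
import Vale.Agent.P153.R2.OBSV.Fin

/-!
N153, the curve: the observable.
-/

set_option autoImplicit false
set_option linter.unusedVariables false

namespace Vale.Agent.N153

open Filter Topology Set Metric MeasureTheory
open Vale.Agent.P145.PT Vale.Agent.P153.F.Top
open Vale.Agent.P153 Vale.Agent.P153.R2 Vale.Agent.P153.R2.OBSV
open Vale.Agent.P153.R2.INTF (PP Arcs CA Fk Rk Lk StopIx)
open Vale.Agent.P153.R2.Final (toC region IsPolygon Encloses)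
open Vale.Agent.P153.R2.FLDI (inn)
open Vale.Agent.P153.R2.DRV (Cs st nu wd gc cE pl ru et Pn Mn)

/-- At stopping indices with bounded capacity and driver the argument of the centred map is close
in `L¹` to the conditional expectation of a fixed function. -/
def T_obs : Prop := ∀ D φ δ N k p S φn gn, LS D φ δ N k p S φn gn →
  ∀ (z : ℂ) (T R : ℝ), 0 < z.im → 0 ≤ T → 0 < R →
    16 * (T + 1) ≤ z.im ^ 2 → ∃ (zn : ℕ → ℂ) (G : ℕ → UNIQ.Hg → ℝ), Tendsto zn atTop (𝓝 z) ∧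
      ∀ κ : ℕ → UNIQ.Hg → ℕ,
        (∀ n, StopIx (Cs (p n) (k n) (S n)) (S n) (st (p n) (S n)) (κ n)) →
        (∀ n, ∀ h ∈ Cs (p n) (k n) (S n), κ n h < nu (p n) (S n) h) →
        (∀ᶠ n in atTop, ∀ h ∈ Cs (p n) (k n) (S n),
          DRV.cp (fun z => φn n (cay z)) (δ n) (p n) (S n) h (κ n h) ≤ T + 1 ∧
          |wd (fun z => φn n (cay z)) (δ n) (p n) (S n) h (κ n h)| ≤ R + 1) →
        Tendsto (fun n => Ex (Cs (p n) (k n) (S n)) fun h =>
          |(gc (fun z => φn n (cay z)) (δ n) (p n) (S n) h (κ n h) (zn n)).arg -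
            cE (p n) (k n) (S n) h (κ n h) (G n)|) atTop (𝓝 0)

/-- The points away from `z` are mapped away from the image of `z`. -/
theorem sep_cay {φ : ℂ → ℂ} {D : Set ℂ} (h : R1.CConf φ D) {z : ℂ} (hz : 0 < z.im) {r : ℝ}
    (hr : 0 < r) : ∃ d : ℝ, 0 < d ∧ ∀ y : ℂ, 0 ≤ y.im → r ≤ ‖y - z‖ →
      d ≤ ‖φ (cay y) - φ (cay z)‖ := by
  have h1 : ContinuousAt (R1.imb 1 Complex.I) (cay z) := by
    have h2 : cay z ≠ 1 := cay_ne hz.le
    unfold R1.imb
    refine ContinuousAt.div (by fun_prop) (by fun_prop) ?_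
    exact sub_ne_zero.2 h2.symm
  obtain ⟨s, hs, h2⟩ := Metric.continuousAt_iff.1 h1 r hr
  obtain ⟨d, hd, h3⟩ := apart h (A := closedBall 0 1 ∩ {w | s ≤ dist w (cay z)}) (B := {cay z})
    ((isCompact_closedBall _ _).inter_right
      (isClosed_le continuous_const (continuous_id.dist continuous_const)))
    isCompact_singleton inter_subset_left
    (singleton_subset_iff.2 (mem_cb.2 (norm_cay_le hz.le))) (by
      rw [Set.disjoint_left]
      rintro _ ⟨w, ⟨hw, hw'⟩, rfl⟩ ⟨_, rfl, he⟩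
      rcases eq_or_sphere h (norm_cay_le hz.le) (mem_cb.1 hw) he with h4 | h4
      · rw [mem_ofPred_eq, ← h4, dist_self] at hw'
        linarith
      · linarith [h4.1, norm_cay_lt hz])
  refine ⟨d, hd, fun y hy hyr => ?_⟩
  rw [← dist_eq_norm]
  refine h3 _ ⟨mem_cb.2 (norm_cay_le hy), (not_lt.1 fun hc => ?_ : s ≤ dist (cay y) (cay z))⟩ _ rfl
  have h4 := h2 hc
  rw [cay, cay, R1.imb_mb norm_one hI hy, R1.imb_mb norm_one hI hz.le, dist_eq_norm] at h4
  linarith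

/-- **The observable.** -/
theorem t_obs_of (hcrv : S_crv) (hgeo : S_geo) (hside : S_side)
    (hSD : S_slitsd) (hLV : S_landv) : T_obs := by
  intro D φ δ N k p S φn gn hset z T R hz hT hR hTz
  obtain ⟨ψ, hψ⟩ : ∃ ψ : ℂ → ℂ, ψ = fun z => φ (cay z) := ⟨_, rfl⟩
  have huD := hset.unifD
  have hconv : ∀ ε > 0, ∀ᶠ n in atTop, ∀ z : ℂ, 0 ≤ z.im →
      dist ((fun n z => φn n (cay z)) n z) (ψ z) < ε := by
    intro ε hε
    filter_upwards [hset.ds.conv ε hε] with n hn z hz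
    rw [hψ]
    exact hn _ (norm_cay_le hz)
  have hpoly : ∀ n, 0 < δ n ∧ 0 < k n ∧ k n < N n ∧ IsPolygon (p n) ∧ Encloses (p n) (S n) :=
    fun n => ⟨hset.pos n, hset.kpos n, hset.klt n, hset.poly n, hset.encl n⟩
  have hsepa : ∀ r > 0, ∃ d : ℝ, 0 < d ∧ ∀ y : ℂ, 0 ≤ y.im → r ≤ ‖y - z‖ → d ≤ ‖ψ y - ψ z‖ :=
    fun r hr => hψ ▸ sep_cay hset.ds.conf hz hr
  -- constants
  obtain ⟨d, hd, hsep⟩ := hsepa _ (half_pos hz)
  obtain ⟨R₁, hR₁, hbd⟩ : ∃ R₀ : ℝ, 0 < R₀ ∧ ∀ z : ℂ, 0 < z.im → ‖ψ z‖ ≤ R₀ := by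
    obtain ⟨R₀, hR₀⟩ := (isCompact_closedBall (0 : ℂ) 1).exists_bound_of_continuousOn
      hset.ds.conf.cont
    refine ⟨|R₀| + 1, by positivity, fun z hz => ?_⟩
    have h1 := hR₀ _ (mem_cb.2 (norm_cay_le hz.le))
    rw [hψ]
    linarith [le_abs_self R₀]
  obtain ⟨e, he, hball⟩ : ∃ e : ℝ, 0 < e ∧
      ∀ᶠ n in atTop, ball (ψ z) e ⊆ toC '' interior (region (δ n) (S n)) := by
    obtain ⟨e, he, h1⟩ := hset.ds.ball_sub (norm_cay_lt hz) one_pos
    refine ⟨e, he, ?_⟩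
    filter_upwards [h1] with n hn x hx
    rw [hψ] at hx
    exact (hn x hx).1
  have hlim := hset.lim
  obtain ⟨ψn, hψn⟩ : ∃ ψn : ℕ → ℂ → ℂ, ψn = fun n z => φn n (cay z) := ⟨_, rfl⟩
  have hψn' : ∀ n, (fun z => φn n (cay z)) = ψn n := fun n => by rw [hψn]
  rw [← hψn] at hconv
  simp only [hψn'] at huD ⊢
  clear hψn' hψn hψ hset
  set z₀ := ψ z with hz₀
  set R₀ := R₁ + 1 with hR₀
  set c₀ := min (d / 2) e with hc₀
  have hc₀p : 0 < c₀ := lt_min (by positivity) he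
  set r₁ := c₀ / 4 with hr₁
  have hr₁p : 0 < r₁ := by positivity
  -- the points
  set zn : ℕ → ℂ := fun n => Function.invFunOn (ψn n) HP z₀ with hzn
  have hmem : ∀ᶠ n in atTop, zn n ∈ HP ∧ ψn n (zn n) = z₀ := by
    filter_upwards [hball] with n hn
    have h1 : z₀ ∈ ψn n '' HP := by
      have h2 := hn (mem_ball_self he)
      rw [← (huD n).image] at h2
      exact h2
    exact ⟨Function.invFunOn_mem h1, Function.invFunOn_eq h1⟩
  have htend : Tendsto zn atTop (𝓝 z) := by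
    rw [Metric.tendsto_nhds]
    intro ε hε
    obtain ⟨d', hd', hsep'⟩ := hsepa _ hε
    filter_upwards [hmem, hconv d' hd'] with n hn1 hn2
    by_contra hcon
    rw [not_lt, dist_eq_norm] at hcon
    have h1 := hsep' (zn n) (le_of_lt hn1.1) hcon
    have h2 := hn2 (zn n) (le_of_lt hn1.1)
    rw [hn1.2, dist_eq_norm, norm_sub_rev] at h2
    linarith
  set G : ℕ → UNIQ.Hg → ℝ := fun n h => Real.pi / 2 * (1 + hv (δ n) (bump r₁ (tp z₀))
    fun v => (h v : ℝ)) with hG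
  refine ⟨zn, G, htend, fun κ hκ hκn hκb => ?_⟩
  have hbt : TestOn univ (bump r₁ (tp z₀)) := bump_test hr₁p (subset_univ _)
  -- the filter
  set l : Filter (ℕ × UNIQ.Hg) := comap Prod.fst atTop ⊓
    𝓟 {i | i.2 ∈ Cs (p i.1) (k i.1) (S i.1)} with hl
  have hev : ∀ {q : ℕ → Prop}, (∀ᶠ n in atTop, q n) → ∀ᶠ i in l, q i.1 := by
    intro q hq
    exact (tendsto_comap.mono_left inf_le_left).eventually hq
  have hCs : ∀ᶠ i in l, i.2 ∈ Cs (p i.1) (k i.1) (S i.1) :=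
    mem_inf_of_right (mem_principal_self _)
  have hev2 : ∀ {q : ℕ → UNIQ.Hg → Prop}, (∀ᶠ n in atTop, ∀ h ∈ Cs (p n) (k n) (S n), q n h) →
      ∀ᶠ i in l, q i.1 i.2 := by
    intro q hq
    filter_upwards [hev hq, hCs] with i h1 h2
    exact h1 i.2 h2
  have hSlt : ∀ᶠ i in l, Slt (δ i.1) (Fk (inn (p i.1) (S i.1)) i.2 (S i.1) (st (p i.1) (S i.1))
      (κ i.1 i.2)) (Pn (p i.1) (k i.1) (S i.1) ∪ Lk i.2 (S i.1) (st (p i.1) (S i.1)) (κ i.1 i.2))
      (Mn (p i.1) (k i.1) (S i.1) ∪ Rk i.2 (S i.1) (st (p i.1) (S i.1)) (κ i.1 i.2))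
      (Fm (ψn i.1) (δ i.1) (p i.1) (S i.1) i.2 (κ i.1 i.2))
      (gc (ψn i.1) (δ i.1) (p i.1) (S i.1) i.2 (κ i.1 i.2) (zn i.1)) z₀ R₀ c₀ := by
    filter_upwards [hCs, hev hmem, hev (hconv 1 one_pos), hev (hconv (d / 2) (by positivity)),
      hev hball, hev2 hκb] with i hi h1 h2 h3 h4 h5
    obtain ⟨hδ0, hk0, hkN, hpo, hen⟩ := hpoly i.1
    have hj := hκn i.1 i.2 hi
    obtain ⟨hC, hpl⟩ := hcrv _ _ _ _ _ _ hδ0 hk0 hkN hpo hen (huD i.1) i.2 hi
    obtain ⟨m1, m2, m3, m4⟩ := slit_maps hcrv hδ0 hk0 hkN hpo hen (huD i.1) hi hj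
    obtain ⟨g1, g2, g3, g4⟩ := hgeo _ _ _ _ _ hδ0 hk0 hkN hpo hen i.2 hi _ hj
    -- the curve stays away from `z₀`
    have haway : ∀ y ∈ pl (δ i.1) (ru (p i.1) (S i.1) i.2) '' Icc (0 : ℝ) (κ i.1 i.2),
        d / 2 ≤ ‖y - z₀‖ := by
      rintro _ ⟨t, ht, rfl⟩
      have htn : t ∈ Ico (0 : ℝ) (nu (p i.1) (S i.1) i.2) :=
        ⟨ht.1, ht.2.trans_lt (by exact_mod_cast hj)⟩
      rw [← hpl t htn]
      have hcap : L2.cc (et (ψn i.1) (δ i.1) (p i.1) (S i.1) i.2) t ≤ T + 1 := by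
        refine le_trans ?_ h5.1
        exact hC.strictMono.monotoneOn htn ⟨Nat.cast_nonneg _, by exact_mod_cast hj⟩ ht.2
      have him := hC.sq_im_le htn
      set y := et (ψn i.1) (δ i.1) (p i.1) (S i.1) i.2 t with hy
      have hy0 : 0 ≤ y.im := by
        rcases ht.1.eq_or_lt with h0 | h0
        · rw [hy, ← h0, hC.start]
        · exact (hC.im_pos t ⟨h0, htn.2⟩).le
      have hyim : y.im ≤ z.im / 2 := by
        refine abs_le_of_sq_le_sq' ?_ (by positivity) |>.2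
        nlinarith
      have hyz : z.im / 2 ≤ ‖y - z‖ := by
        have h6 := Complex.abs_im_le_norm (y - z)
        rw [Complex.sub_im, abs_sub_comm] at h6
        have h7 := le_abs_self (z.im - y.im)
        linarith
      have h8 := hsep y hy0 hyz
      have h9 := h3 y hy0
      rw [dist_eq_norm] at h9
      have h10 : ‖ψ y - ψ z‖ ≤ ‖ψn i.1 y - ψ y‖ + ‖ψn i.1 y - z₀‖ := by
        rw [← norm_neg (ψn i.1 y - ψ y)]
        have e : ψ y - ψ z = -(ψn i.1 y - ψ y) + (ψn i.1 y - z₀) := by rw [hz₀]; ring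
        rw [e]
        exact norm_add_le _ _
      linarith
    have hz0n : ψn i.1 (zn i.1) ∉
        pl (δ i.1) (ru (p i.1) (S i.1) i.2) '' Icc (0 : ℝ) (κ i.1 i.2) := by
      intro hc
      have := haway _ hc
      rw [h1.2, sub_self, norm_zero] at this
      linarith
    obtain ⟨w1, w2⟩ := m4 (zn i.1) h1.1 hz0n
    have hbn : ∀ y ∈ toC '' interior (region (δ i.1) (S i.1)), ‖y‖ ≤ R₀ := by
      intro y hy
      rw [← (huD i.1).image] at hy
      obtain ⟨x, hx, rfl⟩ := hy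
      have hx' : 0 < x.im := hx
      have h6 := h2 x hx'.le
      rw [dist_eq_norm] at h6
      have h7 := hbd x hx'
      have h8 := norm_le_norm_add_norm_sub' (ψn i.1 x) (ψ x)
      rw [hR₀]
      linarith
    refine ⟨hδ0, g1, m1, m2, fun x hx => ?_, w1, by rw [w2, h1.2], ?_, fun v hv => ?_, ?_, ?_,
      ?_, ?_⟩
    · have : Fm (ψn i.1) (δ i.1) (p i.1) (S i.1) i.2 (κ i.1 i.2) x ∈ Os (δ i.1) (p i.1) (S i.1)
          i.2 (κ i.1 i.2) := by rw [← m3]; exact mem_image_of_mem _ hx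
      exact hbn _ this.1
    · rw [m3]
      intro y hy
      refine ⟨h4 (ball_subset_ball (min_le_right _ _) hy), fun hc => ?_⟩
      have h6 := haway y hc
      rw [mem_ball, dist_eq_norm] at hy
      have h7 : c₀ ≤ d / 2 := min_le_left _ _
      linarith
    · have h6 : ‖PP (δ i.1) v‖ ≤ R₀ := by
        have h7 := g4 v hv
        have h8 : closure (toC '' interior (region (δ i.1) (S i.1))) ⊆ closedBall (0 : ℂ) R₀ :=
          closure_minimal (fun y hy => by rw [mem_closedBall_zero_iff]; exact hbn y hy)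
            isClosed_closedBall
        have h9 := h8 h7
        rwa [mem_closedBall_zero_iff] at h9
      rw [PP_eq] at h6
      rw [Prod.norm_def, max_le_iff, Real.norm_eq_abs, Real.norm_eq_abs]
      exact ⟨(Complex.abs_re_le_norm (tc (dp (δ i.1) v))).trans h6,
        (Complex.abs_im_le_norm (tc (dp (δ i.1) v))).trans h6⟩
    · intro v hv
      rw [m3]; exact g2 v hv
    · intro y hy
      rw [m3] at hy; exact g3 y hy
    · intro v hv Rl v' m hc hvm hm
      exact (hside _ _ _ _ _ _ hδ0 hk0 hkN hpo hen (huD i.1) i.2 hi _ hj v hv Rl v' m hc hvm).1 hm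
    · intro v hv Rl v' m hc hvm hm
      exact (hside _ _ _ _ _ _ hδ0 hk0 hkN hpo hen (huD i.1) i.2 hi _ hj v hv Rl v' m hc hvm).2 hm
  have hδl : Tendsto (fun i : ℕ × UNIQ.Hg => δ i.1) l (𝓝 0) := by
    have : Tendsto (fun i : ℕ × UNIQ.Hg => i.1) l atTop := tendsto_comap.mono_left inf_le_left
    exact hlim.comp this
  have key := obs_fil hSlt hδl (by positivity) hc₀p hLV (fun ψ' hψ' r hr ε hε => by
    obtain ⟨δ₀, hδ₀, h1⟩ := hSD R₀ ψ' hψ' r hr ε hε
    filter_upwards [hSlt, hδl.eventually (gt_mem_nhds hδ₀)] with i hi hid hv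
    exact h1 _ hi.dpos hid _ _ _ hi.arcs hi.bF hv) hr₁p (by rw [hr₁]; linarith)
  -- uniform convergence
  rw [Metric.tendsto_nhds] at key ⊢
  intro ε hε
  have h1 := key (ε / 4) (by positivity)
  rw [hl, eventually_inf_principal, eventually_comap] at h1
  filter_upwards [h1, hmem] with n hn _
  have hδ0 := (hpoly n).1
  have hpi := Real.pi_pos
  have hpi4 := Real.pi_lt_four
  have hb : ∀ h ∈ Cs (p n) (k n) (S n),
      |(gc (ψn n) (δ n) (p n) (S n) h (κ n h) (zn n)).arg -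
        cE (p n) (k n) (S n) h (κ n h) (G n)| ≤ ε / 2 := by
    intro h hh
    have h2 := hn (n, h) rfl hh
    rw [dist_zero_right, Real.norm_eq_abs] at h2
    simp only at h2
    have hfin : (Fk (inn (p n) (S n)) h (S n) (st (p n) (S n)) (κ n h)).Finite := by
      have : (inn (p n) (S n)).Finite := Finset.finite_toSet _
      exact this.subset fun v hv => hv.1
    have e1 : cE (p n) (k n) (S n) h (κ n h) (G n) = Real.pi / 2 * (1 +
        hv (δ n) (bump r₁ (tp z₀)) (mh (Fk (inn (p n) (S n)) h (S n) (st (p n) (S n)) (κ n h))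
          (Mn (p n) (k n) (S n) ∪ Rk h (S n) (st (p n) (S n)) (κ n h)))) := by
      unfold cE mh
      rw [hv_Ex hbt.cs hδ0, hG]
      simp only
      rw [Ex_const_mul, Ex_add, Ex_const (INTF.CA_finite hfin) (CA_nonempty _ _)]
    rw [e1]
    set X := hv (δ n) (bump r₁ (tp z₀)) (mh (Fk (inn (p n) (S n)) h (S n) (st (p n) (S n)) (κ n h))
          (Mn (p n) (k n) (S n) ∪ Rk h (S n) (st (p n) (S n)) (κ n h))) with hX
    set a := (gc (ψn n) (δ n) (p n) (S n) h (κ n h) (zn n)).arg with ha'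
    have e2 : a - Real.pi / 2 * (1 + X) = -(Real.pi / 2) * (X - (2 / Real.pi * a - 1)) := by
      field_simp
      ring
    rw [e2, abs_mul, abs_neg, abs_of_pos (by positivity)]
    nlinarith [abs_nonneg (X - (2 / Real.pi * a - 1))]
  rw [dist_zero_right, Real.norm_eq_abs, abs_of_nonneg (Ex_nonneg fun h _ => abs_nonneg _)]
  have h3 : (Ex (Cs (p n) (k n) (S n)) fun h =>
      |(gc (ψn n) (δ n) (p n) (S n) h (κ n h) (zn n)).arg -
        cE (p n) (k n) (S n) h (κ n h) (G n)|) ≤ ε / 2 :=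
    Ex_le_const (by positivity) hb
  linarith

/-- **The observable**, from the landing estimate and the slit Schwinger-Dyson estimate. -/
theorem t_obs (hS : LAND.S_land 2) (hD : S_slitsd) : T_obs :=
  t_obs_of s_crv s_geo INTF.s_side hD (s_landv (LOC.s_land_of (by norm_num) hS))

end Vale.Agent.N153
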