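import Vale.Agent.P153.R2.R1.HalfP
import Vale.Agent.P153.R2.OBSV.Holo
import Vale.Agent.P153.R2.TOP.Log

/-!
N153, Radó's theorem for boundary curves which are not injective, part 1: the kernel theorem,
peak functions, the non-crossing lemma, and the convergence of the boundary correspondence.
-/

set_option autoImplicit false

namespace Vale.Agent.N153

open Set Topology Metric Filter Bornology
open Vale.Agent.P153.R2 Vale.Agent.P153.R2.R1

/-! ### The kernel theorem -/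

theorem kernel_ultra {ι : Type*} (F : Ultrafilter ι) {f : ℂ → ℂ} {fn : ι → ℂ → ℂ} {E : Set ℂ}
    {R c : ℝ} (hR : 0 < R) (hc : 0 < c) (hf : Conf f E) (h : ∀ i, OBSV.Dsc (fn i) (f 0) R c)
    (hin : ∀ K ⊆ E, IsCompact K → ∀ᶠ i in (F : Filter ι), K ⊆ fn i '' ball 0 1)
    (hout : ∀ p ∈ frontier E, ∀ r > 0, ∀ᶠ i in (F : Filter ι), ¬ ball p r ⊆ fn i '' ball 0 1)
    (hd : ∀ i, ∃ a : ℝ, 0 ≤ a ∧ deriv (fn i) 0 = a) (hd' : ∃ b : ℝ, 0 ≤ b ∧ deriv f 0 = b) :
    TendstoLocallyUniformlyOn fn f (F : Filter ι) (ball 0 1) := by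
  have z0 : (0 : ℂ) ∈ ball (0 : ℂ) 1 := mem_ball_self one_pos
  obtain ⟨g, hg⟩ := OBSV.exists_dsc_limit F hR h
  have hgd := OBSV.lim_diff h hg
  have hgi := OBSV.lim_inj h hc hg
  have hg0 : g 0 = f 0 := (OBSV.lim_dsc h hg).1
  have hG : Conf g (g '' ball 0 1) := ⟨hgd, hgi, rfl⟩
  have h1 : g '' ball 0 1 ⊆ E := by
    refine subset_of_frontier hf.isOpen hG.isPreconnected
      ⟨g 0, mem_image_of_mem _ z0, hg0 ▸ hf.zero_mem⟩ ?_
    rw [Set.disjoint_left]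
    rintro _ ⟨z, hz, rfl⟩ hzf
    obtain ⟨ε, hε, hev⟩ := OBSV.ker_low h hc hg hz one_pos
    obtain ⟨i, hi1, hi2⟩ := (hev.and (hout _ hzf ε hε)).exists
    exact hi2 (hi1.trans (image_mono inter_subset_right))
  have h2 : E ⊆ g '' ball 0 1 := by
    refine subset_of_frontier hG.isOpen hf.isPreconnected
      ⟨f 0, hf.zero_mem, hg0 ▸ mem_image_of_mem _ z0⟩ ?_
    rw [Set.disjoint_left]
    intro x hx hxf
    obtain ⟨r, hr, hrE⟩ := Metric.isOpen_iff.1 hf.isOpen x hx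
    have hK := hin (closedBall x (r / 2)) ((closedBall_subset_ball (by linarith)).trans hrE)
      (isCompact_closedBall _ _)
    obtain ⟨y, ⟨w, hw, rfl⟩, hy⟩ := Metric.mem_closure_iff.1 (frontier_subset_closure hxf) (r / 8)
      (by positivity)
    have h3 := OBSV.ker_up h hc hg hw (s := r / 4) (by
      filter_upwards [hK] with i hi
      refine Subset.trans ?_ hi
      intro u hu
      rw [mem_ball] at hu
      rw [mem_closedBall]
      have := dist_triangle_right u x (g w)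
      linarith)
    refine notMem_of_frontier hG.isOpen hxf (h3 ?_)
    rw [mem_ball]
    linarith
  have hconf : Conf g E := ⟨hgd, hgi, Subset.antisymm h1 h2⟩
  have hdn : ∀ᶠ i in (F : Filter ι), DifferentiableOn ℂ (fn i) (ball 0 1) :=
    Eventually.of_forall fun i => (h i).diff
  have hder : ∃ a : ℝ, 0 ≤ a ∧ deriv g 0 = a := by
    have h1 : TendstoLocallyUniformlyOn (deriv ∘ fn) (deriv g) (F : Filter ι) (ball 0 1) :=
      hg.deriv hdn isOpen_ball
    have h2 : Tendsto (fun i => deriv (fn i) 0) F (𝓝 (deriv g 0)) := h1.tendsto_at z0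
    have hcl : IsClosed {x : ℂ | 0 ≤ x.re ∧ x.im = 0} :=
      (isClosed_le continuous_const Complex.continuous_re).inter
        (isClosed_eq Complex.continuous_im continuous_const)
    have h3 := hcl.mem_of_tendsto h2 (Eventually.of_forall fun i => by
      obtain ⟨a, ha, hae⟩ := hd i
      rw [hae]
      exact ⟨by simpa using ha, by simp⟩)
    exact ⟨(deriv g 0).re, h3.1, Complex.ext (by simp) (by simpa using h3.2)⟩
  obtain ⟨a, ha, hae⟩ := hder
  obtain ⟨b, hb, hbe⟩ := hd'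
  have heq : EqOn g f (ball 0 1) := hconf.eqOn hf hg0 ha hb hae hbe
  exact hg.congr_right heq

/-- **The kernel theorem of Carathéodory**, pointwise form. -/
theorem kernel {ι : Type*} {l : Filter ι} {f : ℂ → ℂ} {fn : ι → ℂ → ℂ} {E : Set ℂ}
    {Dn : ι → Set ℂ} (hf : Conf f E) (hE : IsBounded E) (hfn : ∀ i, Conf (fn i) (Dn i))
    (hb : ∃ R : ℝ, ∀ᶠ i in l, Dn i ⊆ closedBall 0 R) (h0 : ∀ᶠ i in l, fn i 0 = f 0)
    (hin : ∀ K ⊆ E, IsCompact K → ∀ᶠ i in l, K ⊆ Dn i)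
    (hout : ∀ p ∈ frontier E, ∀ r > 0, ∀ᶠ i in l, ¬ ball p r ⊆ Dn i)
    (hd : ∀ i, ∃ a : ℝ, 0 ≤ a ∧ deriv (fn i) 0 = a) (hd' : ∃ b : ℝ, 0 ≤ b ∧ deriv f 0 = b)
    {z : ℂ} (hz : z ∈ ball (0 : ℂ) 1) : Tendsto (fun i => fn i z) l (𝓝 (f z)) := by
  classical
  obtain ⟨R, hR⟩ := hb
  obtain ⟨R', hR'⟩ := hE.subset_closedBall 0
  obtain ⟨r, hr, hrE⟩ := Metric.isOpen_iff.1 hf.isOpen _ hf.zero_mem
  set R₀ : ℝ := max (max R R') 1 with hR₀
  have hR₀0 : 0 < R₀ := lt_of_lt_of_le one_pos (le_max_right _ _)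
  have hDf : OBSV.Dsc f (f 0) R₀ (r / 2) :=
    ⟨hf.diff, hf.inj, rfl, fun w hw => (mem_closedBall_zero_iff.1 (hR' (hf.mem hw))).trans
      ((le_max_right _ _).trans (le_max_left _ _)), by
        rw [hf.img]; exact (ball_subset_ball (by linarith)).trans hrE⟩
  have hev : ∀ᶠ i in l, OBSV.Dsc (fn i) (f 0) R₀ (r / 2) := by
    filter_upwards [hR, h0, hin (closedBall (f 0) (r / 2))
      ((closedBall_subset_ball (by linarith)).trans hrE) (isCompact_closedBall _ _)] with i a1 a2 a3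
    exact ⟨(hfn i).diff, (hfn i).inj, a2, fun w hw =>
      (mem_closedBall_zero_iff.1 (a1 ((hfn i).mem hw))).trans
        ((le_max_left _ _).trans (le_max_left _ _)), by
        rw [(hfn i).img]; exact ball_subset_closedBall.trans a3⟩
  set gn : ι → ℂ → ℂ := fun i => if OBSV.Dsc (fn i) (f 0) R₀ (r / 2) then fn i else f with hgn
  have hge : ∀ᶠ i in l, gn i = fn i := hev.mono fun i hi => if_pos hi
  have hgD : ∀ i, OBSV.Dsc (gn i) (f 0) R₀ (r / 2) := by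
    intro i
    simp only [hgn]
    split_ifs with hi
    · exact hi
    · exact hDf
  rw [tendsto_iff_ultrafilter]
  intro F hF
  have h := kernel_ultra F hR₀0 (half_pos hr) hf hgD (fun K hK hKc => by
      filter_upwards [hF hge, hF (hin K hK hKc)] with i a1 a2
      have a1' : gn i = fn i := a1
      rw [a1', (hfn i).img]
      exact a2)
    (fun p hp ρ hρ => by
      filter_upwards [hF hge, hF (hout p hp ρ hρ)] with i a1 a2
      have a1' : gn i = fn i := a1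
      rw [a1', (hfn i).img]
      exact a2)
    (fun i => by
      simp only [hgn]
      split_ifs with hi
      · exact hd i
      · exact hd') hd'
  refine (h.tendsto_at hz).congr' ?_
  filter_upwards [hF hge] with i hi
  have hi' : gn i = fn i := hi
  rw [hi']

/-! ### Peak functions -/

theorem norm_add_sq_sphere {ξ ζ : ℂ} (hξ : ‖ξ‖ = 1) (hζ : ‖ζ‖ = 1) :
    ‖ξ + ζ‖ ^ 2 = 4 - ‖ξ - ζ‖ ^ 2 := by
  have h := parallelogram_law_with_norm ℝ ξ ζ
  rw [hξ, hζ] at h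
  nlinarith

/-- If the boundary values of bounded holomorphic functions are close to `w` near the boundary
point `ζ`, then the limit function has the value `w` at `ζ`. -/
theorem peak {ι : Type*} {l : Filter ι} [l.NeBot] {f : ℂ → ℂ} {fn : ι → ℂ → ℂ}
    (hf : ContinuousOn f (closedBall 0 1)) (hd : ∀ i, DiffContOnCl ℂ (fn i) (ball 0 1)) {R : ℝ}
    (hb : ∀ᶠ i in l, ∀ z ∈ sphere (0 : ℂ) 1, ‖fn i z‖ ≤ R)
    (hpt : ∀ z ∈ ball (0 : ℂ) 1, Tendsto (fun i => fn i z) l (𝓝 (f z))) {ζ w : ℂ} (hζ : ‖ζ‖ = 1)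
    (hw : ∀ ε > 0, ∃ r > 0, ∀ᶠ i in l, ∀ ξ ∈ sphere (0 : ℂ) 1, dist ξ ζ < r →
      dist (fn i ξ) w ≤ ε) : f ζ = w := by
  have hζc : ζ ∈ closedBall (0 : ℂ) 1 := mem_closedBall_zero_iff.2 hζ.le
  refine eq_of_forall_dist_le fun ε hε => ?_
  obtain ⟨r, hr, hev⟩ := hw ε hε
  set r' : ℝ := min r 1 with hr'
  have hr'0 : 0 < r' := lt_min hr one_pos
  have hr'1 : r' ≤ 1 := min_le_right _ _
  set q : ℝ := 1 - r' ^ 2 / 8 with hq
  have hq0 : 0 ≤ q := by rw [hq]; nlinarith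
  have hq1 : q < 1 := by rw [hq]; nlinarith
  set M : ℝ := |R| + ‖w‖ + 1 with hM
  have hM0 : 0 < M := by positivity
  obtain ⟨N, hN⟩ := exists_pow_lt_of_lt_one (div_pos hε hM0) hq1
  rw [lt_div_iff₀ hM0] at hN
  have key : ∀ᶠ i in l, ∀ z ∈ ball (0 : ℂ) 1, ‖(fn i z - w) * ((z + ζ) / 2) ^ N‖ ≤ ε := by
    filter_upwards [hb, hev] with i h1 h2 z hz
    have hdc : DiffContOnCl ℂ (fun z => (fn i z - w) * ((z + ζ) / 2) ^ N) (ball 0 1) := by
      refine ⟨((hd i).1.sub_const w).mul (by fun_prop), ((hd i).2.sub continuousOn_const).mul ?_⟩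
      fun_prop
    refine Complex.norm_le_of_forall_mem_frontier_norm_le isBounded_ball hdc ?_ (subset_closure hz)
    intro ξ hξ
    rw [frontier_ball 0 one_ne_zero] at hξ
    have hξ1 : ‖ξ‖ = 1 := mem_sphere_zero_iff_norm.1 hξ
    rw [norm_mul, norm_pow]
    have hsq := norm_add_sq_sphere hξ1 hζ
    have hn2 : ‖(ξ + ζ) / 2‖ = ‖ξ + ζ‖ / 2 := by rw [norm_div]; norm_num
    by_cases hc : dist ξ ζ < r
    · have a1 : ‖fn i ξ - w‖ ≤ ε := by rw [← dist_eq_norm]; exact h2 ξ hξ hc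
      have a2 : ‖(ξ + ζ) / 2‖ ≤ 1 := by
        rw [hn2]
        have := norm_add_le ξ ζ
        linarith
      have a3 : ‖(ξ + ζ) / 2‖ ^ N ≤ 1 := pow_le_one₀ (norm_nonneg _) a2
      calc ‖fn i ξ - w‖ * ‖(ξ + ζ) / 2‖ ^ N ≤ ε * 1 := by gcongr
        _ = ε := mul_one ε
    · rw [not_lt, dist_eq_norm] at hc
      have a0 : r' ≤ ‖ξ - ζ‖ := (min_le_left _ _).trans hc
      have a1 : ‖fn i ξ - w‖ ≤ M := by
        have := norm_sub_le (fn i ξ) w
        linarith [h1 ξ hξ, le_abs_self R]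
      have a2 : ‖(ξ + ζ) / 2‖ ≤ q := by
        rw [hn2]
        refine le_of_sq_le_sq ?_ hq0
        have a3 : r' ^ 2 ≤ ‖ξ - ζ‖ ^ 2 := by gcongr
        rw [hq]
        nlinarith [sq_nonneg (r' ^ 2)]
      calc ‖fn i ξ - w‖ * ‖(ξ + ζ) / 2‖ ^ N ≤ M * q ^ N := by gcongr
        _ ≤ ε := by linarith
  have lim1 : ∀ z ∈ ball (0 : ℂ) 1, ‖(f z - w) * ((z + ζ) / 2) ^ N‖ ≤ ε := by
    intro z hz
    refine le_of_tendsto (((hpt z hz).sub_const w).mul_const _).norm ?_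
    filter_upwards [key] with i hi using hi z hz
  have hn := neBot_ball hζc
  have hc : ContinuousWithinAt (fun z => ‖(f z - w) * ((z + ζ) / 2) ^ N‖) (ball 0 1) ζ := by
    refine ContinuousWithinAt.norm (ContinuousWithinAt.mul
      (((hf ζ hζc).mono ball_subset_closedBall).sub continuousWithinAt_const) ?_)
    fun_prop
  have lim2 := le_of_tendsto hc (eventually_nhdsWithin_of_forall lim1)
  have e : (ζ + ζ) / 2 = ζ := by ring
  beta_reduce at lim2
  rw [e, norm_mul, norm_pow, hζ, one_pow, mul_one] at lim2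
  rw [dist_eq_norm]
  exact lim2

/-! ### The non-crossing lemma -/

theorem exists_near {f : ℂ → ℂ} {D : Set ℂ} (h : CConf f D) {ξ : ℂ}
    (hξ : ξ ∈ sphere (0 : ℂ) 1) {U V : Set ℂ} (hU : U ∈ 𝓝 (f ξ)) (hV : V ∈ 𝓝 ξ) :
    ∃ z ∈ ball (0 : ℂ) 1, f z ∈ U ∧ z ∈ V := by
  have hn := neBot_ball (sphere_subset_closedBall hξ)
  have e1 : ∀ᶠ z in 𝓝[ball (0 : ℂ) 1] ξ, f z ∈ U :=
    ((h.cont ξ (sphere_subset_closedBall hξ)).mono_left
      (nhdsWithin_mono _ ball_subset_closedBall)).eventually hU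
  have e2 : ∀ᶠ z in 𝓝[ball (0 : ℂ) 1] ξ, z ∈ V := nhdsWithin_le_nhds hV
  have e3 : ∀ᶠ z in 𝓝[ball (0 : ℂ) 1] ξ, z ∈ ball (0 : ℂ) 1 := self_mem_nhdsWithin
  obtain ⟨z, hz⟩ := (e3.and (e1.and e2)).exists
  exact ⟨z, hz.1, hz.2.1, hz.2.2⟩

theorem noncross' {f : ℂ → ℂ} {D : Set ℂ} (h : CConf f D) {ζ₁ ζ₂ ξ₁ ξ₂ : ℂ}
    (h1 : ζ₁ ∈ sphere (0 : ℂ) 1) (h2 : ζ₂ ∈ sphere (0 : ℂ) 1) (g1 : ξ₁ ∈ sphere (0 : ℂ) 1)
    (g2 : ξ₂ ∈ sphere (0 : ℂ) 1) (he : f ζ₁ = f ζ₂) (ge : f ξ₁ = f ξ₂)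
    (l1 : 0 < lin ζ₁ ζ₂ ξ₁) (l2 : lin ζ₁ ζ₂ ξ₂ < 0) : f ξ₁ = f ζ₁ := by
  by_contra hne
  have hne' : ζ₁ ≠ ζ₂ := by
    rintro rfl
    simp [lin] at l1
  have hcl := continuous_lin ζ₁ ζ₂
  set I : Set ℂ := closedBall 0 1 ∩ {x | lin ζ₁ ζ₂ x = 0} with hI
  have hIc : IsCompact I :=
    (isCompact_closedBall 0 1).inter_right (isClosed_eq hcl continuous_const)
  have hK : IsCompact (f '' I) := hIc.image_of_continuousOn (h.cont.mono inter_subset_left)
  have hq : f ξ₁ ∉ f '' I := by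
    rintro ⟨x, hx, hxe⟩
    rcases (mem_closedBall.1 hx.1).lt_or_eq with hlt | heq
    · exact notMem_of_frontier h.isOpen (h.sphere_mem g1) (hxe ▸ h.mem hlt)
    · rcases eq_or_of_lin h1 h2 hne' heq hx.2 with rfl | rfl
      · exact hne hxe.symm
      · exact hne (hxe.symm.trans he.symm)
  set C := connectedComponentIn (f '' I)ᶜ (f ξ₁) with hC
  have hCo : IsOpen C := hK.isClosed.isOpen_compl.connectedComponentIn
  have haC : f ξ₁ ∈ C := mem_connectedComponentIn hq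
  obtain ⟨z, hz, hzC, hlz⟩ := exists_near h g1 (hCo.mem_nhds haC)
    ((isOpen_lt continuous_const hcl).mem_nhds l1)
  obtain ⟨z', hz', hzC', hlz'⟩ := exists_near h g2 (hCo.mem_nhds (ge ▸ haC))
    ((isOpen_lt hcl continuous_const).mem_nhds l2)
  refine h.sep h1 h2 hne' he hz hz' hlz hlz' ?_
  rw [← hI, ← connectedComponentIn_eq hzC]
  exact hzC'

/-- **Non-crossing**: two crossing chords whose ends are identified have the same image point. -/
theorem noncross {f : ℂ → ℂ} {D : Set ℂ} (h : CConf f D) {ζ₁ ζ₂ ξ₁ ξ₂ : ℂ}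
    (h1 : ζ₁ ∈ sphere (0 : ℂ) 1) (h2 : ζ₂ ∈ sphere (0 : ℂ) 1) (g1 : ξ₁ ∈ sphere (0 : ℂ) 1)
    (g2 : ξ₂ ∈ sphere (0 : ℂ) 1) (he : f ζ₁ = f ζ₂) (ge : f ξ₁ = f ξ₂)
    (l : lin ζ₁ ζ₂ ξ₁ * lin ζ₁ ζ₂ ξ₂ < 0) : f ξ₁ = f ζ₁ := by
  rcases mul_neg_iff.1 l with ⟨l1, l2⟩ | ⟨l1, l2⟩
  · exact noncross' h h1 h2 g1 g2 he ge l1 l2
  · rw [ge]
    exact noncross' h h1 h2 g2 g1 he ge.symm l2 l1

/-! ### The circle -/

/-- The point `e^{i s x}` of the unit circle. -/
noncomputable def ex (s x : ℝ) : ℂ := Complex.exp ((s * x : ℝ) * Complex.I)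

theorem norm_ex (s x : ℝ) : ‖ex s x‖ = 1 := Complex.norm_exp_ofReal_mul_I _

theorem ex_mem (s x : ℝ) : ex s x ∈ sphere (0 : ℂ) 1 := mem_sphere_zero_iff_norm.2 (norm_ex s x)

theorem ex_mem' (s x : ℝ) : ex s x ∈ closedBall (0 : ℂ) 1 := sphere_subset_closedBall (ex_mem s x)

theorem ex_ne_zero (s x : ℝ) : ex s x ≠ 0 := Complex.exp_ne_zero _

theorem continuous_ex (s : ℝ) : Continuous (ex s) := by
  unfold ex
  fun_prop

theorem ex_add (s x y : ℝ) : ex s (x + y) = ex s x * ex s y := by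
  rw [ex, ex, ex, ← Complex.exp_add]
  congr 1
  push_cast
  ring

theorem ex_eq_iff {s : ℝ} (hs : s = 1 ∨ s = -1) {x y : ℝ} :
    ex s x = ex s y ↔ ∃ k : ℤ, x = y + k * (2 * Real.pi) := by
  rw [ex, ex, Complex.exp_eq_exp_iff_exists_int]
  constructor
  · rintro ⟨n, hn⟩
    have h1 := congrArg Complex.im hn
    simp only [Complex.mul_im, Complex.ofReal_re, Complex.I_im, mul_one, Complex.ofReal_im,
      Complex.I_re, mul_zero, add_zero, Complex.add_im, Complex.intCast_re, Complex.mul_re,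
      Complex.re_ofNat, Complex.im_ofNat, sub_zero, Complex.intCast_im, zero_mul, sub_self] at h1
    rcases hs with rfl | rfl
    · exact ⟨n, by linarith⟩
    · exact ⟨-n, by push_cast; linarith⟩
  · rintro ⟨k, rfl⟩
    rcases hs with rfl | rfl
    · exact ⟨k, by push_cast; ring⟩
    · exact ⟨-k, by push_cast; ring⟩

theorem ex_add_int {s : ℝ} (hs : s = 1 ∨ s = -1) (x : ℝ) (k : ℤ) :
    ex s (x + k * (2 * Real.pi)) = ex s x := (ex_eq_iff hs).2 ⟨k, rfl⟩

theorem ex_add_two_pi {s : ℝ} (hs : s = 1 ∨ s = -1) (x : ℝ) :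
    ex s (x + 2 * Real.pi) = ex s x := (ex_eq_iff hs).2 ⟨1, by push_cast; ring⟩

theorem ex_arg {s : ℝ} (hs : s = 1 ∨ s = -1) {u : ℂ} (hu : ‖u‖ = 1) : ex s (s * u.arg) = u := by
  have e : s * (s * u.arg) = u.arg := by rcases hs with rfl | rfl <;> ring
  have := Complex.norm_mul_exp_arg_mul_I u
  rw [hu, Complex.ofReal_one, one_mul] at this
  rw [ex, e, this]

/-- Points of the circle near `ex s y` have parameters near `y`. -/
theorem ex_near {s : ℝ} (hs : s = 1 ∨ s = -1) (y : ℝ) {ρ : ℝ} (hρ : 0 < ρ) :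
    ∃ r > 0, ∀ ξ ∈ sphere (0 : ℂ) 1, dist ξ (ex s y) < r → ∃ x, |x - y| < ρ ∧ ex s x = ξ := by
  have hc : ContinuousAt Complex.arg 1 := Complex.continuousAt_arg Complex.one_mem_slitPlane
  obtain ⟨r, hr, h⟩ := Metric.continuousAt_iff.1 hc ρ hρ
  refine ⟨r, hr, fun ξ hξ hd => ?_⟩
  have hξ1 : ‖ξ‖ = 1 := mem_sphere_zero_iff_norm.1 hξ
  have h0 := ex_ne_zero s y
  have hu : ‖ξ / ex s y‖ = 1 := by rw [norm_div, hξ1, norm_ex, div_one]
  have h1 : dist (ξ / ex s y) 1 < r := by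
    have e : ξ / ex s y - 1 = (ξ - ex s y) / ex s y := by field_simp
    rw [dist_eq_norm, e, norm_div, norm_ex, div_one, ← dist_eq_norm]
    exact hd
  have h2 := h h1
  rw [Complex.arg_one, Real.dist_eq, sub_zero] at h2
  refine ⟨y + s * (ξ / ex s y).arg, ?_, ?_⟩
  · rw [add_sub_cancel_left, abs_mul]
    rcases hs with rfl | rfl <;> simpa using h2
  · rw [ex_add, ex_arg hs hu]
    field_simp

theorem lin_ex (s a b c : ℝ) : lin (ex s a) (ex s b) (ex s c) =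
    4 * Real.sin (s * (b - a) / 2) * Real.sin (s * (c - b) / 2) * Real.sin (s * (c - a) / 2) := by
  simp only [lin, ex, Complex.exp_ofReal_mul_I_re, Complex.exp_ofReal_mul_I_im]
  set u := s * (b - a) / 2 with hu
  set v := s * (c - b) / 2 with hv
  have e1 : s * b = s * a + 2 * u := by rw [hu]; ring
  have e2 : s * c = s * a + 2 * u + 2 * v := by rw [hu, hv]; ring
  have e3 : s * (c - a) / 2 = u + v := by rw [hu, hv]; ring
  rw [e1, e2, e3]
  simp only [Real.sin_add, Real.cos_add, Real.sin_two_mul, Real.cos_two_mul]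
  have h1 := Real.sin_sq_add_cos_sq (s * a)
  have h2 := Real.sin_sq_add_cos_sq u
  have h3 := Real.sin_sq_add_cos_sq v
  generalize Real.sin (s * a) = A at *
  generalize Real.cos (s * a) = B at *
  generalize Real.sin u = C at *
  generalize Real.cos u = D at *
  generalize Real.sin v = E at *
  generalize Real.cos v = F at *
  grind

theorem lin_cross {s : ℝ} (hs : s = 1 ∨ s = -1) {y₁ y₂ x₁ x₂ : ℝ} (h1 : y₁ < y₂) (h2 : y₂ < x₁)
    (h3 : x₁ < x₂) (h4 : x₂ < y₁ + 2 * Real.pi) :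
    lin (ex s y₁) (ex s x₁) (ex s y₂) * lin (ex s y₁) (ex s x₁) (ex s x₂) < 0 := by
  rw [lin_ex, lin_ex]
  have p1 : 0 < Real.sin ((x₁ - y₁) / 2) := Real.sin_pos_of_pos_of_lt_pi (by linarith) (by linarith)
  have p2 : 0 < Real.sin ((x₁ - y₂) / 2) := Real.sin_pos_of_pos_of_lt_pi (by linarith) (by linarith)
  have p3 : 0 < Real.sin ((y₂ - y₁) / 2) := Real.sin_pos_of_pos_of_lt_pi (by linarith) (by linarith)
  have p4 : 0 < Real.sin ((x₂ - x₁) / 2) := Real.sin_pos_of_pos_of_lt_pi (by linarith) (by linarith)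
  have p5 : 0 < Real.sin ((x₂ - y₁) / 2) := Real.sin_pos_of_pos_of_lt_pi (by linarith) (by linarith)
  have hodd : ∀ t : ℝ, Real.sin (s * t / 2) = s * Real.sin (t / 2) := by
    intro t
    rcases hs with rfl | rfl
    · simp
    · have : -1 * t / 2 = -(t / 2) := by ring
      rw [this, Real.sin_neg]
      ring
  have hs2 : s ^ 2 = 1 := by rcases hs with rfl | rfl <;> norm_num
  simp only [hodd]
  have e : Real.sin ((y₂ - x₁) / 2) = -Real.sin ((x₁ - y₂) / 2) := by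
    rw [← Real.sin_neg]
    congr 1
    ring
  rw [e]
  have : 4 * (s * Real.sin ((x₁ - y₁) / 2)) * (s * -Real.sin ((x₁ - y₂) / 2)) *
      (s * Real.sin ((y₂ - y₁) / 2)) * (4 * (s * Real.sin ((x₁ - y₁) / 2)) *
      (s * Real.sin ((x₂ - x₁) / 2)) * (s * Real.sin ((x₂ - y₁) / 2))) =
      -((s ^ 2) ^ 3 * (16 * Real.sin ((x₁ - y₁) / 2) * Real.sin ((x₁ - y₂) / 2) *
        Real.sin ((y₂ - y₁) / 2) * Real.sin ((x₁ - y₁) / 2) * Real.sin ((x₂ - x₁) / 2) *
        Real.sin ((x₂ - y₁) / 2))) := by ring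
  rw [this, hs2, one_pow, one_mul, neg_lt_zero]
  positivity

/-! ### The boundary correspondence -/

theorem per_nat {g : ℝ → ℝ} {L : ℝ} (h : ∀ t, g (t + 1) = g t + L) (n : ℕ) (t : ℝ) :
    g (t + n) = g t + n * L := by
  induction n with
  | zero => simp
  | succ n ih =>
    push_cast
    rw [← add_assoc, h, ih]
    ring

theorem per_int' {g : ℝ → ℝ} {L : ℝ} (h : ∀ t, g (t + 1) = g t + L) (k : ℤ) (t : ℝ) :
    g (t + k) = g t + k * L := by
  obtain ⟨n, rfl | rfl⟩ := k.eq_nat_or_neg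
  · exact_mod_cast per_nat h n t
  · have := per_nat h n (t + (-(n : ℤ) : ℤ))
    push_cast at this ⊢
    have e : t + -(n : ℝ) + n = t := by ring
    rw [e] at this
    linarith

theorem lift_ultra {ι : Type*} (F : Ultrafilter ι) {f : ℂ → ℂ} {D : Set ℂ} {fn : ι → ℂ → ℂ}
    (hf : CConf f D) (hd : ∀ i, DiffContOnCl ℂ (fn i) (ball 0 1)) {R : ℝ}
    (hb : ∀ᶠ i in (F : Filter ι), ∀ z ∈ sphere (0 : ℂ) 1, ‖fn i z‖ ≤ R)
    (hpt : ∀ z ∈ ball (0 : ℂ) 1, Tendsto (fun i => fn i z) F (𝓝 (f z))) {s : ℝ}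
    (hs : s = 1 ∨ s = -1) {σ : ℝ → ℝ} (hσ : Monotone σ)
    (hσp : ∀ t, σ (t + 1) = σ t + 2 * Real.pi) {Λ : ι → ℝ → ℝ} (hΛc : ∀ i, Continuous (Λ i))
    (hΛm : ∀ i, Monotone (Λ i)) (hΛp : ∀ i t, Λ i (t + 1) = Λ i t + 2 * Real.pi)
    (hΛ0 : ∀ i, Λ i 0 ∈ Icc 0 (2 * Real.pi))
    (hc : ∀ ε > 0, ∀ᶠ i in (F : Filter ι), ∀ t,
      dist (fn i (ex s (Λ i t))) (f (ex s (σ t))) < ε)
    {t : ι → ℝ} (ht : ∀ i, t i ∈ Icc (0 : ℝ) 1) :
    Tendsto (fun i => dist (ex s (Λ i (t i))) (ex s (σ (t i)))) F (𝓝 0) := by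
  have hπ := Real.pi_pos
  have hfe : Continuous fun x => f (ex s x) :=
    hf.cont.comp_continuous (continuous_ex s) (ex_mem' s)
  -- the inverse parameters
  have hsur : ∀ y : ℝ, ∃ n : ℕ, ∀ i, ∃ u ∈ Icc (-(n : ℝ)) n, Λ i u = y := by
    intro y
    obtain ⟨n, hn⟩ := exists_nat_gt (|y| / (2 * Real.pi) + 1)
    have hn' : |y| + 2 * Real.pi < n * (2 * Real.pi) := by
      rw [← div_lt_iff₀ (by positivity), add_div, div_self (by positivity)]
      exact hn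
    refine ⟨n, fun i => ?_⟩
    have h1 := per_nat (hΛp i) n 0
    have h2 := per_nat (hΛp i) n (-n)
    rw [zero_add] at h1
    rw [neg_add_cancel] at h2
    have hn0 : (0 : ℝ) ≤ n := Nat.cast_nonneg n
    refine intermediate_value_Icc (by linarith) (hΛc i).continuousOn ⟨?_, ?_⟩
    · linarith [(hΛ0 i).2, neg_abs_le y]
    · linarith [(hΛ0 i).1, le_abs_self y]
  choose n hn using hsur
  choose T hT1 hT2 using hn
  have hlt : ∀ i y u, y < Λ i u → T y i < u := fun i y u h => by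
    by_contra hc
    have := hΛm i (not_lt.1 hc)
    rw [hT2] at this
    linarith
  have hgt : ∀ i y u, Λ i u < y → u < T y i := fun i y u h => by
    by_contra hc
    have := hΛm i (not_lt.1 hc)
    rw [hT2] at this
    linarith
  have hmono : ∀ i y y', y ≤ y' → σ (T y i) ≤ σ (T y' i) := by
    intro i y y' h
    rcases h.lt_or_eq with h | rfl
    · exact hσ (hlt i y _ (by rw [hT2]; exact h)).le
    · exact le_rfl
  have hlim : ∀ y, ∃ x, Tendsto (fun i => σ (T y i)) F (𝓝 x) := by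
    intro y
    obtain ⟨x, -, hx⟩ := (isCompact_Icc (a := σ (-(n y : ℝ))) (b := σ (n y))).ultrafilter_le_nhds
      (F.map fun i => σ (T y i)) (le_principal_iff.2 (Eventually.of_forall
        (p := fun i => σ (T y i) ∈ Icc (σ (-(n y : ℝ))) (σ (n y)))
        fun i => ⟨hσ (hT1 y i).1, hσ (hT1 y i).2⟩))
    exact ⟨x, hx⟩
  choose μ hμ using hlim
  have hμm : Monotone μ := fun y y' h =>
    le_of_tendsto_of_tendsto' (hμ y) (hμ y') fun i => hmono i y y' h
  have hμp : ∀ y y', y' < y + 2 * Real.pi → μ y' ≤ μ y + 2 * Real.pi := by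
    intro y y' h
    refine le_of_tendsto_of_tendsto' (hμ y') ((hμ y).add_const _) fun i => ?_
    rw [← hσp]
    exact hσ (hlt i y' _ (by rw [hΛp, hT2]; exact h)).le
  -- the boundary values at the points of continuity
  have c1 : ∀ y₀, ContinuousAt μ y₀ → f (ex s y₀) = f (ex s (μ y₀)) := by
    intro y₀ h₀
    refine peak hf.cont hd hb hpt (norm_ex s y₀) fun ε hε => ?_
    obtain ⟨η, hη, h1⟩ := Metric.continuousAt_iff.1 (hfe.continuousAt (x := μ y₀)) (ε / 2)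
      (half_pos hε)
    obtain ⟨ρ, hρ, h2⟩ := Metric.continuousAt_iff.1 h₀ η hη
    obtain ⟨r, hr, h3⟩ := ex_near hs y₀ (half_pos hρ)
    have a1 : dist (μ (y₀ - ρ / 2)) (μ y₀) < η := h2 (by
      rw [Real.dist_eq, sub_sub_cancel_left, abs_neg, abs_of_pos (half_pos hρ)]; linarith)
    have a2 : dist (μ (y₀ + ρ / 2)) (μ y₀) < η := h2 (by
      rw [Real.dist_eq, add_sub_cancel_left, abs_of_pos (half_pos hρ)]; linarith)
    rw [Real.dist_eq, abs_lt] at a1 a2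
    refine ⟨r, hr, ?_⟩
    filter_upwards [hc (ε / 2) (half_pos hε),
      (hμ (y₀ - ρ / 2)).eventually (lt_mem_nhds (show μ y₀ - η < _ by linarith [a1.1])),
      (hμ (y₀ + ρ / 2)).eventually (gt_mem_nhds (show _ < μ y₀ + η by linarith [a2.2]))]
      with i b1 b2 b3 ξ hξ hdξ
    obtain ⟨x, hx, rfl⟩ := h3 ξ hξ hdξ
    rw [abs_lt] at hx
    have b4 := hmono i (y₀ - ρ / 2) x (by linarith [hx.1])
    have b5 := hmono i x (y₀ + ρ / 2) (by linarith [hx.2])
    have b6 := b1 (T x i)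
    rw [hT2] at b6
    have b7 := h1 (x := σ (T x i)) (by rw [Real.dist_eq, abs_lt]; constructor <;> linarith)
    have b8 := dist_triangle (fn i (ex s x)) (f (ex s (σ (T x i)))) (f (ex s (μ y₀)))
    linarith
  have hdense : Dense {y | ContinuousAt μ y} := by
    have := hμm.countable_not_continuousAt.dense_compl ℝ
    convert this using 1
    ext y
    simp
  -- the limit correspondence is the identity
  have c2 : ∀ y₀, ContinuousAt μ y₀ → ∃ k : ℤ, μ y₀ = y₀ + k * (2 * Real.pi) := by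
    intro y₀ h₀
    by_contra hne
    push Not at hne
    obtain ⟨k, hk, -⟩ := existsUnique_add_zsmul_mem_Ico (show 0 < 2 * Real.pi by positivity)
      (μ y₀) y₀
    rw [zsmul_eq_mul] at hk
    have hk1 : y₀ < μ y₀ + k * (2 * Real.pi) := by
      refine lt_of_le_of_ne hk.1 fun e => hne (-k) ?_
      push_cast
      linarith
    set x₀ := μ y₀ + k * (2 * Real.pi) with hx₀
    set η : ℝ := min (x₀ - y₀) (y₀ + 2 * Real.pi - x₀) / 2 with hη
    have hη0 : 0 < η := half_pos (lt_min (by linarith) (by linarith [hk.2]))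
    have hη1 : 2 * η ≤ x₀ - y₀ := by
      rw [hη]; linarith [min_le_left (x₀ - y₀) (y₀ + 2 * Real.pi - x₀)]
    have hη2 : 2 * η ≤ y₀ + 2 * Real.pi - x₀ := by
      rw [hη]; linarith [min_le_right (x₀ - y₀) (y₀ + 2 * Real.pi - x₀)]
    obtain ⟨ρ₀, hρ₀, h2⟩ := Metric.continuousAt_iff.1 h₀ η hη0
    set ρ := min ρ₀ η with hρ
    have hρ0 : 0 < ρ := lt_min hρ₀ hη0
    have hρ1 : ρ ≤ η := min_le_right _ _
    have h3 : ∀ y ∈ Ioo (y₀ - ρ) (y₀ + ρ), |μ y - μ y₀| < η := fun y hy => by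
      rw [← Real.dist_eq]
      refine h2 ?_
      rw [Real.dist_eq, abs_lt]
      have := min_le_left ρ₀ η
      constructor <;> linarith [hy.1, hy.2]
    have h4 : ∀ y₁ ∈ Ioo (y₀ - ρ) (y₀ + ρ), ∀ y₂ ∈ Ioo (y₀ - ρ) (y₀ + ρ), ContinuousAt μ y₁ →
        ContinuousAt μ y₂ → y₁ < y₂ → f (ex s y₂) = f (ex s y₁) := by
      intro y₁ m1 y₂ m2 k1 k2 h12
      have e1 : f (ex s y₁) = f (ex s (μ y₁ + k * (2 * Real.pi))) := by
        rw [ex_add_int hs]; exact c1 y₁ k1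
      have e2 : f (ex s y₂) = f (ex s (μ y₂ + k * (2 * Real.pi))) := by
        rw [ex_add_int hs]; exact c1 y₂ k2
      rcases (hμm h12.le).lt_or_eq with h | h
      · have d1 := abs_lt.1 (h3 y₁ m1)
        have d2 := abs_lt.1 (h3 y₂ m2)
        refine noncross hf (ex_mem s _) (ex_mem s _) (ex_mem s _) (ex_mem s _) e1 e2
          (lin_cross hs h12 ?_ (by linarith) ?_)
        · linarith [d1.1, m2.2]
        · linarith [d2.2, m1.1]
      · rw [e1, e2, h]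
    have hy₀ : y₀ ∈ Ioo (y₀ - ρ) (y₀ + ρ) := ⟨by linarith, by linarith⟩
    have h5 : ∀ y ∈ Ioo (y₀ - ρ) (y₀ + ρ), f (ex s y) = f (ex s y₀) := by
      intro y hy
      have hcl : IsClosed {y | f (ex s y) = f (ex s y₀)} := isClosed_eq hfe continuous_const
      refine closure_minimal ?_ hcl (hdense.open_subset_closure_inter isOpen_Ioo hy)
      rintro u ⟨hu, ku⟩
      rcases lt_trichotomy u y₀ with h | rfl | h
      · exact (h4 u hu y₀ hy₀ ku h₀ h).symm
      · rfl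
      · exact h4 y₀ hy₀ u hu h₀ ku h
    obtain ⟨r, hr, h6⟩ := ex_near hs y₀ hρ0
    refine hf.not_const (notMem_of_frontier hf.isOpen (hf.sphere_mem (ex_mem s y₀)))
      isOpen_ball (ex_mem s y₀) (mem_ball_self hr) fun z hz hzO => ?_
    obtain ⟨x, hx, rfl⟩ := h6 z hz hzO
    rw [abs_lt] at hx
    exact h5 x ⟨by linarith [hx.1], by linarith [hx.2]⟩
  -- conclusion
  obtain ⟨x, -, hx⟩ := (isCompact_Icc (a := σ 0) (b := σ 1)).ultrafilter_le_nhds
    (F.map fun i => σ (t i)) (le_principal_iff.2 (Eventually.of_forall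
      (p := fun i => σ (t i) ∈ Icc (σ 0) (σ 1)) fun i => ⟨hσ (ht i).1, hσ (ht i).2⟩))
  obtain ⟨y, -, hy⟩ := (isCompact_Icc (a := (0 : ℝ)) (b := 4 * Real.pi)).ultrafilter_le_nhds
    (F.map fun i => Λ i (t i)) (le_principal_iff.2 (Eventually.of_forall
      (p := fun i => Λ i (t i) ∈ Icc (0 : ℝ) (4 * Real.pi)) fun i => by
        have a1 := hΛm i (ht i).1
        have a2 := hΛm i (ht i).2
        have a3 := hΛp i 0
        rw [zero_add] at a3
        exact ⟨by linarith [(hΛ0 i).1], by linarith [(hΛ0 i).2]⟩))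
  have hx' : Tendsto (fun i => σ (t i)) F (𝓝 x) := hx
  have hy' : Tendsto (fun i => Λ i (t i)) F (𝓝 y) := hy
  have hxy : ex s y = ex s x := by
    refine eq_of_forall_dist_le fun ε hε => ?_
    obtain ⟨η₀, hη₀, h1⟩ := Metric.continuousAt_iff.1 ((continuous_ex s).continuousAt (x := y)) ε hε
    set η := min η₀ 1 with hη
    have hη0 : 0 < η := lt_min hη₀ one_pos
    have hη1 : η ≤ 1 := min_le_right _ _
    have hη2 : η ≤ η₀ := min_le_left _ _
    obtain ⟨y₁, k1, m1⟩ := hdense.exists_between (show y - η < y by linarith)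
    obtain ⟨y₂, k2, m2⟩ := hdense.exists_between (show y < y + η by linarith)
    have a1 : μ y₁ ≤ x := by
      refine le_of_tendsto_of_tendsto (hμ y₁) hx' ?_
      filter_upwards [hy'.eventually (lt_mem_nhds m1.2)] with i hi
      exact hσ (hlt i y₁ _ hi).le
    have a2 : x ≤ μ y₂ := by
      refine le_of_tendsto_of_tendsto hx' (hμ y₂) ?_
      filter_upwards [hy'.eventually (gt_mem_nhds m2.1)] with i hi
      exact hσ (hgt i y₂ _ hi).le
    obtain ⟨j1, e1⟩ := c2 y₁ k1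
    obtain ⟨j2, e2⟩ := c2 y₂ k2
    have a3 : μ y₂ ≤ μ y₁ + 2 * Real.pi :=
      hμp y₁ y₂ (by linarith [m1.1, m2.2, Real.pi_gt_three])
    have a4 : j1 = j2 := by
      have b1 : ((j2 - j1 - 1 : ℤ) : ℝ) * (2 * Real.pi) < 0 := by
        push_cast; linarith [m1.2, m2.1]
      have b2 : 0 < ((j2 - j1 + 1 : ℤ) : ℝ) * (2 * Real.pi) := by
        push_cast; linarith [m1.1, m2.2, Real.pi_gt_three]
      have b3 : ((j2 - j1 - 1 : ℤ) : ℝ) < 0 := by
        by_contra hn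
        have := mul_nonneg (not_lt.1 hn) (show 0 ≤ 2 * Real.pi by positivity)
        linarith
      have b4 : 0 < ((j2 - j1 + 1 : ℤ) : ℝ) := pos_of_mul_pos_left b2 (by positivity)
      have b5 : j2 - j1 - 1 < 0 := by exact_mod_cast b3
      have b6 : 0 < j2 - j1 + 1 := by exact_mod_cast b4
      omega
    subst a4
    have e3 : ex s x = ex s (x - j1 * (2 * Real.pi)) := by
      rw [← ex_add_int hs (x - j1 * (2 * Real.pi)) j1, sub_add_cancel]
    rw [e3, dist_comm]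
    refine (h1 ?_).le
    rw [Real.dist_eq, abs_lt]
    constructor <;> linarith [m1.1, m2.2]
  have hfin := (((continuous_ex s).tendsto y).comp hy').dist (((continuous_ex s).tendsto x).comp hx')
  rw [hxy, dist_self] at hfin
  exact hfin

/-- **Convergence of the boundary correspondence.** -/
theorem lift_conv {ι : Type*} {l : Filter ι} {f : ℂ → ℂ} {D : Set ℂ} {fn : ι → ℂ → ℂ}
    (hf : CConf f D) (hd : ∀ i, DiffContOnCl ℂ (fn i) (ball 0 1)) {R : ℝ}
    (hb : ∀ᶠ i in l, ∀ z ∈ sphere (0 : ℂ) 1, ‖fn i z‖ ≤ R)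
    (hpt : ∀ z ∈ ball (0 : ℂ) 1, Tendsto (fun i => fn i z) l (𝓝 (f z))) {s : ℝ}
    (hs : s = 1 ∨ s = -1) {σ : ℝ → ℝ} (hσ : Monotone σ)
    (hσp : ∀ t, σ (t + 1) = σ t + 2 * Real.pi) {Λ : ι → ℝ → ℝ}
    (hΛ : ∀ᶠ i in l, Continuous (Λ i) ∧ Monotone (Λ i) ∧ ∀ t, Λ i (t + 1) = Λ i t + 2 * Real.pi)
    (hc : ∀ ε > 0, ∀ᶠ i in l, ∀ t, dist (fn i (ex s (Λ i t))) (f (ex s (σ t))) < ε)
    {ε : ℝ} (hε : 0 < ε) : ∀ᶠ i in l, ∀ t, dist (ex s (Λ i t)) (ex s (σ t)) < ε := by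
  classical
  have hπ := Real.pi_pos
  have hex : ∀ i, ∃ M : ℝ → ℝ, Continuous M ∧ Monotone M ∧
      (∀ t, M (t + 1) = M t + 2 * Real.pi) ∧ M 0 ∈ Icc 0 (2 * Real.pi) ∧
      ((Continuous (Λ i) ∧ Monotone (Λ i) ∧ ∀ t, Λ i (t + 1) = Λ i t + 2 * Real.pi) →
        ∀ t, ex s (M t) = ex s (Λ i t)) := by
    intro i
    by_cases h : Continuous (Λ i) ∧ Monotone (Λ i) ∧ ∀ t, Λ i (t + 1) = Λ i t + 2 * Real.pi
    · obtain ⟨k, hk, -⟩ := existsUnique_add_zsmul_mem_Ico (show 0 < 2 * Real.pi by positivity)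
        (Λ i 0) 0
      rw [zsmul_eq_mul, zero_add] at hk
      refine ⟨fun t => Λ i t + k * (2 * Real.pi), h.1.add continuous_const,
        h.2.1.add_const _, fun t => ?_, ⟨hk.1, hk.2.le⟩, fun _ t => ex_add_int hs _ k⟩
      simp only [h.2.2]
      ring
    · refine ⟨fun t => 2 * Real.pi * t, by fun_prop, fun a b hab => ?_, fun t => by ring,
        ⟨by simp, by simp [hπ.le]⟩, fun h' => (h h').elim⟩
      exact mul_le_mul_of_nonneg_left hab (by positivity)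
  choose M hM1 hM2 hM3 hM4 hM5 using hex
  have hMe : ∀ᶠ i in l, ∀ t, ex s (M i t) = ex s (Λ i t) := hΛ.mono fun i hi => hM5 i hi
  by_contra hcon
  rw [not_eventually] at hcon
  set S : Set ι := {i | ¬ ∀ t, dist (ex s (Λ i t)) (ex s (σ t)) < ε} with hS
  have hne : (l ⊓ 𝓟 S).NeBot := Filter.frequently_iff_neBot.1 hcon
  set F : Ultrafilter ι := Ultrafilter.of (l ⊓ 𝓟 S) with hF
  have hFle : (F : Filter ι) ≤ l ⊓ 𝓟 S := Ultrafilter.of_le _
  have hFl : (F : Filter ι) ≤ l := hFle.trans inf_le_left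
  have hFS : S ∈ (F : Filter ι) := le_principal_iff.1 (hFle.trans inf_le_right)
  have ht : ∀ i, ∃ t ∈ Icc (0 : ℝ) 1, (i ∈ S → (∀ t, ex s (M i t) = ex s (Λ i t)) →
      ε ≤ dist (ex s (M i t)) (ex s (σ t))) := by
    intro i
    by_cases hi : i ∈ S
    · have hi' := hi
      rw [hS, mem_ofPred_eq] at hi'
      push Not at hi'
      obtain ⟨u, hu⟩ := hi'
      refine ⟨Int.fract u, ⟨Int.fract_nonneg u, (Int.fract_lt_one u).le⟩, fun _ he => ?_⟩
      have e1 := per_int' (hM3 i) ⌊u⌋ (Int.fract u)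
      have e2 := per_int' hσp ⌊u⌋ (Int.fract u)
      rw [Int.fract_add_floor] at e1 e2
      rw [← he u, e1, e2, ex_add_int hs, ex_add_int hs] at hu
      exact hu
    · exact ⟨0, ⟨le_rfl, zero_le_one⟩, fun h => (hi h).elim⟩
  choose t ht1 ht2 using ht
  have h := lift_ultra F hf hd (hFl hb) (fun z hz => (hpt z hz).mono_left hFl) hs hσ hσp hM1 hM2
    hM3 hM4 (fun η hη => by
      filter_upwards [hFl (hc η hη), hFl hMe] with i a1 a2 u
      have a2' : ∀ t, ex s (M i t) = ex s (Λ i t) := a2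
      rw [a2']
      exact a1 u) ht1
  obtain ⟨i, a1, a2, a3⟩ := ((h.eventually (gt_mem_nhds hε)).and
    ((show ∀ᶠ i in (F : Filter ι), i ∈ S from hFS).and (hFl hMe))).exists
  exact absurd (ht2 i a2 a3) (not_le.2 a1)

end Vale.Agent.N153
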